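import Vale.Agent.P028.Lift.Defs

/-!
Pools: two lifted families above a threshold `Y`, and their near pairs without an exact relation
between the nodes.

A pool is a pair of deficiencies above `Y`; `f` is the radius of the lifted modulus, `k` the common
centre at the primes above `Y`.  A pair has `c = qd w v` and `a = qd v w`.
-/

noncomputable section

namespace Vale.Agent.P028.Lift

open Finset

/-- `∏ (1 - 1/p)` over the primes `p ≤ Y` of `n`. -/
def phiY (Y n : ℕ) : ℝ := ∏ p ∈ n.primeFactors.filter (fun p => p ≤ Y), (1 - 1 / (p : ℝ))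

/-- One side of a pool. -/
structure Pool (F f : ℕ → ℝ) (V : Finset ℕ) (k : ℕ → ℕ) (Y : ℕ) : Prop where
  pos : ∀ v ∈ V, 0 < v
  F_nonneg : ∀ v, 0 ≤ F v
  f_nonneg : ∀ v, 0 ≤ f v
  F_le : ∀ v ∈ V, F v ≤ f v * phiY Y v
  centre_le : ∀ v ∈ V, ∀ p : ℕ, p.Prime → Y < p → k p ≤ v.factorization p

/-- Above `Y` one member of the pair is at the centre. -/
def Linked (k : ℕ → ℕ) (Y v w : ℕ) : Prop :=
  ∀ p : ℕ, p.Prime → Y < p → v.factorization p = k p ∨ w.factorization p = k p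

/-- The node `u / P` of a shift at radius `f`. -/
def IsNode (β f : ℝ) (P : ℕ) (u : ℤ) : Prop :=
  0 < P ∧ IsCoprime u (P : ℤ) ∧ (f * P) ^ 2 < f / 64 ∧ ((P : ℝ) * β - u) ^ 2 < f / 64

/-- An exact relation between the nodes of the two members. -/
def NodesExact (β β' f f' : ℝ) (p : ℕ × ℕ) (n : ℤ) : Prop :=
  ∃ (P P' : ℕ) (u u' : ℤ), IsNode β f P u ∧ IsNode β' f' P' u' ∧
    n * (P : ℤ) * P' = (p.1 : ℤ) * u * P' - (p.2 : ℤ) * u' * P

/-- A pair of level `x` which is neither tiny nor exact for the two nodes. -/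
def BadPair (β β' x : ℝ) (f f' : ℕ → ℝ) (k : ℕ → ℕ) (Y v w : ℕ) : Prop :=
  Linked k Y v w ∧ f v * (qd w v : ℝ) ≤ x ∧ f' w * (qd v w : ℝ) ≤ x ∧
    x ^ (-(1 / 200 : ℝ)) < max (qd w v : ℝ) (qd v w) ∧
    ∃ n : ℤ, |(qd w v : ℝ) * β - (qd v w : ℝ) * β' - n| < 2 * x ∧
      ¬ NodesExact β β' (f v) (f' w) (qd w v, qd v w) n

end Vale.Agent.P028.Lift
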