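import Vale.Agent.P028.Bilinear
import Vale.Agent.P028.Lift.Pool

/-!
The estimate in a final state of two pools.

In a state `qd v w = Q a d` and `qd w v = R c b` with `a = upDev v`, `d = downDev w`, `c = upDev w`,
`b = downDev v`.  The primes of the downward deviations are at most `Y`.
-/

noncomputable section

namespace Vale.Agent.P028.Lift

open Finset BilinearAux

/-- The centre at the primes up to `Y`. -/
def centreY (U : Finset ℕ) (k : ℕ → ℕ) (Y : ℕ) : ℕ := centre (U.filter (fun p => p ≤ Y)) k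

/-- The weight `φ(N) / (N φ(d))` of a downward deviation. -/
def pDown (N d : ℕ) : ℝ := (Nat.totient N : ℝ) / N / Nat.totient d

theorem phiY_nonneg (Y n : ℕ) : 0 ≤ phiY Y n := by
  refine Finset.prod_nonneg fun p hp => sub_nonneg.2 ?_
  have h2 := (Nat.prime_of_mem_primeFactors (Finset.mem_filter.1 hp).1).two_le
  rw [div_le_one (by positivity)]
  exact_mod_cast le_trans one_le_two h2

/-- `phiY Y w ≤ φ(N)/N · d/φ(d)` when the primes of `N` are at most `Y` and divide `w d`. -/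
theorem phiY_le {N w d Y : ℕ} (hN : 0 < N) (hd : 0 < d) (hY : ∀ p ∈ N.primeFactors, p ≤ Y)
    (h : N.primeFactors ⊆ w.primeFactors ∪ d.primeFactors) :
    phiY Y w ≤ (Nat.totient N : ℝ) / N * ((d : ℝ) / Nat.totient d) := by
  have hf : ∀ p : ℕ, p.Prime → 0 < 1 - 1 / (p : ℝ) ∧ 1 - 1 / (p : ℝ) ≤ 1 := by
    intro p hp
    have : (2 : ℝ) ≤ p := by exact_mod_cast hp.two_le
    constructor
    · rw [sub_pos, div_lt_one (by linarith)]; linarith
    · linarith [show (0 : ℝ) ≤ 1 / (p : ℝ) by positivity]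
  have hmem : ∀ {m p : ℕ}, p ∈ m.primeFactors → p.Prime := Nat.prime_of_mem_primeFactors
  have hu : ∀ p ∈ w.primeFactors.filter (fun p => p ≤ Y) ∪ d.primeFactors, p.Prime := fun p hp =>
    (Finset.mem_union.1 hp).elim (fun h => hmem (Finset.mem_filter.1 h).1) fun h => hmem h
  have hsub : N.primeFactors ⊆ w.primeFactors.filter (fun p => p ≤ Y) ∪ d.primeFactors := by
    intro p hp
    rcases Finset.mem_union.1 (h hp) with h1 | h1
    · exact Finset.mem_union_left _ (Finset.mem_filter.2 ⟨h1, hY p hp⟩)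
    · exact Finset.mem_union_right _ h1
  rw [← inv_div (Nat.totient d : ℝ), totient_div_eq d hd, totient_div_eq N hN, ← div_eq_mul_inv,
    le_div_iff₀ (Finset.prod_pos fun p hp => (hf p (hmem hp)).1), phiY, ← Finset.prod_union_inter]
  refine le_trans (mul_le_of_le_one_right (Finset.prod_nonneg fun p hp => (hf p (hu p hp)).1.le)
    (Finset.prod_le_one (fun p hp => (hf p (hmem (Finset.mem_inter.1 hp).2)).1.le)
      fun p hp => (hf p (hmem (Finset.mem_inter.1 hp).2)).2)) ?_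
  rw [← Finset.prod_sdiff hsub]
  exact mul_le_of_le_one_left (Finset.prod_nonneg fun p hp => (hf p (hmem hp)).1.le)
    (Finset.prod_le_one (fun p hp => (hf p (hu p (Finset.mem_sdiff.1 hp).1)).1.le)
      fun p hp => (hf p (hu p (Finset.mem_sdiff.1 hp).1)).2)

open Classical in
/-- The two sums of a final state bound its weight. -/
theorem final2_le {P U V W : Finset ℕ} {i j k : ℕ → ℕ} (h : FinState P (V ∪ W) U V W i j)
    (F F' f f' : ℕ → ℝ) (Y : ℕ) (α1 α2 s t x x' : ℝ) (hF : ∀ v, 0 ≤ F v) (hF' : ∀ w, 0 ≤ F' w)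
    (hFf : ∀ v ∈ V, F v ≤ f v * phiY Y v) (hFf' : ∀ w ∈ W, F' w ≤ f' w * phiY Y w)
    (hf : ∀ v, 0 ≤ f v) (hf' : ∀ w, 0 ≤ f' w)
    (hα2 : 0 < α2) (hα1 : 0 < α1) (hsum : α1 + α2 < 1) (hst : s * α1 = t * α2)
    (hx : 0 < x) (hx' : 0 < x')
    (K : ℕ → ℕ → ℝ) (hK : ∀ v w, 0 ≤ K v w) (hK1 : ∀ v w, K v w ≤ 1)
    (hsupp : ∀ v ∈ V, ∀ w ∈ W, K v w ≠ 0 →
      NoCoDev U k v w ∧ f v * (qd w v : ℝ) ≤ x ∧ f' w * (qd v w : ℝ) ≤ x' ∧
        (∀ p ∈ (downDev U k w).primeFactors, p ≤ Y) ∧ ∀ p ∈ (downDev U k v).primeFactors, p ≤ Y)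
    (G1 G2 : ℝ) (hG1n : 0 ≤ G1) (hG2n : 0 ≤ G2)
    (hG1 : ∀ v ∈ V, ∑ w ∈ W.filter (fun w => K v w ≠ 0),
      pDown (centreY U k Y) (downDev U k w) *
        (((upDev U k v : ℝ) / upDev U k w) ^ s / upDev U k v) ≤ G1)
    (hG2 : ∀ w ∈ W, ∑ v ∈ V.filter (fun v => K v w ≠ 0),
      pDown (centreY U k Y) (downDev U k v) *
        (((upDev U k w : ℝ) / upDev U k v) ^ t / upDev U k w) ≤ G2) :
    ∑ v ∈ V, ∑ w ∈ W, K v w * (F v * F' w) ≤
      ((∑ v ∈ V, F v) * ∑ w ∈ W, F' w) ^ (1 - α1 - α2) *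
        ((∑ v ∈ V, F v) * (x' / (fixedPart (P \ U) i j : ℝ) * G1)) ^ α1 *
        ((∑ w ∈ W, F' w) * (x / (fixedPart (P \ U) j i : ℝ) * G2)) ^ α2 := by
  set Q1 : ℝ := (fixedPart (P \ U) i j : ℝ) with hQ1d
  set Q2 : ℝ := (fixedPart (P \ U) j i : ℝ) with hQ2d
  have hQ1 : 0 < Q1 := by rw [hQ1d]; exact_mod_cast fixedPart_pos h.prime_sdiff i j
  have hQ2 : 0 < Q2 := by rw [hQ2d]; exact_mod_cast fixedPart_pos h.prime_sdiff j i
  have hU := h.prime_U
  set T := V ×ˢ W with hT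
  set g1 : ℕ × ℕ → ℝ := fun q => if K q.1 q.2 = 0 then 0 else
    F q.1 * F' q.2 * ((upDev U k q.1 : ℝ) / upDev U k q.2) ^ s with hg1
  set g2 : ℕ × ℕ → ℝ := fun q => if K q.1 q.2 = 0 then 0 else
    F q.1 * F' q.2 * ((upDev U k q.2 : ℝ) / upDev U k q.1) ^ t with hg2
  have hg10 : ∀ q ∈ T, 0 ≤ g1 q := fun q _ => by
    simp only [hg1]; split_ifs
    · exact le_rfl
    · exact mul_nonneg (mul_nonneg (hF _) (hF' _)) (Real.rpow_nonneg (by positivity) _)
  have hg20 : ∀ q ∈ T, 0 ≤ g2 q := fun q _ => by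
    simp only [hg2]; split_ifs
    · exact le_rfl
    · exact mul_nonneg (mul_nonneg (hF _) (hF' _)) (Real.rpow_nonneg (by positivity) _)
  have hpoint : ∀ q ∈ T, K q.1 q.2 * (F q.1 * F' q.2) ≤
      (F q.1 * F' q.2) ^ (1 - α1 - α2) * g1 q ^ α1 * g2 q ^ α2 := by
    intro q hq
    have hFF : 0 ≤ F q.1 * F' q.2 := mul_nonneg (hF _) (hF' _)
    by_cases h0 : K q.1 q.2 = 0
    · rw [h0, zero_mul]
      exact mul_nonneg (mul_nonneg (Real.rpow_nonneg hFF _) (Real.rpow_nonneg (hg10 q hq) _))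
        (Real.rpow_nonneg (hg20 q hq) _)
    refine le_trans (mul_le_of_le_one_left hFF (hK1 _ _)) (le_of_eq ?_)
    simp only [hg1, hg2, if_neg h0]
    set a : ℝ := (upDev U k q.1 : ℝ) with hau
    set c : ℝ := (upDev U k q.2 : ℝ) with hcu
    have ha' : 0 < a := by rw [hau]; exact_mod_cast upDev_pos hU k q.1
    have hc : 0 < c := by rw [hcu]; exact_mod_cast upDev_pos hU k q.2
    rw [Real.mul_rpow hFF (Real.rpow_nonneg (by positivity) _),
      Real.mul_rpow hFF (Real.rpow_nonneg (by positivity) _), ← Real.rpow_mul (by positivity),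
      ← Real.rpow_mul (by positivity)]
    have e2 : (a / c) ^ (s * α1) * (c / a) ^ (t * α2) = 1 := by
      rw [← hst, ← Real.mul_rpow (by positivity) (by positivity), div_mul_div_cancel₀ hc.ne',
        div_self ha'.ne', Real.one_rpow]
    have e3 : (F q.1 * F' q.2) ^ (1 - α1 - α2) * (F q.1 * F' q.2) ^ α1 *
        (F q.1 * F' q.2) ^ α2 = F q.1 * F' q.2 := by
      rcases hFF.eq_or_lt with e | e
      · rw [← e, Real.zero_rpow hα1.ne']; simp
      · rw [← Real.rpow_add e, ← Real.rpow_add e,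
          show 1 - α1 - α2 + α1 + α2 = 1 by ring, Real.rpow_one]
    calc F q.1 * F' q.2
        = ((F q.1 * F' q.2) ^ (1 - α1 - α2) * (F q.1 * F' q.2) ^ α1 *
            (F q.1 * F' q.2) ^ α2) * ((a / c) ^ (s * α1) * (c / a) ^ (t * α2)) := by
          rw [e2, e3, mul_one]
      _ = _ := by ring
  -- one weight against `x / Q` and the deviations
  have hbound : ∀ {V W : Finset ℕ} {i j : ℕ → ℕ} {S : Finset ℕ}, FinState P S U V W i j →
      ∀ (F' f' : ℕ → ℝ) (x : ℝ) {v w : ℕ}, (∀ w, 0 ≤ f' w) → F' w ≤ f' w * phiY Y w → v ∈ V →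
      w ∈ W → NoCoDev U k v w → f' w * (qd v w : ℝ) ≤ x →
      F' w ≤ x / (fixedPart (P \ U) i j : ℝ) *
        (pDown (centreY U k Y) (downDev U k w) / upDev U k v) := by
    intro V W i j S h F' f' x v w hf' hle hv hw hk hd
    have hU := h.prime_U
    have hUY : ∀ p ∈ U.filter (fun p => p ≤ Y), p.Prime := fun p hp => hU p (Finset.mem_filter.1 hp).1
    have hcp : 0 < centreY U k Y := prodPow_pos hUY k
    have hdp := downDev_pos hU k w
    have hmem : ∀ p ∈ (centreY U k Y).primeFactors, p ∈ U ∧ p ≤ Y ∧ k p ≠ 0 := by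
      intro p hp
      rw [← Nat.support_factorization, Finsupp.mem_support_iff, centreY, centre,
        factorization_prodPow hUY] at hp
      obtain ⟨hpU, hkp⟩ := ite_ne_right_iff.1 hp
      exact ⟨(Finset.mem_filter.1 hpU).1, (Finset.mem_filter.1 hpU).2, hkp⟩
    have hsub : (centreY U k Y).primeFactors ⊆ w.primeFactors ∪ (downDev U k w).primeFactors := by
      intro p hp
      obtain ⟨hpU, -, hkp⟩ := hmem p hp
      rw [Finset.mem_union, ← Nat.support_factorization, ← Nat.support_factorization,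
        Finsupp.mem_support_iff, Finsupp.mem_support_iff, downDev, factorization_prodPow hU,
        if_pos hpU]
      omega
    have h1 := phiY_le hcp hdp (fun p hp => (hmem p hp).2.1) hsub
    have h2 : f' w * ((fixedPart (P \ U) i j : ℝ) * ((upDev U k v : ℝ) * downDev U k w)) ≤ x := by
      refine le_trans (le_of_eq ?_) hd
      rw [(qd_eq_of_finState h hv hw hk).1]
      push_cast
      ring
    have hQ : (0 : ℝ) < fixedPart (P \ U) i j := by
      exact_mod_cast fixedPart_pos h.prime_sdiff i j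
    have hau : (0 : ℝ) < upDev U k v := by exact_mod_cast upDev_pos hU k v
    have hdd : (0 : ℝ) < downDev U k w := by exact_mod_cast hdp
    have hφd : (0 : ℝ) < Nat.totient (downDev U k w) := by exact_mod_cast Nat.totient_pos.2 hdp
    rw [← le_div_iff₀ (by positivity)] at h2
    refine hle.trans (le_trans (mul_le_mul h2 h1 (phiY_nonneg Y w) ((hf' w).trans h2))
      (le_of_eq ?_))
    rw [pDown]
    field_simp
  have h1sum : ∑ q ∈ T, g1 q ≤ (∑ v ∈ V, F v) * (x' / Q1 * G1) := by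
    rw [hT, Finset.sum_product, Finset.sum_mul]
    refine Finset.sum_le_sum fun v hv => ?_
    refine le_trans ?_ (mul_le_mul_of_nonneg_left
      (mul_le_mul_of_nonneg_left (hG1 v hv) (div_nonneg hx'.le hQ1.le)) (hF v))
    rw [Finset.mul_sum, Finset.mul_sum, Finset.sum_filter]
    refine Finset.sum_le_sum fun w hw => ?_
    simp only [hg1]
    by_cases h0 : K v w = 0
    · simp [h0]
    rw [if_neg h0, if_pos h0]
    obtain ⟨hk, -, hd, -, -⟩ := hsupp v hv w hw h0
    refine le_trans (mul_le_mul_of_nonneg_right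
      (mul_le_mul_of_nonneg_left (hbound h F' f' x' hf' (hFf' w hw) hv hw hk hd) (hF v))
      (Real.rpow_nonneg (by positivity) _)) (le_of_eq ?_)
    rw [hQ1d]
    ring
  have h2sum : ∑ q ∈ T, g2 q ≤ (∑ w ∈ W, F' w) * (x / Q2 * G2) := by
    rw [hT, Finset.sum_product_right, Finset.sum_mul]
    refine Finset.sum_le_sum fun w hw => ?_
    refine le_trans ?_ (mul_le_mul_of_nonneg_left
      (mul_le_mul_of_nonneg_left (hG2 w hw) (div_nonneg hx.le hQ2.le)) (hF' w))
    rw [Finset.mul_sum, Finset.mul_sum, Finset.sum_filter]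
    refine Finset.sum_le_sum fun v hv => ?_
    simp only [hg2]
    by_cases h0 : K v w = 0
    · simp [h0]
    rw [if_neg h0, if_pos h0]
    obtain ⟨hk, hd, -, -, -⟩ := hsupp v hv w hw h0
    refine le_trans (mul_le_mul_of_nonneg_right (mul_le_mul_of_nonneg_right
      (hbound h.symm F f x hf (hFf v hv) hw hv (fun p hp => (hk p hp).symm) hd) (hF' w))
      (Real.rpow_nonneg (by positivity) _)) (le_of_eq ?_)
    rw [hQ2d]
    ring
  have hsum0 : ∑ q ∈ T, F q.1 * F' q.2 = (∑ v ∈ V, F v) * ∑ w ∈ W, F' w := by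
    rw [hT, Finset.sum_product, Finset.sum_mul_sum]
  have hmV : 0 ≤ ∑ v ∈ V, F v := Finset.sum_nonneg fun v _ => hF v
  have hmW : 0 ≤ ∑ w ∈ W, F' w := Finset.sum_nonneg fun w _ => hF' w
  calc ∑ v ∈ V, ∑ w ∈ W, K v w * (F v * F' w)
      = ∑ q ∈ T, K q.1 q.2 * (F q.1 * F' q.2) := by rw [hT, Finset.sum_product]
    _ ≤ _ := Finset.sum_le_sum hpoint
    _ ≤ _ := sum_rpow3_le T _ _ _ (by linarith) hα1 hα2 (by ring)
        (fun q _ => mul_nonneg (hF _) (hF' _)) hg10 hg20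
    _ ≤ _ := by
        rw [hsum0]
        have n1 := Finset.sum_nonneg hg10
        have n2 := Finset.sum_nonneg hg20
        gcongr

end Vale.Agent.P028.Lift
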