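import Vale.Agent.P028.Rec
import Vale.Agent.P028.Lift.Final

/-!
The bilinear bound for two pools, with free exponents.
-/

noncomputable section

namespace Vale.Agent.P028.Lift

open Finset BilinearAux

open Classical in
/-- The downward deviations weighted by `pDown` and the upward ones by a test function. -/
theorem sum_sideY_le {P S U V W : Finset ℕ} {i j k : ℕ → ℕ} (h : FinState P S U V W i j) (Y : ℕ)
    (W' T : Finset ℕ) (hsub : W' ⊆ W) (hT : ∀ w ∈ W', upDev U k w ∈ T)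
    (hdown : ∀ w ∈ W', ∀ p ∈ (downDev U k w).primeFactors, p ≤ Y) (Fc : ℕ → ℝ)
    (hFc : ∀ c, 0 ≤ Fc c) {B D : ℝ} (hB : ∑ c ∈ T, Fc c ≤ B) (hD0 : 0 ≤ D)
    (hD : ∀ N : ℕ, 0 < N →
      (Nat.totient N : ℝ) / N * ∑ d ∈ N.divisors, 1 / (Nat.totient d : ℝ) ≤ D) :
    ∑ w ∈ W', pDown (centreY U k Y) (downDev U k w) * Fc (upDev U k w) ≤ D * B := by
  have hU := h.prime_U
  have hUY : ∀ p ∈ U.filter (fun p => p ≤ Y), p.Prime := fun p hp => hU p (Finset.mem_filter.1 hp).1
  have hcp : 0 < centreY U k Y := prodPow_pos hUY k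
  set N := centreY U k Y with hN
  have hdd : ∀ w ∈ W', downDev U k w ∈ N.divisors := by
    intro w hw
    refine Nat.mem_divisors.2 ⟨?_, hcp.ne'⟩
    refine (Nat.factorization_le_iff_dvd (downDev_pos hU k w).ne' hcp.ne').1 fun p => ?_
    rw [hN, centreY, centre, downDev, factorization_prodPow hU, factorization_prodPow hUY]
    by_cases hp : p ∈ U
    · rw [if_pos hp]
      by_cases h0 : k p - w.factorization p = 0
      · rw [h0]; exact Nat.zero_le _
      · have hpd : p ∈ (downDev U k w).primeFactors := by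
          rw [← Nat.support_factorization, Finsupp.mem_support_iff, downDev,
            factorization_prodPow hU, if_pos hp]
          exact h0
        rw [if_pos (Finset.mem_filter.2 ⟨hp, hdown w hw p hpd⟩)]
        omega
    · rw [if_neg hp]; exact Nat.zero_le _
  calc ∑ w ∈ W', pDown N (downDev U k w) * Fc (upDev U k w)
      = ∑ q ∈ W'.image (fun w => (upDev U k w, downDev U k w)), pDown N q.2 * Fc q.1 := by
        rw [Finset.sum_image ((dev_injOn h).2.mono (by exact_mod_cast hsub))]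
    _ ≤ ∑ q ∈ T ×ˢ N.divisors, pDown N q.2 * Fc q.1 := by
        refine Finset.sum_le_sum_of_subset_of_nonneg ?_ fun q _ _ =>
          mul_nonneg (div_nonneg (by positivity) (Nat.cast_nonneg _)) (hFc _)
        intro q hq
        obtain ⟨w, hw, rfl⟩ := Finset.mem_image.1 hq
        exact Finset.mem_product.2 ⟨hT w hw, hdd w hw⟩
    _ = ((Nat.totient N : ℝ) / N * ∑ d ∈ N.divisors, 1 / (Nat.totient d : ℝ)) * ∑ c ∈ T, Fc c := by
        rw [Finset.sum_product, Finset.mul_sum]
        refine Finset.sum_congr rfl fun c _ => ?_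
        rw [Finset.mul_sum, Finset.sum_mul]
        exact Finset.sum_congr rfl fun d _ => by rw [pDown]; ring
    _ ≤ D * B := mul_le_mul (hD _ hcp) hB (Finset.sum_nonneg fun c _ => hFc c) hD0

open Classical in
/-- The estimate in a final state of two pools for the pairs with `c ≤ a`. -/
theorem exists_final_pool_le (a1 a2 : ℝ) (ha2 : 0 < a2) (h12 : a2 < a1) (ha : a1 + a2 < 1) :
    ∃ C : ℝ, 0 ≤ C ∧ ∀ (F F' f f' : ℕ → ℝ) (P S U V W : Finset ℕ) (i j k : ℕ → ℕ) (Y : ℕ)
      (x x' : ℝ) (K : ℕ → ℕ → ℝ), FinState P S U V W i j → (∀ v, 0 ≤ F v) → (∀ w, 0 ≤ F' w) →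
      (∀ v ∈ V, F v ≤ f v * phiY Y v) → (∀ w ∈ W, F' w ≤ f' w * phiY Y w) →
      (∀ v, 0 ≤ f v) → (∀ w, 0 ≤ f' w) → 0 < x → 0 < x' →
      (∀ v w, 0 ≤ K v w) → (∀ v w, K v w ≤ 1) →
      (∀ v w, K v w ≠ 0 → NoCoDev U k v w ∧ f v * (qd w v : ℝ) ≤ x ∧ f' w * (qd v w : ℝ) ≤ x' ∧
        upDev U k w ≤ upDev U k v ∧
        (∀ p ∈ (downDev U k w).primeFactors, p ≤ Y) ∧ ∀ p ∈ (downDev U k v).primeFactors, p ≤ Y) →
      ∑ v ∈ V, ∑ w ∈ W, K v w * (F v * F' w) ≤
        C * (x' ^ a1 * x ^ a2) * ((∑ v ∈ V, F v) ^ (1 - a2) * (∑ w ∈ W, F' w) ^ (1 - a1)) /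
          ((fixedPart (P \ U) i j : ℝ) ^ a1 * (fixedPart (P \ U) j i : ℝ) ^ a2) := by
  have ha1 : 0 < a1 := by linarith
  have hs : 0 < a1 + a2 := by linarith
  set s : ℝ := 2 * a2 / (a1 + a2) with hsd
  set t : ℝ := 2 * a1 / (a1 + a2) with htd
  have hs0 : 0 < s := by positivity
  have hs1 : s < 1 := by rw [hsd, div_lt_one hs]; linarith
  have ht1 : 1 < t := by rw [htd, one_lt_div hs]; linarith
  obtain ⟨D₀, hD₀⟩ := exists_centre_sum_le
  set D := max D₀ 0 with hDd
  set Cs : ℝ := max (1 / (1 - s)) (1 + 1 / (t - 1)) with hCs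
  have hCs0 : 0 ≤ Cs := le_trans (div_nonneg zero_le_one (by linarith)) (le_max_left _ _)
  have hD0 : 0 ≤ D := le_max_right _ _
  have hD : ∀ N : ℕ, 0 < N →
      (Nat.totient N : ℝ) / N * ∑ d ∈ N.divisors, 1 / (Nat.totient d : ℝ) ≤ D :=
    fun N hN => (hD₀ N hN).trans (le_max_left _ _)
  set G := D * Cs with hGd
  have hG0 : 0 ≤ G := mul_nonneg hD0 hCs0
  refine ⟨G ^ a1 * G ^ a2, by positivity, ?_⟩
  intro F F' f f' P S U V W i j k Y x x' K h hF hF' hFf hFf' hf hf' hx hx' hK0 hK1 hsupp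
  have hU := h.prime_U
  have h' : FinState P (V ∪ W) U V W i j :=
    ⟨h.prime_mem, fun q hq => h.pos_of_mem q (Finset.union_subset h.V_sub h.W_sub hq),
      fun q hq => h.factors_le q (Finset.union_subset h.V_sub h.W_sub hq), h.U_sub,
      Finset.subset_union_left, Finset.subset_union_right, h.V_fix, h.W_fix⟩
  have hG1 : ∀ v ∈ V, ∑ w ∈ W.filter (fun w => K v w ≠ 0),
      pDown (centreY U k Y) (downDev U k w) *
        (((upDev U k v : ℝ) / upDev U k w) ^ s / upDev U k v) ≤ G := by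
    intro v _
    set a : ℕ := upDev U k v with had
    have hap' : (0 : ℝ) < a := by exact_mod_cast upDev_pos hU k v
    refine sum_sideY_le h Y _ (Finset.Icc 1 a) (Finset.filter_subset _ _) (fun w hw =>
      Finset.mem_Icc.2 ⟨upDev_pos hU k w, (hsupp v w (Finset.mem_filter.1 hw).2).2.2.2.1⟩)
      (fun w hw => (hsupp v w (Finset.mem_filter.1 hw).2).2.2.2.2.1)
      (fun c => ((a : ℝ) / c) ^ s / a) (fun c => div_nonneg (Real.rpow_nonneg (by positivity) _)
        hap'.le) ?_ hD0 hD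
    rw [← Finset.sum_div, div_le_iff₀ hap']
    refine (sum_small_le hs0 hs1 hap' _ fun c hc => ⟨(Finset.mem_Icc.1 hc).1,
      by exact_mod_cast (Finset.mem_Icc.1 hc).2⟩).trans ?_
    rw [← one_div_mul_eq_div]
    exact mul_le_mul_of_nonneg_right (le_max_left _ _) hap'.le
  have hG2 : ∀ w ∈ W, ∑ v ∈ V.filter (fun v => K v w ≠ 0),
      pDown (centreY U k Y) (downDev U k v) *
        (((upDev U k w : ℝ) / upDev U k v) ^ t / upDev U k w) ≤ G := by
    intro w _
    set a : ℕ := upDev U k w with had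
    have hap : 0 < a := upDev_pos hU k w
    have hap' : (0 : ℝ) < a := by exact_mod_cast hap
    refine sum_sideY_le h.symm Y _ (Finset.Icc a (V.sup (upDev U k))) (Finset.filter_subset _ _)
      (fun v hv => Finset.mem_Icc.2 ⟨(hsupp v w (Finset.mem_filter.1 hv).2).2.2.2.1,
        Finset.le_sup (Finset.mem_filter.1 hv).1⟩)
      (fun v hv => (hsupp v w (Finset.mem_filter.1 hv).2).2.2.2.2.2)
      (fun c => ((a : ℝ) / c) ^ t / a) (fun c => div_nonneg (Real.rpow_nonneg (by positivity) _)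
        hap'.le) ?_ hD0 hD
    rw [← Finset.sum_div, div_le_iff₀ hap']
    refine (sum_tail_le ht1 hap' _ fun c hc => ⟨le_trans hap (Finset.mem_Icc.1 hc).1,
      by exact_mod_cast (Finset.mem_Icc.1 hc).1⟩).trans ?_
    exact mul_le_mul_of_nonneg_right (le_max_right _ _) hap'.le
  refine (final2_le h' F F' f f' Y a1 a2 s t x x' hF hF' hFf hFf' hf hf' ha2 ha1 ha
    (by rw [hsd, htd]; ring) hx hx' K hK0 hK1
    (fun v _ w _ hne => by
      obtain ⟨e1, e2, e3, -, e4, e5⟩ := hsupp v w hne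
      exact ⟨e1, e2, e3, e4, e5⟩) G G hG0 hG0 hG1 hG2).trans (le_of_eq ?_)
  set A := ∑ v ∈ V, F v with hAd
  set B := ∑ w ∈ W, F' w with hBd
  have hA : 0 ≤ A := Finset.sum_nonneg fun v _ => hF v
  have hB : 0 ≤ B := Finset.sum_nonneg fun w _ => hF' w
  have q1 : (0 : ℝ) ≤ fixedPart (P \ U) i j := Nat.cast_nonneg _
  have q2 : (0 : ℝ) ≤ fixedPart (P \ U) j i := Nat.cast_nonneg _
  rw [Real.mul_rpow hA hB, Real.mul_rpow hA (by positivity), Real.mul_rpow hB (by positivity),
    Real.mul_rpow (div_nonneg hx'.le q1) hG0, Real.mul_rpow (div_nonneg hx.le q2) hG0,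
    Real.div_rpow hx'.le q1, Real.div_rpow hx.le q2]
  have eV : A ^ (1 - a2) = A ^ (1 - a1 - a2) * A ^ a1 := by
    rw [← Real.rpow_add' hA (by linarith)]; ring_nf
  have eW : B ^ (1 - a1) = B ^ (1 - a1 - a2) * B ^ a2 := by
    rw [← Real.rpow_add' hB (by linarith)]; ring_nf
  rw [eV, eW]
  ring

open Classical in
/-- The pairs of two pools with `f c ≤ x` and `f' a ≤ x'` which are linked above `Y`, or have
`c, a ≤ Y`, in any state of the splitting. -/
theorem exists_pool_state_le (a1 a2 : ℝ) (ha2 : 0 < a2) (h12 : a2 < a1) (ha : a1 + a2 < 1)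
    (hhalf : a1 < 1 / 2) (hgap : a1 < 2 * (1 - a1) * a2) :
    ∃ C : ℝ, 0 < C ∧ ∀ (F F' f f' : ℕ → ℝ) (V W : Finset ℕ) (k : ℕ → ℕ) (Y : ℕ) (x x' : ℝ),
      0 < x → 0 < x' → Pool F f V k Y → Pool F' f' W k Y →
      ∀ (U V' W' : Finset ℕ) (i j : ℕ → ℕ), U ⊆ (V ∪ W).biUnion Nat.primeFactors → V' ⊆ V → W' ⊆ W →
        (∀ v ∈ V', ∀ p, p ∉ U → v.factorization p = i p) →
        (∀ w ∈ W', ∀ p, p ∉ U → w.factorization p = j p) →
        ∑ v ∈ V', ∑ w ∈ W'.filter (fun w => f v * (qd w v : ℝ) ≤ x ∧ f' w * (qd v w : ℝ) ≤ x' ∧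
            (Linked k Y v w ∨ (qd w v ≤ Y ∧ qd v w ≤ Y))), F v * F' w ≤
          C * ((x' ^ a1 * x ^ a2) + (x ^ a1 * x' ^ a2)) *
            (((∑ v ∈ V, F v) ^ (a1 - a2) + (∑ w ∈ W, F' w) ^ (a1 - a2)) *
              ((∑ v ∈ V', F v) * ∑ w ∈ W', F' w) ^ (1 - a1)) /
            ((fixedPart ((V ∪ W).biUnion Nat.primeFactors \ U) i j *
              fixedPart ((V ∪ W).biUnion Nat.primeFactors \ U) j i : ℕ) : ℝ) ^ a2 := by
  set θ := 1 - a1 with hθd
  have hθ : 1 / 2 < θ := by rw [hθd]; linarith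
  have hθ1 : θ < 1 := by rw [hθd]; linarith
  have hexp : 1 < 2 * θ * (a2 / (1 - θ)) := by
    rw [← mul_div_assoc, one_lt_div (by linarith), hθd]
    linarith
  obtain ⟨Cr, hCr⟩ := exists_split_bound2 θ a2 hθ hθ1 ha2 hexp
  obtain ⟨Cf, hCf0, hCf⟩ := exists_final_pool_le a1 a2 ha2 h12 ha
  refine ⟨max Cr 0 * (2 * Cf) + 1, by positivity, ?_⟩
  intro F₀ F₀' f f' V₀ W₀ k₀ Y x x' hx hx' hV₀ hW₀
  set S := V₀ ∪ W₀ with hS
  set P := S.biUnion Nat.primeFactors with hP
  have hpos : ∀ q ∈ S, 0 < q := fun q hq =>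
    (Finset.mem_union.1 hq).elim (fun h => hV₀.pos q h) fun h => hW₀.pos q h
  have hPp : ∀ r ∈ P, r.Prime := by
    intro r hr
    obtain ⟨q, _, hq⟩ := Finset.mem_biUnion.1 hr
    exact Nat.prime_of_mem_primeFactors hq
  have hfac : ∀ q ∈ S, q.primeFactors ⊆ P := fun q hq r hr =>
    Finset.mem_biUnion.2 ⟨q, hq, hr⟩
  set F : ℕ → ℝ := fun q => if q ∈ V₀ then F₀ q else 0 with hFd
  set F' : ℕ → ℝ := fun q => if q ∈ W₀ then F₀' q else 0 with hFd'
  have hF : ∀ q, 0 ≤ F q := fun q => by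
    simp only [hFd]; split_ifs
    · exact hV₀.F_nonneg q
    · exact le_rfl
  have hF' : ∀ q, 0 ≤ F' q := fun q => by
    simp only [hFd']; split_ifs
    · exact hW₀.F_nonneg q
    · exact le_rfl
  have hFf : ∀ q, F q ≤ f q * phiY Y q := fun q => by
    simp only [hFd]; split_ifs with hh
    · exact hV₀.F_le q hh
    · exact mul_nonneg (hV₀.f_nonneg q) (phiY_nonneg Y q)
  have hFf' : ∀ q, F' q ≤ f' q * phiY Y q := fun q => by
    simp only [hFd']; split_ifs with hh
    · exact hW₀.F_le q hh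
    · exact mul_nonneg (hW₀.f_nonneg q) (phiY_nonneg Y q)
  set K : ℕ → ℕ → ℝ := fun v w => if v ∈ V₀ ∧ w ∈ W₀ ∧ f v * (qd w v : ℝ) ≤ x ∧
    f' w * (qd v w : ℝ) ≤ x' ∧ (Linked k₀ Y v w ∨ (qd w v ≤ Y ∧ qd v w ≤ Y)) then 1 else 0 with hKd
  have hK0 : ∀ v w, 0 ≤ K v w := fun v w => by simp only [hKd]; split <;> norm_num
  set mA := ∑ v ∈ V₀, F₀ v with hmA
  set mB := ∑ w ∈ W₀, F₀' w with hmB
  have hA0 : 0 ≤ mA := Finset.sum_nonneg fun v _ => hV₀.F_nonneg v
  have hB0 : 0 ≤ mB := Finset.sum_nonneg fun v _ => hW₀.F_nonneg v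
  set Xs : ℝ := x' ^ a1 * x ^ a2 + x ^ a1 * x' ^ a2 with hXs
  set Ms : ℝ := mA ^ (a1 - a2) + mB ^ (a1 - a2) with hMs
  have hsA : ∑ v ∈ S, F v = mA := by
    rw [hmA, ← Finset.sum_subset Finset.subset_union_left fun q _ hq => by simp [hFd, hq]]
    exact Finset.sum_congr rfl fun q hq => by simp [hFd, hq]
  have hsB : ∑ v ∈ S, F' v = mB := by
    rw [hmB, ← Finset.sum_subset Finset.subset_union_right fun q _ hq => by simp [hFd', hq]]
    exact Finset.sum_congr rfl fun q hq => by simp [hFd', hq]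
  set G := 2 * Cf * (Xs * Ms) with hGd
  have hG0 : 0 ≤ G := by positivity
  have hfinal : FinalBound2 θ a2 G P S F F' K := by
    intro U V W i j k hU hV hW hi hj K' hK'0 hK'le hK'supp
    have h : FinState P S U V W i j := ⟨hPp, hpos, hfac, hU, hV, hW, hi, hj⟩
    set Q1 : ℕ := fixedPart (P \ U) i j with hQ1d
    set Q2 : ℕ := fixedPart (P \ U) j i with hQ2d
    set A := ∑ v ∈ V, F v with hAd
    set B := ∑ w ∈ W, F' w with hBd
    have hA : 0 ≤ A := Finset.sum_nonneg fun v _ => hF v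
    have hB : 0 ≤ B := Finset.sum_nonneg fun v _ => hF' v
    have hQ1 : (1 : ℝ) ≤ Q1 := by exact_mod_cast fixedPart_pos h.prime_sdiff i j
    have hQ2 : (1 : ℝ) ≤ Q2 := by exact_mod_cast fixedPart_pos h.prime_sdiff j i
    -- one centre, whose downs are at most `Y` on the support
    have hone : ∀ (kk : ℕ → ℕ) (K₂ : ℕ → ℕ → ℝ), (∀ v w, 0 ≤ K₂ v w) → (∀ v w, K₂ v w ≤ 1) →
        (∀ v w, K₂ v w ≠ 0 → NoCoDev U kk v w ∧ f v * (qd w v : ℝ) ≤ x ∧
          f' w * (qd v w : ℝ) ≤ x' ∧ (∀ p ∈ (downDev U kk w).primeFactors, p ≤ Y) ∧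
          ∀ p ∈ (downDev U kk v).primeFactors, p ≤ Y) →
        ∑ v ∈ V, ∑ w ∈ W, K₂ v w * (F v * F' w) ≤
          Cf * (Xs * Ms) * (A * B) ^ θ / ((Q1 * Q2 : ℕ) : ℝ) ^ a2 := by
      intro kk K₂ h20 h21 h2s
      have h1 := hCf F F' f f' P S U V W i j kk Y x x'
        (fun v w => if upDev U kk w ≤ upDev U kk v then K₂ v w else 0) h hF hF'
        (fun v _ => hFf v) (fun w _ => hFf' w) hV₀.f_nonneg hW₀.f_nonneg hx hx'
        (fun v w => by split_ifs; exacts [h20 v w, le_rfl])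
        (fun v w => by split_ifs; exacts [h21 v w, zero_le_one])
        (fun v w hne => by
          obtain ⟨hle, hne'⟩ := ite_ne_right_iff.1 hne
          obtain ⟨e1, e2, e3, e4, e5⟩ := h2s v w hne'
          exact ⟨e1, e2, e3, hle, e4, e5⟩)
      have h2 := hCf F' F f' f P S U W V j i kk Y x' x
        (fun w v => if upDev U kk v ≤ upDev U kk w then K₂ v w else 0) h.symm hF' hF
        (fun v _ => hFf' v) (fun w _ => hFf w) hW₀.f_nonneg hV₀.f_nonneg hx' hx
        (fun w v => by split_ifs; exacts [h20 v w, le_rfl])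
        (fun w v => by split_ifs; exacts [h21 v w, zero_le_one])
        (fun w v hne => by
          obtain ⟨hle, hne'⟩ := ite_ne_right_iff.1 hne
          obtain ⟨e1, e2, e3, e4, e5⟩ := h2s v w hne'
          exact ⟨fun p hp => (e1 p hp).symm, e3, e2, hle, e5, e4⟩)
      rw [Finset.sum_comm] at h2
      have hshape : ∀ {a b : ℝ} (y y' : ℝ), 0 < y → 0 < y' → 0 ≤ a → 0 ≤ b →
          a ^ (a1 - a2) ≤ Ms → ∀ {Qa Qb : ℕ}, (1 : ℝ) ≤ Qa → (1 : ℝ) ≤ Qb →
          Cf * (y' ^ a1 * y ^ a2) * (a ^ (1 - a2) * b ^ (1 - a1)) /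
              ((Qa : ℝ) ^ a1 * (Qb : ℝ) ^ a2) ≤
            Cf * (y' ^ a1 * y ^ a2) * Ms * (a * b) ^ θ / ((Qa * Qb : ℕ) : ℝ) ^ a2 := by
        intro a b y y' hy hy' ha' hb hM Qa Qb hQa hQb
        rw [show 1 - a2 = (a1 - a2) + θ by rw [hθd]; ring, Real.rpow_add' ha' (by linarith),
          Real.mul_rpow ha' hb, Nat.cast_mul,
          Real.mul_rpow (x := (Qa : ℝ)) (y := (Qb : ℝ)) (by linarith) (by linarith), ← hθd]
        calc Cf * (y' ^ a1 * y ^ a2) * (a ^ (a1 - a2) * a ^ θ * b ^ θ) /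
              ((Qa : ℝ) ^ a1 * (Qb : ℝ) ^ a2)
            ≤ Cf * (y' ^ a1 * y ^ a2) * (Ms * a ^ θ * b ^ θ) /
              ((Qa : ℝ) ^ a2 * (Qb : ℝ) ^ a2) := by gcongr
          _ = _ := by ring
      have hMA : A ^ (a1 - a2) ≤ Ms := by
        refine le_add_of_le_of_nonneg (Real.rpow_le_rpow hA ?_ (by linarith)) (by positivity)
        exact hsA ▸ Finset.sum_le_sum_of_subset_of_nonneg hV fun q _ _ => hF q
      have hMB : B ^ (a1 - a2) ≤ Ms := by
        refine le_add_of_nonneg_of_le (by positivity) (Real.rpow_le_rpow hB ?_ (by linarith))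
        exact hsB ▸ Finset.sum_le_sum_of_subset_of_nonneg hW fun q _ _ => hF' q
      have h1' := h1.trans (hshape x x' hx hx' hA hB hMA hQ1 hQ2)
      have h2' := h2.trans (hshape x' x hx' hx hB hA hMB hQ2 hQ1)
      rw [mul_comm B A, mul_comm Q2 Q1] at h2'
      calc ∑ v ∈ V, ∑ w ∈ W, K₂ v w * (F v * F' w)
          ≤ ∑ v ∈ V, ∑ w ∈ W, ((if upDev U kk w ≤ upDev U kk v then K₂ v w else 0) *
                (F v * F' w) + (if upDev U kk v ≤ upDev U kk w then K₂ v w else 0) *
                (F' w * F v)) := by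
            refine Finset.sum_le_sum fun v _ => Finset.sum_le_sum fun w _ => ?_
            have hp := mul_nonneg (h20 v w) (mul_nonneg (hF v) (hF' w))
            rw [mul_comm (F' w) (F v)]
            rcases le_total (upDev U kk w) (upDev U kk v) with hh | hh
            · rw [if_pos hh]
              refine le_add_of_nonneg_right ?_
              split_ifs
              · exact hp
              · simp
            · rw [if_pos hh]
              refine le_add_of_nonneg_left ?_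
              split_ifs
              · exact hp
              · simp
        _ ≤ _ := by
            simp only [Finset.sum_add_distrib]
            refine le_trans (add_le_add h1' h2') (le_of_eq ?_)
            rw [hXs]
            ring
    have hle1 : ∀ v w, K' v w ≤ 1 := fun v w => (hK'le v w).trans (by
      simp only [hKd]; split <;> norm_num)
    have hcond : ∀ v w, K' v w ≠ 0 → v ∈ V₀ ∧ w ∈ W₀ ∧ f v * (qd w v : ℝ) ≤ x ∧
        f' w * (qd v w : ℝ) ≤ x' ∧ (Linked k₀ Y v w ∨ (qd w v ≤ Y ∧ qd v w ≤ Y)) := by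
      intro v w hne
      by_contra hc
      have := hK'le v w
      simp only [hKd, if_neg hc] at this
      exact hne (le_antisymm this (hK'0 v w))
    set k' : ℕ → ℕ := fun p => if Y < p then k₀ p else k p with hk'
    have hA1 := hone k' (fun v w => if Linked k₀ Y v w then K' v w else 0)
      (fun v w => by split_ifs; exacts [hK'0 v w, le_rfl])
      (fun v w => by split_ifs; exacts [hle1 v w, zero_le_one])
      (fun v w hne => by
        obtain ⟨hl, hne'⟩ := ite_ne_right_iff.1 hne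
        obtain ⟨hv, hw, e1, e2, -⟩ := hcond v w hne'
        refine ⟨fun p hp => ?_, e1, e2, fun p hp => ?_, fun p hp => ?_⟩
        · simp only [hk']
          split_ifs with hY
          · exact hl p (h.prime_U p hp) hY
          · exact hK'supp v w hne' p hp
        all_goals
          rw [← Nat.support_factorization, Finsupp.mem_support_iff, downDev,
            factorization_prodPow h.prime_U] at hp
          obtain ⟨hpU, hne0⟩ := ite_ne_right_iff.1 hp
          by_contra hY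
          simp only [hk', if_pos (not_le.1 hY)] at hne0
        · have := hW₀.centre_le w hw p (h.prime_U p hpU) (not_le.1 hY)
          omega
        · have := hV₀.centre_le v hv p (h.prime_U p hpU) (not_le.1 hY)
          omega)
    have hA2 := hone k (fun v w => if Linked k₀ Y v w then 0 else K' v w)
      (fun v w => by split_ifs; exacts [le_rfl, hK'0 v w])
      (fun v w => by split_ifs; exacts [zero_le_one, hle1 v w])
      (fun v w hne => by
        obtain ⟨hl, hne'⟩ := ite_ne_left_iff.1 hne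
        replace hne' := Ne.symm hne'
        obtain ⟨hv, hw, e1, e2, e3⟩ := hcond v w hne'
        obtain ⟨hc, hc'⟩ := e3.resolve_left hl
        have hkk := hK'supp v w hne'
        have hv0 := hpos v (Finset.mem_union_left _ hv)
        have hw0 := hpos w (Finset.mem_union_right _ hw)
        have heq : ∀ p : ℕ, p.Prime → Y < p → v.factorization p = w.factorization p := by
          intro p hp hY
          have z : ∀ {a b : ℕ}, 0 < a → 0 < b → qd a b ≤ Y →
              a.factorization p ≤ b.factorization p := by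
            intro a b ha hb hle
            by_contra hlt
            have hne : (qd a b).factorization p ≠ 0 := by
              rw [factorization_qd ha hb]; omega
            have := Nat.le_of_dvd (qd_pos ha) (Nat.dvd_of_factorization_pos hne)
            omega
          exact le_antisymm (z hv0 hw0 hc') (z hw0 hv0 hc)
        refine ⟨hkk, e1, e2, fun p hp => ?_, fun p hp => ?_⟩
        all_goals
          rw [← Nat.support_factorization, Finsupp.mem_support_iff, downDev,
            factorization_prodPow h.prime_U] at hp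
          obtain ⟨hpU, hne0⟩ := ite_ne_right_iff.1 hp
          by_contra hY
          have := heq p (h.prime_U p hpU) (not_le.1 hY)
          rcases hkk p hpU with e | e <;> omega)
    calc ∑ v ∈ V, ∑ w ∈ W, K' v w * (F v * F' w)
        = ∑ v ∈ V, ∑ w ∈ W, ((if Linked k₀ Y v w then K' v w else 0) * (F v * F' w) +
            (if Linked k₀ Y v w then 0 else K' v w) * (F v * F' w)) := by
          refine Finset.sum_congr rfl fun v _ => Finset.sum_congr rfl fun w _ => ?_
          split_ifs <;> ring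
      _ ≤ _ := by
          simp only [Finset.sum_add_distrib]
          refine le_trans (add_le_add hA1 hA2) (le_of_eq ?_)
          rw [hGd]
          ring
  intro U V W i j hU hV hW hi hj
  have hb := hCr P S F F' K G hPp hF hF' hK0 hG0 hfinal U V W i j hU
    (hV.trans Finset.subset_union_left) (hW.trans Finset.subset_union_right) hi hj
  have eV : ∀ v ∈ V, F v = F₀ v := fun v hv => by simp [hFd, hV hv]
  have eW : ∀ w ∈ W, F' w = F₀' w := fun w hw => by simp [hFd', hW hw]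
  rw [Finset.sum_congr rfl eV, Finset.sum_congr rfl eW] at hb
  set A := ∑ v ∈ V, F₀ v with hAd
  set B := ∑ w ∈ W, F₀' w with hBd
  have hA : 0 ≤ A := Finset.sum_nonneg fun v _ => hV₀.F_nonneg v
  have hB : 0 ≤ B := Finset.sum_nonneg fun v _ => hW₀.F_nonneg v
  calc ∑ v ∈ V, ∑ w ∈ W.filter (fun w => f v * (qd w v : ℝ) ≤ x ∧ f' w * (qd v w : ℝ) ≤ x' ∧
        (Linked k₀ Y v w ∨ (qd w v ≤ Y ∧ qd v w ≤ Y))), F₀ v * F₀' w
      ≤ ∑ v ∈ V, ∑ w ∈ W, K v w * (F v * F' w) := by
        refine Finset.sum_le_sum fun v hv => ?_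
        rw [Finset.sum_filter]
        refine Finset.sum_le_sum fun w hw => ?_
        rw [eV v hv, eW w hw]
        simp only [hKd, hV hv, hW hw, true_and]
        split_ifs <;> simp
    _ ≤ Cr * G * (A * B) ^ θ / ((fixedPart (P \ U) i j * fixedPart (P \ U) j i : ℕ) : ℝ) ^ a2 := hb
    _ ≤ max Cr 0 * G * (A * B) ^ θ /
          ((fixedPart (P \ U) i j * fixedPart (P \ U) j i : ℕ) : ℝ) ^ a2 := by
        gcongr
        exact le_max_left _ _
    _ ≤ _ := by
        refine div_le_div_of_nonneg_right ?_ (Real.rpow_nonneg (Nat.cast_nonneg _) _)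
        rw [hGd, hθd]
        have h0 : 0 ≤ Xs * (Ms * (A * B) ^ (1 - a1)) := by positivity
        linarith

open Classical in
/-- The pairs of two pools with `f c ≤ x` and `f' a ≤ x'` which are linked above `Y`, or have
`c, a ≤ Y`. -/
theorem exists_pool_le (a1 a2 : ℝ) (ha2 : 0 < a2) (h12 : a2 < a1) (ha : a1 + a2 < 1)
    (hhalf : a1 < 1 / 2) (hgap : a1 < 2 * (1 - a1) * a2) :
    ∃ C : ℝ, 0 < C ∧ ∀ (F F' f f' : ℕ → ℝ) (V W : Finset ℕ) (k : ℕ → ℕ) (Y : ℕ) (x x' : ℝ),
      0 < x → 0 < x' → Pool F f V k Y → Pool F' f' W k Y →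
      ∑ v ∈ V, ∑ w ∈ W.filter (fun w => f v * (qd w v : ℝ) ≤ x ∧ f' w * (qd v w : ℝ) ≤ x' ∧
          (Linked k Y v w ∨ (qd w v ≤ Y ∧ qd v w ≤ Y))), F v * F' w ≤
        C * ((x' ^ a1 * x ^ a2) + (x ^ a1 * x' ^ a2)) *
          (((∑ v ∈ V, F v) ^ (a1 - a2) + (∑ w ∈ W, F' w) ^ (a1 - a2)) *
            ((∑ v ∈ V, F v) * ∑ w ∈ W, F' w) ^ (1 - a1)) := by
  obtain ⟨C, hC, h⟩ := exists_pool_state_le a1 a2 ha2 h12 ha hhalf hgap
  refine ⟨C, hC, fun F F' f f' V W k Y x x' hx hx' hV hW => ?_⟩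
  have hfix : ∀ q ∈ V ∪ W, ∀ r, r ∉ (V ∪ W).biUnion Nat.primeFactors →
      q.factorization r = (fun _ => 0 : ℕ → ℕ) r := by
    intro q hq r hr
    by_contra hne
    refine hr (Finset.mem_biUnion.2 ⟨q, hq, ?_⟩)
    rw [← Nat.support_factorization]
    exact Finsupp.mem_support_iff.2 hne
  have hb := h F F' f f' V W k Y x x' hx hx' hV hW _ V W (fun _ => 0) (fun _ => 0) subset_rfl
    subset_rfl subset_rfl (fun v hv => hfix v (Finset.mem_union_left _ hv))
    (fun w hw => hfix w (Finset.mem_union_right _ hw))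
  simpa only [fixedPart, Finset.sdiff_self, Finset.prod_empty, mul_one, Nat.cast_one,
    Real.one_rpow, div_one] using hb

end Vale.Agent.P028.Lift
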