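import Vale.Agent.P028.Lift.Pool

/-!
The numerical parameters of the gain, in the order in which they are chosen, and the shapes of the
bounds.
-/

noncomputable section

namespace Vale.Agent.P028.Lift

open Finset

/-- The loss of the bilinear bound. -/
def delL : ℝ := 1 / 10 ^ 10

/-- The tilt between the two exponents. -/
def omL : ℝ := 1 / 10 ^ 16

/-- The exponent of the first sum. -/
def alL1 : ℝ := (1 - delL + omL) / 2

/-- The exponent of the second sum. -/
def alL2 : ℝ := (1 - delL - omL) / 2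

/-- The exponent of the masses. -/
def thL : ℝ := 1 - alL1

/-- The exponent of the splitting. -/
def beL : ℝ := alL1 / (2 * thL) + delL / 10 ^ 6

/-- The ratio exponent below one. -/
def sL : ℝ := 1 - omL

/-- The ratio exponent above one. -/
def tL : ℝ := sL * alL1 / alL2

/-- The spare parameter: a state with `Q R ≥ x ^ (-(2 + kapL))` gains. -/
def kapL : ℝ := 1 / 10 ^ 4

/-- The slack of a radius. -/
def sig0 : ℝ := 1 / 10 ^ 6

/-- The height of a major arc. -/
def sig1 : ℝ := 1 / 10 ^ 6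

/-- The size from which a variable is tested. -/
def sigB : ℝ := 1 / 10 ^ 5

/-- The saving of the exceptional set on progressions. -/
def sigR : ℝ := 1 / 10 ^ 5

/-- The length from which the exceptional set is thin on a progression. -/
def tauL : ℝ := 1 / 10 ^ 3

/-- The gain of every part. -/
def gainL : ℝ := 1 / 10 ^ 16

/-- The height `X ^ sig1` of a major arc. -/
def majW (x : ℝ) : ℝ := x ^ (-sig1)

/-- The bound of the bilinear estimate in the masses. -/
def bilShape (m m' : ℝ) : ℝ := (m ^ omL + m' ^ omL) * (m * m') ^ thL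

/-- The corners of the triangle of admissible exponents. -/
def gainShape (m m' : ℝ) : ℝ :=
  m ^ (1 / 10 ^ 6 : ℝ) * m' ^ (1 - 1 / 10 ^ 6 : ℝ) +
    m ^ (1 - 1 / 10 ^ 6 : ℝ) * m' ^ (1 / 10 ^ 6 : ℝ) +
    (m * m') ^ (1 - 1 / 10 ^ 6 : ℝ)

/-- `z` is on a major arc of the shift `α`, witnessed by `h`. -/
def MajorAt (x α : ℝ) (h z : ℕ) : Prop :=
  0 < h ∧ (h : ℝ) ≤ majW x ∧ ∃ U : ℤ, |(h : ℝ) * α - U| ≤ majW x * x / z

/-- An exceptional quotient `a`: `‖h a β‖` is small for a small `h`, and the fraction `u / P` has a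
denominator too large for a node; `t` is the cofactor. -/
def ExcWit (β x : ℝ) (a h P t : ℕ) (u : ℤ) : Prop :=
  0 < h ∧ (h : ℝ) ≤ majW x ∧ 0 < P ∧ IsCoprime u (P : ℤ) ∧ h * a = P * t ∧
    |β - u / P| ≤ 3 * majW x * x / ((h : ℝ) * a) ∧
    (a : ℝ) * x ^ (-(1 - 5 * sig1)) < (P : ℝ) ^ 2 ∧ (P : ℝ) ≤ x ^ (-(2 + 3 / 10 ^ 4 : ℝ))

/-- An exceptional quotient. -/
def ExcMem (β x : ℝ) (a : ℕ) : Prop := ∃ (h P t : ℕ) (u : ℤ), ExcWit β x a h P t u

/-- An exceptional quotient with a short cofactor: these form a thin set. -/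
def SideMem (β x : ℝ) (a : ℕ) : Prop :=
  ∃ (h P t : ℕ) (u : ℤ), ExcWit β x a h P t u ∧ (t : ℝ) ≤ x ^ (-tauL)

/-- An exceptional quotient with a long cofactor: `P` takes few values. -/
def DivMem (β x : ℝ) (a : ℕ) : Prop :=
  ∃ (h P t : ℕ) (u : ℤ), ExcWit β x a h P t u ∧ x ^ (-tauL) < (t : ℝ)

theorem excMem_iff {β x : ℝ} {a : ℕ} : ExcMem β x a ↔ SideMem β x a ∨ DivMem β x a := by
  constructor
  · rintro ⟨h, P, t, u, hw⟩
    rcases le_or_gt (t : ℝ) (x ^ (-tauL)) with ht | ht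
    · exact Or.inl ⟨h, P, t, u, hw, ht⟩
    · exact Or.inr ⟨h, P, t, u, hw, ht⟩
  · rintro (⟨h, P, t, u, hw, -⟩ | ⟨h, P, t, u, hw, -⟩) <;> exact ⟨h, P, t, u, hw⟩

end Vale.Agent.P028.Lift
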