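import Vale.Agent.P028.Rec
import Vale.Agent.P028.Lift.BilGen
import Vale.Agent.P028.Lift.Par

/-!
The bilinear bound for two pools.
-/

noncomputable section

namespace Vale.Agent.P028.Lift

open Finset

open Classical in
/-- Pairs with `f c ≤ x` and `f' a ≤ x'` which are linked above `Y`, or have `c, a ≤ Y`. -/
theorem exists_bilPool_le :
    ∃ C : ℝ, 0 < C ∧ ∀ (F F' f f' : ℕ → ℝ) (V W : Finset ℕ) (k : ℕ → ℕ) (Y : ℕ) (x x' : ℝ),
      0 < x → 0 < x' → 2 ≤ Y → Pool F f V k Y → Pool F' f' W k Y →
      ∑ v ∈ V, ∑ w ∈ W.filter (fun w => f v * (qd w v : ℝ) ≤ x ∧ f' w * (qd v w : ℝ) ≤ x' ∧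
          (Linked k Y v w ∨ (qd w v ≤ Y ∧ qd v w ≤ Y))), F v * F' w ≤
        C * ((x' ^ alL1 * x ^ alL2) + (x ^ alL1 * x' ^ alL2)) *
          bilShape (∑ v ∈ V, F v) (∑ w ∈ W, F' w) := by
  obtain ⟨C, hC, h⟩ := exists_pool_le alL1 alL2 (by norm_num [alL2, delL, omL])
    (by norm_num [alL1, alL2, delL, omL]) (by norm_num [alL1, alL2, delL, omL])
    (by norm_num [alL1, delL, omL]) (by norm_num [alL1, alL2, delL, omL])
  refine ⟨C, hC, fun F F' f f' V W k Y x x' hx hx' _ hV hW => ?_⟩
  have e : alL1 - alL2 = omL := by norm_num [alL1, alL2, delL, omL]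
  have := h F F' f f' V W k Y x x' hx hx' hV hW
  simpa only [e, bilShape, thL] using this

/-- The splitting at one prime with a prescribed gap: a row and a column weigh at most `R`. -/
theorem sum_shift_le {θ R : ℝ} (hθ : 1 / 2 ≤ θ) (hR : 0 ≤ R) (s : Finset ℕ) (A B : ℕ → ℝ)
    (hA : ∀ a, 0 ≤ A a) (hB : ∀ b, 0 ≤ B b) (w : ℕ → ℕ → ℝ) (hw : ∀ a b, 0 ≤ w a b)
    (hrow : ∀ a, ∑ b ∈ s, w a b ≤ R) (hcol : ∀ b, ∑ a ∈ s, w a b ≤ R) :
    ∑ a ∈ s, ∑ b ∈ s, (A a * B b) ^ θ * w a b ≤ R * ((∑ a ∈ s, A a) * ∑ b ∈ s, B b) ^ θ := by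
  have hpow : ∀ (A : ℕ → ℝ), (∀ a, 0 ≤ A a) →
      ∑ a ∈ s, (A a ^ θ) ^ 2 ≤ ((∑ a ∈ s, A a) ^ θ) ^ 2 := by
    intro A hA
    have hS : 0 ≤ ∑ a ∈ s, A a := Finset.sum_nonneg fun a _ => hA a
    have e : ∀ z : ℝ, 0 ≤ z → (z ^ θ) ^ 2 = z ^ (2 * θ - 1) * z := by
      intro z hz
      conv_rhs => rw [← Real.rpow_add_one' hz (by linarith)]
      rw [← Real.rpow_natCast (z ^ θ) 2, ← Real.rpow_mul hz]
      congr 1
      push_cast
      ring
    rw [e _ hS, Finset.mul_sum]
    refine Finset.sum_le_sum fun a ha => ?_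
    rw [e _ (hA a)]
    exact mul_le_mul_of_nonneg_right (Real.rpow_le_rpow (hA a)
      (Finset.single_le_sum (fun b _ => hA b) ha) (by linarith)) (hA a)
  have hSA : 0 ≤ ∑ a ∈ s, A a := Finset.sum_nonneg fun a _ => hA a
  have hSB : 0 ≤ ∑ a ∈ s, B a := Finset.sum_nonneg fun a _ => hB a
  have cs := Real.sum_mul_le_sqrt_mul_sqrt (s ×ˢ s) (fun z => √(w z.1 z.2) * A z.1 ^ θ)
    (fun z => √(w z.1 z.2) * B z.2 ^ θ)
  have e1 : ∑ z ∈ s ×ˢ s, (√(w z.1 z.2) * A z.1 ^ θ) ^ 2 ≤ R * ((∑ a ∈ s, A a) ^ θ) ^ 2 := by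
    rw [Finset.sum_product]
    refine le_trans ?_ (mul_le_mul_of_nonneg_left (hpow A hA) hR)
    rw [Finset.mul_sum]
    refine Finset.sum_le_sum fun a _ => ?_
    simp only [mul_pow, Real.sq_sqrt (hw _ _), ← Finset.sum_mul]
    exact mul_le_mul_of_nonneg_right (hrow a) (sq_nonneg _)
  have e2 : ∑ z ∈ s ×ˢ s, (√(w z.1 z.2) * B z.2 ^ θ) ^ 2 ≤ R * ((∑ a ∈ s, B a) ^ θ) ^ 2 := by
    rw [Finset.sum_product_right]
    refine le_trans ?_ (mul_le_mul_of_nonneg_left (hpow B hB) hR)
    rw [Finset.mul_sum]
    refine Finset.sum_le_sum fun b _ => ?_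
    simp only [mul_pow, Real.sq_sqrt (hw _ _), ← Finset.sum_mul]
    exact mul_le_mul_of_nonneg_right (hcol b) (sq_nonneg _)
  refine le_trans (le_of_eq ?_) (cs.trans ((mul_le_mul (Real.sqrt_le_sqrt e1) (Real.sqrt_le_sqrt e2)
    (Real.sqrt_nonneg _) (Real.sqrt_nonneg _)).trans (le_of_eq ?_)))
  · rw [Finset.sum_product]
    refine Finset.sum_congr rfl fun a _ => Finset.sum_congr rfl fun b _ => ?_
    rw [Real.mul_rpow (hA a) (hB b), mul_mul_mul_comm, Real.mul_self_sqrt (hw a b)]
    ring
  · rw [Real.sqrt_mul hR, Real.sqrt_mul hR, Real.sqrt_sq (Real.rpow_nonneg hSA _),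
      Real.sqrt_sq (Real.rpow_nonneg hSB _), Real.mul_rpow hSA hSB, mul_mul_mul_comm,
      Real.mul_self_sqrt hR]

/-- The geometric weights beyond a gap. -/
theorem sum_gap_le {u : ℝ} (hu : 0 ≤ u) (hu1 : u ≤ 3 / 4) (T : Finset ℕ) (D : ℕ)
    (hT : ∀ l ∈ T, D ≤ l) : ∑ l ∈ T, u ^ l ≤ 4 * u ^ D := by
  obtain ⟨M, hM⟩ : ∃ M, ∀ l ∈ T, l ≤ M := ⟨T.sup id, fun l hl => Finset.le_sup (f := id) hl⟩
  refine (Finset.sum_le_sum_of_subset_of_nonneg (t := (Finset.range (M + 1)).image (D + ·))
    (fun l hl => Finset.mem_image.2 ⟨l - D, Finset.mem_range.2 (by have := hM l hl; omega),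
      by have := hT l hl; omega⟩) fun l _ _ => pow_nonneg hu l).trans ?_
  rw [Finset.sum_image (fun a _ b _ h => by omega)]
  simp only [pow_add, ← Finset.mul_sum]
  rw [mul_comm 4]
  refine mul_le_mul_of_nonneg_left ?_ (pow_nonneg hu D)
  refine ((summable_geometric_of_lt_one hu (by linarith)).sum_le_tsum _
    fun i _ => pow_nonneg hu i).trans ?_
  rw [tsum_geometric_of_lt_one hu (by linarith), inv_le_iff_one_le_mul₀ (by linarith)]
  linarith

open Classical in
/-- A prescribed divisor `D` of the quotient of the second member saves `D ^ beL`. -/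
theorem exists_bilPool_dvd_le :
    ∃ C : ℝ, 0 < C ∧ ∀ (F F' f f' : ℕ → ℝ) (V W : Finset ℕ) (k : ℕ → ℕ) (Y D : ℕ) (x x' : ℝ),
      0 < x → 0 < x' → 2 ≤ Y → 0 < D → Pool F f V k Y → Pool F' f' W k Y →
      ∑ v ∈ V, ∑ w ∈ W.filter (fun w => f v * (qd w v : ℝ) ≤ x ∧ f' w * (qd v w : ℝ) ≤ x' ∧
          Linked k Y v w ∧ D ∣ qd w v), F v * F' w ≤
        C * (4 ^ D.primeFactors.card * (D : ℝ) ^ (-beL)) *
          ((x' ^ alL1 * x ^ alL2) + (x ^ alL1 * x' ^ alL2)) *
          bilShape (∑ v ∈ V, F v) (∑ w ∈ W, F' w) := by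
  obtain ⟨C, hC, h⟩ := exists_pool_state_le alL1 alL2 (by norm_num [alL2, delL, omL])
    (by norm_num [alL1, alL2, delL, omL]) (by norm_num [alL1, alL2, delL, omL])
    (by norm_num [alL1, delL, omL]) (by norm_num [alL1, alL2, delL, omL])
  refine ⟨C, hC, fun F F' f f' V W k Y D x x' hx hx' _ hD hV hW => ?_⟩
  have hal : 0 < alL2 := by norm_num [alL2, delL, omL]
  have hth : 1 / 2 ≤ thL := by norm_num [thL, alL1, delL, omL]
  have he : alL1 - alL2 = omL := by norm_num [alL1, alL2, delL, omL]
  have hbe : beL ≤ alL2 := by norm_num [beL, thL, alL1, alL2, delL, omL]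
  set P := (V ∪ W).biUnion Nat.primeFactors with hP
  set G := C * ((x' ^ alL1 * x ^ alL2) + (x ^ alL1 * x' ^ alL2)) *
    ((∑ v ∈ V, F v) ^ omL + (∑ w ∈ W, F' w) ^ omL) with hG
  have hmA : 0 ≤ ∑ v ∈ V, F v := Finset.sum_nonneg fun v _ => hV.F_nonneg v
  have hmB : 0 ≤ ∑ w ∈ W, F' w := Finset.sum_nonneg fun w _ => hW.F_nonneg w
  have hG0 : 0 ≤ G := by positivity
  set cond : ℕ → ℕ → Prop := fun v w => f v * (qd w v : ℝ) ≤ x ∧ f' w * (qd v w : ℝ) ≤ x' ∧
    Linked k Y v w ∧ D ∣ qd w v with hcond
  have hpos : ∀ q ∈ V ∪ W, 0 < q := fun q hq =>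
    (Finset.mem_union.1 hq).elim (fun h => hV.pos q h) fun h => hW.pos q h
  have hfix : ∀ q ∈ V ∪ W, ∀ r, r ∉ P → q.factorization r = 0 := by
    intro q hq r hr
    by_contra hne
    refine hr (Finset.mem_biUnion.2 ⟨q, hq, ?_⟩)
    rw [← Nat.support_factorization]
    exact Finsupp.mem_support_iff.2 hne
  have hgap : ∀ v ∈ V, ∀ w ∈ W, cond v w → ∀ p : ℕ,
      v.factorization p + D.factorization p ≤ w.factorization p ∨ D.factorization p = 0 := by
    intro v hv w hw hc p
    have h1 := (Nat.factorization_le_iff_dvd hD.ne' (BilinearAux.qd_pos (hW.pos w hw)).ne').2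
      hc.2.2.2 p
    rw [BilinearAux.factorization_qd (hW.pos w hw) (hV.pos v hv)] at h1
    omega
  by_cases hsub : D.primeFactors ⊆ P
  swap
  · refine le_trans (le_of_eq (Finset.sum_eq_zero fun v hv => Finset.sum_eq_zero fun w hw => ?_))
      (mul_nonneg (by positivity) (mul_nonneg (by positivity)
        (Real.rpow_nonneg (mul_nonneg hmA hmB) _)))
    obtain ⟨p, hp, hpP⟩ := Finset.not_subset.1 hsub
    obtain ⟨hwW, hc⟩ := Finset.mem_filter.1 hw
    have hne : D.factorization p ≠ 0 := by
      rwa [← Finsupp.mem_support_iff, Nat.support_factorization]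
    have := (hgap v hv w hwW hc p).resolve_right hne
    rw [hfix w (Finset.mem_union_right _ hwW) p hpP] at this
    omega
  -- fix the primes of `D` one by one
  have key : ∀ (R : Finset ℕ), R ⊆ D.primeFactors → ∀ (V' W' : Finset ℕ) (i j : ℕ → ℕ),
      V' ⊆ V → W' ⊆ W →
      (∀ v ∈ V', ∀ p, p ∉ P \ (D.primeFactors \ R) → v.factorization p = i p) →
      (∀ w ∈ W', ∀ p, p ∉ P \ (D.primeFactors \ R) → w.factorization p = j p) →
      ∑ v ∈ V', ∑ w ∈ W'.filter (fun w => cond v w), F v * F' w ≤
        G * ((∏ p ∈ R, 4 * ((p : ℝ) ^ (-alL2)) ^ D.factorization p) *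
          (∏ p ∈ D.primeFactors \ R, ((p : ℝ) ^ (-alL2)) ^ Nat.dist (i p) (j p))) *
          ((∑ v ∈ V', F v) * ∑ w ∈ W', F' w) ^ thL := by
    intro R
    induction R using Finset.induction with
    | empty =>
      intro _ V' W' i j hV' hW' hi hj
      rw [Finset.prod_empty, one_mul, Finset.sdiff_empty] at *
      refine le_trans (Finset.sum_le_sum fun v _ => ?_) (le_trans
        (h F F' f f' V W k Y x x' hx hx' hV hW (P \ D.primeFactors) V' W' i j Finset.sdiff_subset
          hV' hW' hi hj) (le_of_eq ?_))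
      · refine Finset.sum_le_sum_of_subset_of_nonneg (fun w hw => ?_) fun w _ _ =>
          mul_nonneg (hV.F_nonneg v) (hW.F_nonneg w)
        obtain ⟨hwW, hc⟩ := Finset.mem_filter.1 hw
        exact Finset.mem_filter.2 ⟨hwW, hc.1, hc.2.1, Or.inl hc.2.2.1⟩
      · rw [Finset.sdiff_sdiff_eq_self hsub, he, thL, hG]
        have e1 : ((fixedPart D.primeFactors i j * fixedPart D.primeFactors j i : ℕ) : ℝ) ^ alL2 =
            (∏ p ∈ D.primeFactors, ((p : ℝ) ^ (-alL2)) ^ Nat.dist (i p) (j p))⁻¹ := by
          rw [fixedPart, fixedPart, ← Finset.prod_mul_distrib, Nat.cast_prod,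
            ← Real.finsetProd_rpow _ _ (fun p _ => Nat.cast_nonneg _), ← Finset.prod_inv_distrib]
          refine Finset.prod_congr rfl fun p _ => ?_
          rw [← pow_add, Real.rpow_neg (Nat.cast_nonneg p), inv_pow, inv_inv, Nat.cast_pow,
            ← Real.rpow_natCast _ ((i p - j p) + (j p - i p)), ← Real.rpow_natCast _ (Nat.dist _ _),
            ← Real.rpow_mul (Nat.cast_nonneg p), ← Real.rpow_mul (Nat.cast_nonneg p), mul_comm]
          rfl
        rw [e1, div_inv_eq_mul]
        ring
    | @insert p R hpR ih =>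
      intro hR V' W' i j hV' hW' hi hj
      obtain ⟨hpD, hRD⟩ := Finset.insert_subset_iff.1 hR
      have hp := Nat.prime_of_mem_primeFactors hpD
      have hp2 : (2 : ℝ) ≤ p := by exact_mod_cast hp.two_le
      set n := (V ∪ W).sup (fun q => q.factorization p) + 1 with hn
      have hlt : ∀ q ∈ V ∪ W, q.factorization p < n := fun q hq =>
        Nat.lt_succ_of_le (Finset.le_sup (f := fun q : ℕ => q.factorization p) hq)
      set A : ℕ → ℝ := fun a => ∑ v ∈ V'.filter (fun v => v.factorization p = a), F v with hA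
      set B : ℕ → ℝ := fun a => ∑ v ∈ W'.filter (fun v => v.factorization p = a), F' v with hB
      set u : ℝ := (p : ℝ) ^ (-alL2) with hu
      have hu0 : 0 ≤ u := Real.rpow_nonneg (Nat.cast_nonneg p) _
      have hu1 : u ≤ 3 / 4 := by
        have h1 : u ≤ (2 : ℝ) ^ (-alL2) := by
          rw [hu]; exact Real.rpow_le_rpow_of_nonpos two_pos hp2 (by linarith)
        refine h1.trans ?_
        have h2 : (2 : ℝ) ^ (-alL2) ≤ (2 : ℝ) ^ (-(49 / 100 : ℝ)) :=
          Real.rpow_le_rpow_of_exponent_le one_le_two (by norm_num [alL2, delL, omL])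
        refine h2.trans ?_
        rw [Real.rpow_neg zero_le_two, inv_le_comm₀ (by positivity) (by norm_num)]
        rw [← pow_le_pow_iff_left₀ (by norm_num) (by positivity) (by norm_num : (100 : ℕ) ≠ 0),
          ← Real.rpow_natCast ((2 : ℝ) ^ (49 / 100 : ℝ)) 100, ← Real.rpow_mul zero_le_two]
        norm_num
      set d := D.factorization p with hd
      have hd0 : d ≠ 0 := by
        rwa [hd, ← Finsupp.mem_support_iff, Nat.support_factorization]
      set wgt : ℕ → ℕ → ℝ := fun a b => if a + d ≤ b then u ^ (b - a) else 0 with hwgt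
      set rest : ℝ := G * ((∏ q ∈ R, 4 * ((q : ℝ) ^ (-alL2)) ^ D.factorization q) *
        ∏ q ∈ D.primeFactors \ insert p R, ((q : ℝ) ^ (-alL2)) ^ Nat.dist (i q) (j q)) with hrest
      have hrest0 : 0 ≤ rest := by positivity
      have hins : D.primeFactors \ R = insert p (D.primeFactors \ insert p R) := by
        ext q
        simp only [Finset.mem_insert, Finset.mem_sdiff]
        by_cases hqp : q = p
        · subst hqp; simp [hpD, hpR]
        · simp [hqp]
      have hblock : ∀ a ∈ Finset.range n, ∀ b ∈ Finset.range n,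
          ∑ v ∈ V'.filter (fun v => v.factorization p = a),
            ∑ w ∈ (W'.filter (fun w => w.factorization p = b)).filter (fun w => cond v w),
              F v * F' w ≤ rest * ((A a * B b) ^ thL * wgt a b) := by
        intro a _ b _
        by_cases hab : a + d ≤ b
        swap
        · refine le_trans (le_of_eq (Finset.sum_eq_zero fun v hv => Finset.sum_eq_zero fun w hw => ?_))
            (le_of_eq (by simp [hwgt, hab]))
          obtain ⟨hw, hc⟩ := Finset.mem_filter.1 hw
          obtain ⟨hv, hva⟩ := Finset.mem_filter.1 hv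
          obtain ⟨hw, hwb⟩ := Finset.mem_filter.1 hw
          rcases hgap v (hV' hv) w (hW' hw) hc p with hh | hh <;> omega
        have hih := ih hRD (V'.filter (fun v => v.factorization p = a))
          (W'.filter (fun w => w.factorization p = b)) (Function.update i p a) (Function.update j p b)
          ((Finset.filter_subset _ _).trans hV') ((Finset.filter_subset _ _).trans hW')
          (fun v hv q hq => by
            obtain ⟨hv, hva⟩ := Finset.mem_filter.1 hv
            rcases eq_or_ne q p with rfl | hne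
            · rw [Function.update_self, hva]
            · rw [Function.update_of_ne hne]
              refine hi v hv q fun hh => hq ?_
              simp only [Finset.mem_sdiff, Finset.mem_insert, hne, false_or] at hh ⊢
              exact hh)
          (fun v hv q hq => by
            obtain ⟨hv, hva⟩ := Finset.mem_filter.1 hv
            rcases eq_or_ne q p with rfl | hne
            · rw [Function.update_self, hva]
            · rw [Function.update_of_ne hne]
              refine hj v hv q fun hh => hq ?_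
              simp only [Finset.mem_sdiff, Finset.mem_insert, hne, false_or] at hh ⊢
              exact hh)
        refine hih.trans (le_of_eq ?_)
        rw [hins, Finset.prod_insert (by simp), Function.update_self, Function.update_self,
          hrest, hA, hB, hwgt]
        simp only [if_pos hab]
        have e : ∏ q ∈ D.primeFactors \ insert p R,
            ((q : ℝ) ^ (-alL2)) ^ Nat.dist (Function.update i p a q) (Function.update j p b q) =
            ∏ q ∈ D.primeFactors \ insert p R, ((q : ℝ) ^ (-alL2)) ^ Nat.dist (i q) (j q) := by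
          refine Finset.prod_congr rfl fun q hq => ?_
          have hne : q ≠ p := fun e => (Finset.mem_sdiff.1 hq).2 (e ▸ Finset.mem_insert_self _ _)
          rw [Function.update_of_ne hne, Function.update_of_ne hne]
        rw [e, Nat.dist_eq_sub_of_le (by omega : a ≤ b), hu]
        ring
      calc ∑ v ∈ V', ∑ w ∈ W'.filter (fun w => cond v w), F v * F' w
          = ∑ a ∈ Finset.range n, ∑ b ∈ Finset.range n,
              ∑ v ∈ V'.filter (fun v => v.factorization p = a),
                ∑ w ∈ (W'.filter (fun w => w.factorization p = b)).filter (fun w => cond v w),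
                  F v * F' w := by
            rw [← Finset.sum_fiberwise_of_maps_to (g := fun v => v.factorization p)
              (t := Finset.range n)
              (fun v hv => Finset.mem_range.2 (hlt v (Finset.mem_union_left _ (hV' hv))))]
            refine Finset.sum_congr rfl fun a _ => ?_
            rw [Finset.sum_comm (s := Finset.range n)]
            refine Finset.sum_congr rfl fun v _ => ?_
            rw [← Finset.sum_fiberwise_of_maps_to (g := fun w => w.factorization p)
              (t := Finset.range n) fun w hw => Finset.mem_range.2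
                (hlt w (Finset.mem_union_right _ (hW' (Finset.mem_filter.1 hw).1)))]
            simp only [Finset.filter_filter, and_comm]
        _ ≤ ∑ a ∈ Finset.range n, ∑ b ∈ Finset.range n, rest * ((A a * B b) ^ thL * wgt a b) :=
            Finset.sum_le_sum fun a ha => Finset.sum_le_sum fun b hb => hblock a ha b hb
        _ ≤ rest * ((4 * u ^ d) * ((∑ a ∈ Finset.range n, A a) *
              ∑ b ∈ Finset.range n, B b) ^ thL) := by
            simp only [← Finset.mul_sum]
            refine mul_le_mul_of_nonneg_left (sum_shift_le hth (by positivity) _ A B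
              (fun a => Finset.sum_nonneg fun v _ => hV.F_nonneg v)
              (fun a => Finset.sum_nonneg fun v _ => hW.F_nonneg v) wgt
              (fun a b => by simp only [hwgt]; split_ifs <;> positivity) (fun a => ?_)
              (fun b => ?_)) hrest0
            · simp only [hwgt]
              rw [← Finset.sum_filter]
              refine le_trans (le_of_eq (Finset.sum_image (f := fun l => u ^ l) (g := fun b => b - a)
                fun b hb b' hb' e => ?_).symm) (sum_gap_le hu0 hu1 _ d fun l hl => ?_)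
              · simp only [Finset.coe_filter, Set.mem_ofPred_eq] at hb hb' e
                omega
              · obtain ⟨b, hb, rfl⟩ := Finset.mem_image.1 hl
                have := (Finset.mem_filter.1 hb).2
                omega
            · simp only [hwgt]
              rw [← Finset.sum_filter]
              refine le_trans (le_of_eq (Finset.sum_image (f := fun l => u ^ l) (g := fun a => b - a)
                fun a ha a' ha' e => ?_).symm) (sum_gap_le hu0 hu1 _ d fun l hl => ?_)
              · simp only [Finset.coe_filter, Set.mem_ofPred_eq] at ha ha' e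
                omega
              · obtain ⟨a, ha, rfl⟩ := Finset.mem_image.1 hl
                have := (Finset.mem_filter.1 ha).2
                omega
        _ = _ := by
            rw [hA, hB, Finset.sum_fiberwise_of_maps_to (g := fun v : ℕ => v.factorization p)
                (fun v hv => Finset.mem_range.2 (hlt v (Finset.mem_union_left _ (hV' hv)))),
              Finset.sum_fiberwise_of_maps_to (g := fun v : ℕ => v.factorization p)
                (fun v hv => Finset.mem_range.2 (hlt v (Finset.mem_union_right _ (hW' hv)))),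
              Finset.prod_insert hpR, hrest, hu, hd]
            ring
  have hall := key D.primeFactors subset_rfl V W (fun _ => 0) (fun _ => 0) subset_rfl subset_rfl
    (fun v hv p hp => hfix v (Finset.mem_union_left _ hv) p (by simpa using hp))
    (fun w hw p hp => hfix w (Finset.mem_union_right _ hw) p (by simpa using hp))
  rw [Finset.sdiff_self, Finset.prod_empty, mul_one, Finset.prod_mul_distrib, Finset.prod_const]
    at hall
  have hDpow : ∏ p ∈ D.primeFactors, ((p : ℝ) ^ (-alL2)) ^ D.factorization p =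
      (D : ℝ) ^ (-alL2) := by
    have e : (D : ℝ) = ∏ p ∈ D.primeFactors, ((p : ℝ) ^ D.factorization p) := by
      conv_lhs => rw [← Nat.prod_factorization_pow_eq_self hD.ne']
      rw [Finsupp.prod, Nat.support_factorization, Nat.cast_prod]
      exact Finset.prod_congr rfl fun p _ => by push_cast; rfl
    conv_rhs => rw [e]
    rw [← Real.finsetProd_rpow _ _ (fun p _ => by positivity)]
    refine Finset.prod_congr rfl fun p _ => ?_
    rw [← Real.rpow_natCast, ← Real.rpow_natCast, ← Real.rpow_mul (Nat.cast_nonneg p),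
      ← Real.rpow_mul (Nat.cast_nonneg p), mul_comm]
  rw [hDpow] at hall
  refine hall.trans ?_
  have hDle : (D : ℝ) ^ (-alL2) ≤ (D : ℝ) ^ (-beL) :=
    Real.rpow_le_rpow_of_exponent_le (by exact_mod_cast hD) (by linarith)
  calc G * (4 ^ D.primeFactors.card * (D : ℝ) ^ (-alL2)) *
        ((∑ v ∈ V, F v) * ∑ w ∈ W, F' w) ^ thL
      ≤ G * (4 ^ D.primeFactors.card * (D : ℝ) ^ (-beL)) *
        ((∑ v ∈ V, F v) * ∑ w ∈ W, F' w) ^ thL := by gcongr
    _ = _ := by rw [hG, bilShape]; ring

end Vale.Agent.P028.Lift
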