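import Vale.Agent.P028.Lift.Par

/-!
Monomials inside the triangle of admissible exponents are bounded by the corners.
-/

noncomputable section

namespace Vale.Agent.P028.Lift

open Finset

theorem gainShape_nonneg {m m' : ℝ} (hm : 0 ≤ m) (hm' : 0 ≤ m') : 0 ≤ gainShape m m' := by
  unfold gainShape; positivity

/-- A monomial with exponents at most `1 - 10 ^ (-6)` and of sum at least one. -/
theorem mono_le_gainShape {m m' a b : ℝ} (hm : 0 ≤ m) (hm' : 0 ≤ m')
    (ha : a ≤ 1 - 1 / 10 ^ 6) (hb : b ≤ 1 - 1 / 10 ^ 6) (hab : 1 ≤ a + b) :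
    m ^ a * m' ^ b ≤ gainShape m m' := by
  have ha0 : 0 < a := by norm_num at hb; linarith
  have hb0 : 0 < b := by norm_num at ha; linarith
  rcases hm.eq_or_lt with e | hm1
  · rw [← e, Real.zero_rpow ha0.ne', zero_mul]; exact gainShape_nonneg le_rfl hm'
  rcases hm'.eq_or_lt with e | hm1'
  · rw [← e, Real.zero_rpow hb0.ne', mul_zero]; exact gainShape_nonneg hm le_rfl
  unfold gainShape
  set e : ℝ := 1 / 10 ^ 6 with he
  have he0 : 0 < e := by norm_num [he]
  have he1 : 0 < 1 - 2 * e := by norm_num [he]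
  set u : ℝ := (1 - e - a) / (1 - 2 * e) with hu
  set v : ℝ := (1 - e - b) / (1 - 2 * e) with hv
  set w : ℝ := (a + b - 1) / (1 - 2 * e) with hw
  have hu0 : 0 ≤ u := div_nonneg (by linarith) he1.le
  have hv0 : 0 ≤ v := div_nonneg (by linarith) he1.le
  have hw0 : 0 ≤ w := div_nonneg (by linarith) he1.le
  have hs : u + v + w = 1 := by rw [hu, hv, hw]; field_simp; ring
  have hA : a = e * u + (1 - e) * v + (1 - e) * w := by rw [hu, hv, hw]; field_simp; ring
  have hB : b = (1 - e) * u + e * v + (1 - e) * w := by rw [hu, hv, hw]; field_simp; ring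
  have h := Real.geom_mean_le_arith_mean3_weighted hu0 hv0 hw0
    (show 0 ≤ m ^ e * m' ^ (1 - e) by positivity) (show 0 ≤ m ^ (1 - e) * m' ^ e by positivity)
    (show 0 ≤ (m * m') ^ (1 - e) by positivity) hs
  refine le_trans (le_of_eq ?_) (h.trans ?_)
  · rw [Real.mul_rpow hm hm']
    simp only [Real.mul_rpow (Real.rpow_nonneg hm _) (Real.rpow_nonneg hm' _),
      ← Real.rpow_mul hm, ← Real.rpow_mul hm']
    rw [hA, hB, Real.rpow_add hm1, Real.rpow_add hm1, Real.rpow_add hm1', Real.rpow_add hm1']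
    ring
  · have h1 : u ≤ 1 := by linarith
    have h2 : v ≤ 1 := by linarith
    have h3 : w ≤ 1 := by linarith
    exact add_le_add (add_le_add (mul_le_of_le_one_left (by positivity) h1)
      (mul_le_of_le_one_left (by positivity) h2)) (mul_le_of_le_one_left (by positivity) h3)

/-- The bound of the bilinear estimate is inside the triangle. -/
theorem bilShape_le_gainShape {m m' : ℝ} (hm : 0 ≤ m) (hm' : 0 ≤ m') :
    bilShape m m' ≤ 2 * gainShape m m' := by
  have hab : omL + thL + thL = 1 + delL := by norm_num [thL, alL1, omL, delL]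
  have h1 : omL + thL ≤ 1 - 1 / 10 ^ 6 := by norm_num [thL, alL1, omL, delL]
  have h2 : thL ≤ 1 - 1 / 10 ^ 6 := by norm_num [thL, alL1, omL, delL]
  have h0 : (0 : ℝ) < thL := by norm_num [thL, alL1, omL, delL]
  have ho : (0 : ℝ) < omL := by norm_num [omL]
  have hd : (0 : ℝ) ≤ delL := by norm_num [delL]
  rw [bilShape, Real.mul_rpow hm hm', add_mul, two_mul]
  refine add_le_add ?_ ?_
  · rw [← mul_assoc, ← Real.rpow_add' hm (by linarith)]
    exact mono_le_gainShape hm hm' h1 h2 (by linarith)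
  · rw [mul_comm (m ^ thL), ← mul_assoc, ← Real.rpow_add' hm' (by linarith), mul_comm]
    exact mono_le_gainShape hm hm' h2 h1 (by linarith)

end Vale.Agent.P028.Lift
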