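import Vale.Agent.P028.Lift.Sep

/-!
Counting `n ≤ N` with `‖n α - c‖` small.
-/

noncomputable section

namespace Vale.Agent.P028.Lift

open Finset

/-- Either few `n ≤ N` have `n α` near `c` modulo one, or `α` has a small denominator. -/
theorem exists_rowCount :
    ∃ C : ℝ, 0 < C ∧ ∀ (α c x M N : ℝ) (s : Finset ℕ), 0 < x → 1 ≤ M → 1 ≤ N →
      (∀ n ∈ s, 0 < n ∧ (n : ℝ) ≤ N ∧ NearInt ((n : ℝ) * α - c) (2 * x)) →
      (s.card : ℝ) ≤ C * (N * x + N / M + M) ∨
        ∃ q : ℕ, 0 < q ∧ (q : ℝ) ≤ M ∧ NearInt ((q : ℝ) * α) (M ^ 2 * x / N) := by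
  refine ⟨64, by norm_num, fun α c x M N s hx hM hN hs => ?_⟩
  have hN0 : 0 < N := by linarith
  have hn1 : 0 < ⌊N⌋₊ := Nat.floor_pos.2 hN
  obtain ⟨u, qz, hq0, hqle, hdir⟩ := Real.exists_int_int_abs_mul_sub_le α hn1
  -- reduce the fraction
  obtain ⟨g, u1, q1, hg, hcop, hu, hq⟩ :=
    Int.exists_gcd_one' (Int.gcd_pos_of_ne_zero_right u hq0.ne')
  have hg1 : (1 : ℤ) ≤ g := by exact_mod_cast hg
  have hq1 : 0 < q1 := by nlinarith
  have hq1le : q1 ≤ qz := by nlinarith
  set δ : ℝ := (q1 : ℝ) * α - u1 with hδdef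
  have hδ : |δ| ≤ 1 / N := by
    have h1 : |δ| ≤ |(qz : ℝ) * α - u| := by
      have e : (qz : ℝ) * α - u = (g : ℝ) * δ := by rw [hδdef, hu, hq]; push_cast; ring
      rw [e, abs_mul, Nat.abs_cast]
      exact le_mul_of_one_le_left (abs_nonneg _) (by exact_mod_cast hg1)
    refine (h1.trans hdir).trans ?_
    exact one_div_le_one_div_of_le hN0 (Nat.lt_floor_add_one N).le
  set q : ℝ := (q1 : ℝ) with hqdef
  have hqpos : 0 < q := by rw [hqdef]; exact_mod_cast hq1
  have hqN : q ≤ N := by
    have h1 : (qz : ℝ) ≤ (⌊N⌋₊ : ℝ) := by exact_mod_cast hqle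
    have h2 : q ≤ (qz : ℝ) := by rw [hqdef]; exact_mod_cast hq1le
    linarith [Nat.floor_le hN0.le]
  choose! t ht using fun n hn => (hs n hn).2.2
  let k : ℕ → ℤ := fun n => (n : ℤ) * u1 - t n * q1
  have hk : ∀ n ∈ s, |(k n : ℝ) + (n : ℝ) * δ - q * c| < 2 * x * q := by
    intro n hn
    have e : (k n : ℝ) + (n : ℝ) * δ - q * c = q * ((n : ℝ) * α - c - t n) := by
      simp only [k, hδdef, hqdef]; push_cast; ring
    rw [e, abs_mul, abs_of_pos hqpos, mul_comm (2 * x) q]
    exact mul_lt_mul_of_pos_left (ht n hn) hqpos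
  have hnδ : ∀ n ∈ s, |(n : ℝ) * δ| ≤ 1 := by
    intro n hn
    rw [abs_mul, Nat.abs_cast]
    refine (mul_le_mul (hs n hn).2.1 hδ (abs_nonneg _) hN0.le).trans_eq ?_
    field_simp
  have hmod : ∀ n n', k n = k n' → q1 ∣ ((n : ℤ) - n') := by
    intro n n' h
    have h2 : q1 ∣ ((n : ℤ) - n') * u1 := ⟨t n - t n', by simp only [k] at h; linarith⟩
    refine Int.dvd_of_dvd_mul_left_of_gcd_one h2 ?_
    rw [Int.gcd_comm]; exact hcop
  rcases lt_or_ge M q with hMq | hMq
  · -- large denominator: at most `4xq + 3` values in each block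
    left
    let b : ℕ → ℕ := fun n => n / q1.toNat
    have hq1n : (q1.toNat : ℤ) = q1 := Int.toNat_of_nonneg hq1.le
    have hq1r : (q1.toNat : ℝ) = q := by rw [hqdef]; exact_mod_cast hq1n
    have hblock : ∀ bb, ((s.filter fun n => b n = bb).card : ℝ) ≤ 4 * x * q + 3 := by
      intro bb
      have hinj : Set.InjOn k ↑(s.filter fun n => b n = bb) := by
        intro n hn n' hn' h
        simp only [mem_coe, mem_filter, b] at hn hn'
        have h1 := Nat.div_add_mod n q1.toNat
        have h2 := Nat.div_add_mod n' q1.toNat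
        rw [hn.2] at h1; rw [hn'.2] at h2
        have hpos : 0 < q1.toNat := by omega
        have h3 := Nat.mod_lt n hpos
        have h4 := Nat.mod_lt n' hpos
        have h5 := hmod n n' h
        have h6 : ((n % q1.toNat : ℕ) : ℤ) - (n' % q1.toNat : ℕ) = (n : ℤ) - n' := by omega
        have h7 : (n : ℤ) - n' = 0 := Int.eq_zero_of_abs_lt_dvd h5 (by rw [abs_lt]; omega)
        omega
      rw [← card_image_of_injOn hinj]
      refine (card_int_near (z := q * c - (bb : ℝ) * q * δ) (R := 2 * x * q + 1) (by positivity)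
        ?_).trans_eq (by ring)
      intro z hz
      obtain ⟨n, hn, rfl⟩ := mem_image.1 hz
      simp only [mem_filter, b] at hn
      have h1 := hk n hn.1
      have h2 : |((n : ℝ) - (bb : ℝ) * q) * δ| ≤ 1 := by
        have h3 : 0 < q1.toNat := by omega
        have a1 : bb * q1.toNat ≤ n := by rw [← hn.2]; exact Nat.div_mul_le_self _ _
        have a2 : n ≤ bb * q1.toNat + q1.toNat := by
          rw [← hn.2]; exact (Nat.lt_div_mul_add h3).le
        have a1' : (bb : ℝ) * q ≤ n := by rw [← hq1r]; exact_mod_cast a1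
        have a2' : (n : ℝ) ≤ (bb : ℝ) * q + q := by rw [← hq1r]; exact_mod_cast a2
        rw [abs_mul, abs_of_nonneg (by linarith)]
        refine (mul_le_mul (show _ ≤ q by linarith) hδ (abs_nonneg _) hqpos.le).trans ?_
        rw [mul_one_div, div_le_one hN0]
        exact hqN
      have e : (k n : ℝ) - (q * c - (bb : ℝ) * q * δ)
          = ((k n : ℝ) + (n : ℝ) * δ - q * c) - ((n : ℝ) - (bb : ℝ) * q) * δ := by ring
      rw [e]
      exact (abs_sub _ _).trans (by linarith)
    have himg : ((s.image b).card : ℝ) ≤ N / q + 1 := by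
      have hc : (s.image b).card ≤ (range (⌊N / q⌋₊ + 1)).card := card_le_card fun bb hbb => by
        obtain ⟨n, hn, rfl⟩ := mem_image.1 hbb
        refine mem_range.2 (Nat.lt_succ_of_le (Nat.le_floor ?_))
        refine Nat.cast_div_le.trans ?_
        rw [hq1r]
        exact div_le_div_of_nonneg_right (hs n hn).2.1 hqpos.le
      rw [card_range] at hc
      have : ((s.image b).card : ℝ) ≤ (⌊N / q⌋₊ : ℝ) + 1 := by exact_mod_cast hc
      linarith [Nat.floor_le (show 0 ≤ N / q by positivity)]
    have hsum : (s.card : ℝ) = ∑ bb ∈ s.image b, ((s.filter fun n => b n = bb).card : ℝ) := by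
      exact_mod_cast card_eq_sum_card_image b s
    rw [hsum]
    refine (sum_le_card_nsmul _ _ _ fun bb _ => hblock bb).trans ?_
    rw [nsmul_eq_mul]
    refine (mul_le_mul_of_nonneg_right himg (by positivity)).trans ?_
    have h1 : N / q ≤ N / M := div_le_div_of_nonneg_left hN0.le (by linarith) hMq.le
    have h2 : N / q * (4 * x * q + 3) = 4 * (N * x) + 3 * (N / q) := by field_simp
    have h3 : 0 ≤ N / M := by positivity
    have h4 : x * q ≤ x * N := by gcongr
    rw [add_mul, one_mul, h2]
    have : 0 ≤ N * x := by positivity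
    linarith
  · by_cases hsmall : |δ| < M ^ 2 * x / N
    · right
      refine ⟨q1.toNat, by omega, ?_, ⟨u1, ?_⟩⟩
      · have : (q1.toNat : ℝ) = q := by rw [hqdef]; exact_mod_cast Int.toNat_of_nonneg hq1.le
        rw [this]; exact hMq
      · have : (q1.toNat : ℝ) = q := by rw [hqdef]; exact_mod_cast Int.toNat_of_nonneg hq1.le
        rw [this]; exact hsmall
    · left
      push Not at hsmall
      have hδ0 : 0 < |δ| := lt_of_lt_of_le (by positivity) hsmall
      have hfib : ∀ z, ((s.filter fun n => k n = z).card : ℝ) ≤ 4 * x / |δ| + 1 := by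
        intro z
        have hp : (0 : ℝ) < q * |δ| := by positivity
        refine (card_le_of_separated _ (fun n : ℕ => (n : ℝ) * δ) (lo := q * c - z - 2 * x * q)
          (σ := 4 * x * q) hp (by positivity) ?_ ?_).trans_eq (by field_simp)
        · intro n hn
          simp only [mem_filter] at hn
          have h1 := abs_lt.1 (hk n hn.1)
          rw [hn.2] at h1
          constructor <;> linarith
        · intro n hn n' hn' hne
          simp only [mem_filter] at hn hn'
          rw [← sub_mul, abs_mul]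
          refine mul_le_mul_of_nonneg_right ?_ (abs_nonneg _)
          have h1 := hmod n n' (hn.2.trans hn'.2.symm)
          have h2 : q1 ≤ |(n : ℤ) - n'| :=
            Int.le_of_dvd (abs_pos.2 (sub_ne_zero.2 (by exact_mod_cast hne))) ((dvd_abs _ _).2 h1)
          rw [hqdef]; exact_mod_cast h2
      have himg : ((s.image k).card : ℝ) ≤ 4 * x * q + 3 := by
        refine (card_int_near (z := q * c) (R := 2 * x * q + 1) (by positivity) ?_).trans_eq (by ring)
        intro z hz
        obtain ⟨n, hn, rfl⟩ := mem_image.1 hz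
        have h1 := hk n hn
        have h2 := hnδ n hn
        rw [show (k n : ℝ) - q * c = ((k n : ℝ) + (n : ℝ) * δ - q * c) - (n : ℝ) * δ by ring]
        exact (abs_sub _ _).trans (by linarith)
      have hsum : (s.card : ℝ) = ∑ z ∈ s.image k, ((s.filter fun n => k n = z).card : ℝ) := by
        exact_mod_cast card_eq_sum_card_image k s
      rw [hsum]
      refine (sum_le_card_nsmul _ _ _ fun z _ => hfib z).trans ?_
      rw [nsmul_eq_mul]
      refine (mul_le_mul_of_nonneg_right himg (by positivity)).trans ?_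
      have h1 : x / |δ| ≤ N / M ^ 2 := by
        rw [div_le_div_iff₀ hδ0 (by positivity)]
        rw [div_le_iff₀ hN0] at hsmall
        linarith
      have h2 : x * q * (N / M ^ 2) ≤ N * x := by
        refine le_trans (le_of_eq (by ring)) (mul_le_of_le_one_right (by positivity)
          (show q / M ^ 2 ≤ 1 by rw [div_le_one (by positivity)]; nlinarith))
      have h3 : N / M ^ 2 ≤ N / M :=
        div_le_div_of_nonneg_left hN0.le (by linarith) (le_self_pow₀ hM (by norm_num))
      have h4 : x * q * (x / |δ|) ≤ x * q * (N / M ^ 2) := mul_le_mul_of_nonneg_left h1 (by positivity)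
      have h5 : x * q ≤ x * N := by gcongr
      have e : (4 * x * q + 3) * (4 * x / |δ| + 1)
          = 16 * (x * q * (x / |δ|)) + 4 * (x * q) + 12 * (x / |δ|) + 3 := by ring
      rw [e]
      have : 0 ≤ N / M := by positivity
      linarith

end Vale.Agent.P028.Lift
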