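import Vale.Agent.P028.Lift.Final
import Vale.Agent.P028.Lift.Par
import Vale.Agent.P028.Lift.RowCount
import Vale.Agent.P028.T2.PTail

/-!
Sums over the variables of a final state: blocks and tails.
-/

noncomputable section

namespace Vale.Agent.P028.Lift

open Finset

/-- `d ≤ (ω d + 1) φ d`. -/
theorem le_card_succ_mul_totient (d : ℕ) :
    d ≤ (d.primeFactors.card + 1) * Nat.totient d := by
  have key : ∀ S : Finset ℕ, (∀ p ∈ S, 2 ≤ p) →
      ∏ p ∈ S, p ≤ (S.card + 1) * ∏ p ∈ S, (p - 1) := by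
    intro S
    induction S using Finset.induction_on_max with
    | empty => simp
    | insert m S hm ih =>
      intro h
      have hnot : m ∉ S := fun hms => lt_irrefl m (hm m hms)
      have h2 : 2 ≤ m := h m (Finset.mem_insert_self m S)
      have hc : S.card + 2 ≤ m := by
        have := Finset.card_le_card (s := S) (t := Finset.Ico 2 m) fun p hp =>
          Finset.mem_Ico.2 ⟨h p (Finset.mem_insert_of_mem hp), hm p hp⟩
        rw [Nat.card_Ico] at this
        omega
      rw [Finset.prod_insert hnot, Finset.prod_insert hnot, Finset.card_insert_of_notMem hnot]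
      refine (Nat.mul_le_mul_left m (ih fun p hp => h p (Finset.mem_insert_of_mem hp))).trans ?_
      obtain ⟨r, rfl⟩ : ∃ r, m = r + 1 := ⟨m - 1, by omega⟩
      rw [Nat.add_sub_cancel, ← mul_assoc, ← mul_assoc]
      exact Nat.mul_le_mul_right _ (by nlinarith)
  have h := key d.primeFactors fun p hp => (Nat.prime_of_mem_primeFactors hp).two_le
  have hpos : 0 < ∏ p ∈ d.primeFactors, (p - 1) := Finset.prod_pos fun p hp =>
    Nat.sub_pos_of_lt (Nat.prime_of_mem_primeFactors hp).one_lt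
  refine Nat.le_of_mul_le_mul_right ?_ hpos
  calc d * ∏ p ∈ d.primeFactors, (p - 1) = Nat.totient d * ∏ p ∈ d.primeFactors, p :=
        (Nat.totient_mul_prod_primeFactors d).symm
    _ ≤ Nat.totient d * ((d.primeFactors.card + 1) * ∏ p ∈ d.primeFactors, (p - 1)) :=
        Nat.mul_le_mul_left _ h
    _ = _ := by ring

/-- The twisted divisor sum costs at most `7` for a prime, for `η ≤ 11 / 20`. -/
theorem tailSum_le_pow {η : ℝ} (hη : η ≤ 11 / 20) :
    ∀ N : ℕ, 0 < N → T2.tailSum η N ≤ (7 : ℝ) ^ N.primeFactors.card := by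
  intro N
  induction N using Nat.recOnPosPrimePosCoprime with
  | zero => intro h; exact absurd h (lt_irrefl 0)
  | one => intro _; simp [T2.tailSum]
  | coprime a b ha hb hab iha ihb =>
    intro _
    rw [T2.tailSum_mul hab, hab.primeFactors_mul,
      Finset.card_union_of_disjoint hab.disjoint_primeFactors, pow_add]
    exact mul_le_mul (iha (by omega)) (ihb (by omega)) (T2.tailSum_nonneg η b) (by positivity)
  | prime_pow p n hp hn =>
    intro _
    rw [Nat.primeFactors_prime_pow hn.ne' hp, Finset.card_singleton, pow_one, T2.tailSum]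
    have hp2 : (2 : ℝ) ≤ p := by exact_mod_cast hp.two_le
    have hp1 : 0 < (p : ℝ) - 1 := by linarith
    have hr : (p : ℝ) ^ (η - 1) ≤ 3 / 4 := by
      refine (Real.rpow_le_rpow_of_exponent_le (by linarith)
        (show η - 1 ≤ -(9 : ℝ) / 20 by linarith)).trans ?_
      refine (Real.rpow_le_rpow_of_nonpos (by norm_num) hp2 (by norm_num)).trans ?_
      have h20 : ((2 : ℝ) ^ (-(9 : ℝ) / 20)) ^ 20 ≤ (3 / 4) ^ 20 := by
        rw [← Real.rpow_natCast, ← Real.rpow_mul (by norm_num)]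
        norm_num [Real.rpow_neg]
      exact le_of_pow_le_pow_left₀ (by norm_num) (by norm_num) h20
    have hφ : (Nat.totient (p ^ n) : ℝ) / (p ^ n : ℕ) ≤ 1 :=
      div_le_one_of_le₀ (by exact_mod_cast Nat.totient_le _) (Nat.cast_nonneg _)
    refine (mul_le_of_le_one_left (by positivity) hφ).trans ?_
    rw [Nat.divisors_prime_pow hp, Finset.sum_map]
    simp only [Function.Embedding.coeFn_mk]
    have hterm : ∀ j : ℕ, ((p ^ (j + 1) : ℕ) : ℝ) ^ η / (Nat.totient (p ^ (j + 1)) : ℝ) ≤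
        2 * ((p : ℝ) ^ (η - 1)) ^ (j + 1) := by
      intro j
      have hp0 : (0 : ℝ) < p := by linarith
      set A : ℝ := ((p : ℝ) ^ η) ^ (j + 1) with hA
      have e1 : ((p ^ (j + 1) : ℕ) : ℝ) ^ η = A := by
        rw [hA, Nat.cast_pow, ← Real.rpow_natCast (p : ℝ) (j + 1), ← Real.rpow_mul hp0.le,
          mul_comm, Real.rpow_mul hp0.le, Real.rpow_natCast]
      have e2 : (Nat.totient (p ^ (j + 1)) : ℝ) = (p : ℝ) ^ j * ((p : ℝ) - 1) := by
        rw [Nat.totient_prime_pow_succ hp, Nat.cast_mul, Nat.cast_pow, Nat.cast_sub hp.one_le,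
          Nat.cast_one]
      have e3 : 2 * ((p : ℝ) ^ (η - 1)) ^ (j + 1) = A / ((p : ℝ) ^ j * ((p : ℝ) / 2)) := by
        rw [hA, Real.rpow_sub hp0, Real.rpow_one, div_pow, pow_succ (p : ℝ) j]
        field_simp
      rw [e1, e2, e3]
      refine div_le_div_of_nonneg_left (by positivity) (by positivity) ?_
      exact mul_le_mul_of_nonneg_left (by linarith) (by positivity)
    rw [Finset.sum_range_succ']
    simp only [pow_zero, Nat.cast_one, Real.one_rpow, Nat.totient_one, div_one]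
    have hgeo : ∑ j ∈ Finset.range n, ((p : ℝ) ^ (η - 1)) ^ (j + 1) ≤ 3 := by
      have h1 := geom_sum_Ico_le_of_lt_one (m := 0) (n := n)
        (show 0 ≤ (p : ℝ) ^ (η - 1) by positivity) (by linarith)
      simp only [Finset.range_eq_Ico, pow_succ] at h1 ⊢
      rw [← Finset.sum_mul]
      refine (mul_le_mul (h1.trans ((div_le_iff₀ (by linarith)).2 (by simp; linarith) :
        _ ≤ (4 : ℝ))) hr (by positivity) (by norm_num)).trans_eq (by norm_num)
    have := Finset.sum_le_sum (s := Finset.range n) fun j _ => hterm j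
    rw [← Finset.mul_sum] at this
    linarith

/-- `∑_{c ≤ a} (a/c) ^ s / a` over a set of density `e` in every block. -/
theorem exists_block_below_le (s : ℝ) (hs0 : 0 < s) (hs1 : s < 1) :
    ∃ C : ℝ, 0 < C ∧ ∀ (a : ℕ) (T : Finset ℕ) (e : ℝ), 0 < a → 0 ≤ e →
      (∀ c ∈ T, 0 < c ∧ c ≤ a) →
      (∀ j : ℕ, ((T.filter (fun c => Nat.log 2 c = j)).card : ℝ) ≤ e * 2 ^ j) →
      ∑ c ∈ T, ((a : ℝ) / c) ^ s / a ≤ C * e := by
  have h1 : (1 : ℝ) < 2 ^ (1 - s) := Real.one_lt_rpow one_lt_two (by linarith)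
  refine ⟨2 ^ (1 - s) / (2 ^ (1 - s) - 1), div_pos (by linarith) (by linarith),
    fun a T e ha he hT hj => ?_⟩
  set r : ℝ := 2 ^ (1 - s) with hr
  have ha' : (0 : ℝ) < a := by exact_mod_cast ha
  rw [← Finset.sum_fiberwise_of_maps_to (g := Nat.log 2) (t := Finset.range (Nat.log 2 a + 1))
    fun c hc => Finset.mem_range.2 (Nat.lt_succ_of_le (Nat.log_mono_right (hT c hc).2))]
  have hblock : ∀ j : ℕ, ∑ c ∈ T.filter (fun c => Nat.log 2 c = j), ((a : ℝ) / c) ^ s / a ≤
      e * (a : ℝ) ^ s / a * r ^ j := by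
    intro j
    refine (Finset.sum_le_card_nsmul _ _ (((a : ℝ) / 2 ^ j) ^ s / a) fun c hc => ?_).trans ?_
    · rw [Finset.mem_filter] at hc
      have hc2 : 2 ^ j ≤ c := hc.2 ▸ Nat.pow_log_le_self 2 (hT c hc.1).1.ne'
      have hc2' : (2 : ℝ) ^ j ≤ c := by exact_mod_cast hc2
      gcongr
    · rw [nsmul_eq_mul]
      refine (mul_le_mul_of_nonneg_right (hj j) (by positivity)).trans_eq ?_
      rw [hr, Real.div_rpow ha'.le (by positivity), ← Real.rpow_natCast (2 ^ (1 - s) : ℝ) j,
        ← Real.rpow_mul (by norm_num), sub_mul, one_mul, Real.rpow_sub two_pos, Real.rpow_natCast,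
        mul_comm s (j : ℝ), Real.rpow_mul (by norm_num), Real.rpow_natCast]
      ring
  refine (Finset.sum_le_sum fun j _ => hblock j).trans ?_
  rw [← Finset.mul_sum]
  have hgeo : ∑ j ∈ Finset.range (Nat.log 2 a + 1), r ^ j ≤
      r / (r - 1) * (a : ℝ) ^ (1 - s) := by
    rw [geom_sum_eq (ne_of_gt h1), pow_succ, div_mul_eq_mul_div]
    refine div_le_div_of_nonneg_right ?_ (by linarith)
    have h2 : r ^ Nat.log 2 a ≤ (a : ℝ) ^ (1 - s) := by
      rw [hr, ← Real.rpow_natCast, ← Real.rpow_mul (by norm_num), mul_comm,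
        Real.rpow_mul (by norm_num), Real.rpow_natCast]
      exact Real.rpow_le_rpow (by positivity)
        (by exact_mod_cast Nat.pow_log_le_self 2 ha.ne') (by linarith)
    have := mul_le_mul_of_nonneg_left h2 (by linarith : (0 : ℝ) ≤ r)
    linarith
  refine (mul_le_mul_of_nonneg_left hgeo (by positivity)).trans_eq ?_
  rw [Real.rpow_sub ha', Real.rpow_one]
  field_simp

/-- `∑_{a ≥ c} (c/a) ^ t / c` over a set of density `e` in every block. -/
theorem exists_block_above_le (t : ℝ) (ht : 1 < t) :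
    ∃ C : ℝ, 0 < C ∧ ∀ (c : ℕ) (T : Finset ℕ) (e : ℝ), 0 < c → 0 ≤ e → (∀ a ∈ T, c ≤ a) →
      (∀ j : ℕ, ((T.filter (fun a => Nat.log 2 a = j)).card : ℝ) ≤ e * 2 ^ j) →
      ∑ a ∈ T, ((c : ℝ) / a) ^ t / c ≤ C * e := by
  have h1 : (2 : ℝ) ^ (1 - t) < 1 :=
    Real.rpow_lt_one_of_one_lt_of_neg one_lt_two (by linarith)
  refine ⟨2 ^ (t - 1) / (1 - 2 ^ (1 - t)), div_pos (by positivity) (by linarith),
    fun c T e hc he hT hj => ?_⟩
  set r : ℝ := 2 ^ (1 - t) with hr
  have hr0 : 0 ≤ r := by positivity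
  have hc' : (0 : ℝ) < c := by exact_mod_cast hc
  set J := Nat.log 2 c with hJ
  set m := (T.image (Nat.log 2)).sup id + 1 with hm
  rw [← Finset.sum_fiberwise_of_maps_to (g := Nat.log 2) (t := Finset.Ico J m) fun a ha =>
    Finset.mem_Ico.2 ⟨Nat.log_mono_right (hT a ha), Nat.lt_succ_of_le
      (Finset.le_sup (f := id) (Finset.mem_image_of_mem _ ha))⟩]
  have hblock : ∀ j : ℕ, ∑ a ∈ T.filter (fun a => Nat.log 2 a = j), ((c : ℝ) / a) ^ t / c ≤
      e * (c : ℝ) ^ t / c * r ^ j := by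
    intro j
    refine (Finset.sum_le_card_nsmul _ _ (((c : ℝ) / 2 ^ j) ^ t / c) fun a ha => ?_).trans ?_
    · rw [Finset.mem_filter] at ha
      have hc2 : 2 ^ j ≤ a := ha.2 ▸ Nat.pow_log_le_self 2 (hc.trans_le (hT a ha.1)).ne'
      have hc2' : (2 : ℝ) ^ j ≤ a := by exact_mod_cast hc2
      gcongr
    · rw [nsmul_eq_mul]
      refine (mul_le_mul_of_nonneg_right (hj j) (by positivity)).trans_eq ?_
      rw [hr, Real.div_rpow hc'.le (by positivity), ← Real.rpow_natCast (2 ^ (1 - t) : ℝ) j,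
        ← Real.rpow_mul (by norm_num), sub_mul, one_mul, Real.rpow_sub two_pos, Real.rpow_natCast,
        mul_comm t (j : ℝ), Real.rpow_mul (by norm_num), Real.rpow_natCast]
      ring
  refine (Finset.sum_le_sum fun j _ => hblock j).trans ?_
  rw [← Finset.mul_sum]
  have hgeo : ∑ j ∈ Finset.Ico J m, r ^ j ≤ r ^ J / (1 - r) := geom_sum_Ico_le_of_lt_one hr0 h1
  have h2 : (c : ℝ) ^ t / c * r ^ J ≤ 2 ^ (t - 1) := by
    have h3 : (c : ℝ) ≤ 2 ^ (J + 1) := by
      exact_mod_cast (Nat.lt_pow_succ_log_self (by norm_num) c).le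
    have e1 : (c : ℝ) ^ t / c * r ^ J = ((c : ℝ) / 2 ^ J) ^ (t - 1) := by
      rw [Real.div_rpow hc'.le (by positivity), Real.rpow_sub hc', Real.rpow_one, hr,
        ← Real.rpow_natCast (2 ^ (1 - t) : ℝ) J, ← Real.rpow_mul (by norm_num), mul_comm (1 - t),
        ← Real.rpow_natCast 2 J, ← Real.rpow_mul (by norm_num : (0 : ℝ) ≤ 2),
        show (J : ℝ) * (1 - t) = -((J : ℝ) * (t - 1)) by ring, Real.rpow_neg (by norm_num)]
      ring
    rw [e1]
    refine Real.rpow_le_rpow (by positivity) ?_ (by linarith)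
    rw [div_le_iff₀ (by positivity)]
    rw [pow_succ] at h3
    linarith
  refine (mul_le_mul_of_nonneg_left hgeo (by positivity)).trans ?_
  have h4 := mul_le_mul_of_nonneg_left (div_le_div_of_nonneg_right h2 (sub_pos.2 h1).le) he
  refine le_trans (le_of_eq ?_) (h4.trans_eq ?_) <;> ring

/-- Downward deviations of bounded logarithm over a set of density `e` in every block. -/
theorem exists_block_down_le :
    ∃ C : ℝ, 0 < C ∧ ∀ (T : Finset ℕ) (e L : ℝ), 0 ≤ e → 1 ≤ L →
      (∀ d ∈ T, 0 < d ∧ Real.log d ≤ L) →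
      (∀ j : ℕ, ((T.filter (fun d => Nat.log 2 d = j)).card : ℝ) ≤ e * 2 ^ j) →
      ∑ d ∈ T, 1 / (Nat.totient d : ℝ) ≤ C * e * L ^ 2 := by
  refine ⟨9, by norm_num, fun T e L he hL hT hj => ?_⟩
  have hl2 : (1 / 2 : ℝ) ≤ Real.log 2 := by linarith [Real.log_two_gt_d9]
  have hlog : ∀ k d : ℕ, 2 ^ k ≤ d → Real.log d ≤ L → (k : ℝ) ≤ 2 * L := by
    intro k d hk hd
    have h1 : (k : ℝ) * Real.log 2 ≤ Real.log d := by
      rw [← Real.log_pow]
      exact Real.log_le_log (by positivity) (by exact_mod_cast hk)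
    have h2 := mul_le_mul_of_nonneg_left hl2 (Nat.cast_nonneg (α := ℝ) k)
    linarith
  rw [← Finset.sum_fiberwise_of_maps_to (g := Nat.log 2) (t := Finset.range (⌊2 * L⌋₊ + 1))
    fun d hd => Finset.mem_range.2 (Nat.lt_succ_of_le (Nat.le_floor
      (hlog _ d (Nat.pow_log_le_self 2 (hT d hd).1.ne') (hT d hd).2)))]
  have hblock : ∀ j : ℕ, ∑ d ∈ T.filter (fun d => Nat.log 2 d = j), 1 / (Nat.totient d : ℝ) ≤
      3 * (e * L) := by
    intro j
    refine (Finset.sum_le_card_nsmul _ _ (3 * L / 2 ^ j) fun d hd => ?_).trans ?_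
    · rw [Finset.mem_filter] at hd
      obtain ⟨hd0, hdL⟩ := hT d hd.1
      have hφ : (0 : ℝ) < Nat.totient d := by exact_mod_cast Nat.totient_pos.2 hd0
      have hd0' : (0 : ℝ) < d := by exact_mod_cast hd0
      have hdj : 2 ^ j ≤ d := hd.2 ▸ Nat.pow_log_le_self 2 hd0.ne'
      have hω : (d.primeFactors.card : ℝ) ≤ 2 * L :=
        hlog _ d ((Finset.pow_card_le_prod _ _ 2 fun p hp =>
          (Nat.prime_of_mem_primeFactors hp).two_le).trans
            (Nat.le_of_dvd hd0 (Nat.prod_primeFactors_dvd d))) hdL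
      have h1 : (d : ℝ) ≤ ((d.primeFactors.card : ℝ) + 1) * Nat.totient d := by
        exact_mod_cast le_card_succ_mul_totient d
      rw [div_le_div_iff₀ hφ (by positivity), one_mul]
      calc (2 : ℝ) ^ j ≤ d := by exact_mod_cast hdj
        _ ≤ _ := h1.trans (mul_le_mul_of_nonneg_right (by linarith) hφ.le)
    · rw [nsmul_eq_mul]
      refine (mul_le_mul_of_nonneg_right (hj j) (by positivity)).trans_eq ?_
      field_simp
  refine (Finset.sum_le_sum fun j _ => hblock j).trans ?_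
  rw [Finset.sum_const, Finset.card_range, nsmul_eq_mul, Nat.cast_succ]
  refine (mul_le_mul_of_nonneg_right (show ((⌊2 * L⌋₊ : ℕ) : ℝ) + 1 ≤ 3 * L by
    linarith [Nat.floor_le (show 0 ≤ 2 * L by linarith)]) (by positivity)).trans_eq ?_
  ring

/-- The tail of a downward deviation. -/
theorem exists_down_tail_le :
    ∃ C : ℝ, 0 < C ∧ ∀ (N Y : ℕ) (T : Finset ℕ) (L : ℝ), 0 < N → (∀ p ∈ N.primeFactors, p ≤ Y) →
      T ⊆ N.divisors → (∀ d ∈ T, L ≤ Real.log d) →
      ∑ d ∈ T, pDown N d ≤ C * Real.exp (-(L / Real.log (2 + (Y : ℝ)) ^ 2)) := by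
  obtain ⟨CM, hCM0, hCM⟩ := exists_prod_one_add_inv_prime_le
  have hs := Real.summable_nat_rpow (p := -(3 : ℝ) / 2) |>.2 (by norm_num)
  set K : ℝ := ∑' n : ℕ, (n : ℝ) ^ (-(3 : ℝ) / 2) with hK
  have hK0 : 0 ≤ K := tsum_nonneg fun n => by positivity
  refine ⟨(7 : ℝ) ^ 6 + Real.exp (4 * CM + 3 * K), by positivity, fun N Y T L hN hY hT hL => ?_⟩
  set l : ℝ := Real.log (2 + (Y : ℝ)) with hl
  have hl0 : 0 < l := Real.log_pos (by linarith [(Y.cast_nonneg : (0 : ℝ) ≤ Y)])
  set η : ℝ := 1 / l ^ 2 with hη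
  have hη0 : 0 ≤ η := by positivity
  have hrank : ∑ d ∈ T, pDown N d ≤ Real.exp (-(L / l ^ 2)) * T2.tailSum η N := by
    rw [T2.tailSum, Finset.mul_sum, Finset.mul_sum]
    refine le_trans (Finset.sum_le_sum fun d hd => ?_)
      (Finset.sum_le_sum_of_subset_of_nonneg hT fun d _ _ => by positivity)
    have hd0 : (0 : ℝ) < d := by exact_mod_cast Nat.pos_of_mem_divisors (hT hd)
    have h1 : 1 ≤ Real.exp (-(L / l ^ 2)) * (d : ℝ) ^ η := by
      rw [Real.rpow_def_of_pos hd0, ← Real.exp_add]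
      refine Real.one_le_exp ?_
      have := mul_le_mul_of_nonneg_right (hL d hd) hη0
      have e : L * η = L / l ^ 2 := by rw [hη]; ring
      linarith
    have h0 : 0 ≤ (Nat.totient N : ℝ) / N / Nat.totient d := by positivity
    rw [pDown]
    refine (le_mul_of_one_le_right h0 h1).trans_eq ?_
    ring
  refine hrank.trans ((mul_comm _ _).trans_le (mul_le_mul_of_nonneg_right ?_ (Real.exp_pos _).le))
  rcases lt_or_ge Y 6 with hY6 | hY6
  · rcases lt_or_ge Y 2 with hY2 | hY2
    · -- no primes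
      have hN1 : N = 1 := by
        by_contra hne
        obtain ⟨p, hp, hpN⟩ := Nat.exists_prime_and_dvd hne
        have h1 := hY p (Nat.mem_primeFactors.2 ⟨hp, hpN, hN.ne'⟩)
        have h2 := hp.two_le
        omega
      subst hN1
      simp only [T2.tailSum, Nat.totient_one, Nat.cast_one, div_one, one_mul, Nat.divisors_one,
        Finset.sum_singleton, Real.one_rpow]
      linarith [Real.exp_pos (4 * CM + 3 * K), one_le_pow₀ (M₀ := ℝ) (a := 7) (by norm_num) (n := 6)]
    · have hl4 : 1386 / 1000 ≤ l := by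
        have h4 : Real.log 4 ≤ l := Real.log_le_log (by norm_num) (by
          have : (2 : ℝ) ≤ Y := by exact_mod_cast hY2
          linarith)
        rw [show (4 : ℝ) = 2 ^ 2 by norm_num, Real.log_pow] at h4
        push_cast at h4
        linarith [Real.log_two_gt_d9]
      have hη1 : η ≤ 11 / 20 := by
        rw [hη, div_le_iff₀ (by positivity)]
        nlinarith
      have hcard : N.primeFactors.card ≤ 6 := by
        refine (Finset.card_le_card (t := Finset.range 6) fun p hp => ?_).trans_eq (Finset.card_range 6)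
        exact Finset.mem_range.2 (lt_of_le_of_lt (hY p hp) hY6)
      refine (tailSum_le_pow hη1 N hN).trans ?_
      exact (pow_le_pow_right₀ (by norm_num) hcard).trans
        (le_add_of_nonneg_right (Real.exp_pos _).le)
  · have hl2 : 2 ≤ l := by
      have h8 : Real.log 8 ≤ l := Real.log_le_log (by norm_num) (by
        have : (6 : ℝ) ≤ Y := by exact_mod_cast hY6
        linarith)
      rw [show (8 : ℝ) = 2 ^ 3 by norm_num, Real.log_pow] at h8
      push_cast at h8
      linarith [Real.log_two_gt_d9]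
    have hη1 : η ≤ 1 / 4 := one_div_le_one_div_of_le (by norm_num) (by nlinarith)
    refine (T2.tailSum_le_prod hη1 N hN).trans (le_add_of_nonneg_of_le (by positivity) ?_)
    have hYl : Real.log Y ≤ l := Real.log_le_log (by exact_mod_cast (by omega : 0 < Y)) (by linarith)
    have hsmall : ∀ p ∈ N.primeFactors, (p : ℝ) ^ η - 1 ≤ 2 / l := by
      intro p hp
      have hp0 : (0 : ℝ) < p := by exact_mod_cast (Nat.prime_of_mem_primeFactors hp).pos
      have hz1 : Real.log p * η ≤ 1 / l := by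
        refine (mul_le_mul_of_nonneg_right ((Real.log_le_log hp0
          (by exact_mod_cast hY p hp)).trans hYl) hη0).trans_eq ?_
        rw [hη]; field_simp
      have hz0 : 0 ≤ Real.log p * η := mul_nonneg (Real.log_natCast_nonneg p) hη0
      have hz2 : 1 / l ≤ 1 := (div_le_one hl0).2 (by linarith)
      rw [Real.rpow_def_of_pos hp0]
      have := Real.abs_exp_sub_one_le (x := Real.log p * η) (by rw [abs_of_nonneg hz0]; linarith)
      rw [abs_of_nonneg hz0] at this
      have h3 : (2 : ℝ) / l = 2 * (1 / l) := by ring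
      linarith [le_abs_self (Real.exp (Real.log p * η) - 1)]
    have hrec : ∑ p ∈ N.primeFactors, (1 : ℝ) / p ≤ CM * (2 * l) := by
      refine (Finset.sum_le_sum_of_subset_of_nonneg (fun p hp => ?_) fun p _ _ => by positivity).trans
        ((hCM Y (by omega)).trans (mul_le_mul_of_nonneg_left ?_ hCM0))
      · exact Finset.mem_filter.2 ⟨Finset.mem_range.2 (Nat.lt_succ_of_le (hY p hp)),
          Nat.prime_of_mem_primeFactors hp⟩
      · have h3 : 0 ≤ Real.log Y := Real.log_natCast_nonneg Y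
        linarith [Real.log_le_self h3]
    calc ∏ p ∈ N.primeFactors, T2.tailFac η p
        ≤ ∏ p ∈ N.primeFactors, Real.exp (2 / l * (1 / p) + 3 * (p : ℝ) ^ (-(3 : ℝ) / 2)) := by
          refine Finset.prod_le_prod
            (fun p hp => T2.tailFac_nonneg (Nat.prime_of_mem_primeFactors hp).two_le) fun p hp => ?_
          refine le_trans ?_ (Real.add_one_le_exp _)
          have := div_le_div_of_nonneg_right (hsmall p hp) (Nat.cast_nonneg p : (0 : ℝ) ≤ p)
          have e : (2 : ℝ) / l / p = 2 / l * (1 / p) := by ring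
          rw [T2.tailFac]
          linarith
      _ = Real.exp (∑ p ∈ N.primeFactors, (2 / l * (1 / p) + 3 * (p : ℝ) ^ (-(3 : ℝ) / 2))) :=
          (Real.exp_sum _ _).symm
      _ ≤ Real.exp (4 * CM + 3 * K) := by
          refine Real.exp_le_exp.2 ?_
          rw [Finset.sum_add_distrib, ← Finset.mul_sum, ← Finset.mul_sum]
          have a1 := mul_le_mul_of_nonneg_left hrec (show (0 : ℝ) ≤ 2 / l by positivity)
          have e : 2 / l * (CM * (2 * l)) = 4 * CM := by field_simp; ring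
          have a2 := hs.sum_le_tsum N.primeFactors fun n _ => by positivity
          linarith

/-- A block which has a number off the major arcs is sparse. -/
theorem exists_minor_block_le :
    ∃ C : ℝ, 0 < C ∧ ∀ (x α c Z : ℝ) (T : Finset ℕ), 0 < x → x ≤ 1 → majW x ≤ Z →
      (∀ z ∈ T, Z ≤ (z : ℝ) ∧ (z : ℝ) ≤ 2 * Z ∧ NearInt ((z : ℝ) * α - c) (2 * x)) →
      (∃ z ∈ T, ∀ h : ℕ, ¬ MajorAt x α h z) →
      (T.card : ℝ) ≤ C * Z * x ^ (sig1 / 4) := by
  obtain ⟨C, hC, h⟩ := exists_rowCount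
  refine ⟨5 * C, by positivity, fun x α c Z T hx hx1 hZ hT ⟨z, hz, hminor⟩ => ?_⟩
  have hσ : 0 < sig1 := by norm_num [sig1]
  set M : ℝ := x ^ (-(sig1 / 4)) with hMd
  have hW1 : 1 ≤ majW x := Real.one_le_rpow_of_pos_of_le_one_of_nonpos hx hx1 (by linarith)
  have hM1 : 1 ≤ M := Real.one_le_rpow_of_pos_of_le_one_of_nonpos hx hx1 (by linarith)
  have hMM : M ^ 2 ≤ majW x := by
    rw [hMd, majW, ← Real.rpow_natCast, ← Real.rpow_mul hx.le]
    exact Real.rpow_le_rpow_of_exponent_ge hx hx1 (by push_cast; linarith)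
  have hMW : M ≤ majW x := (le_self_pow₀ hM1 two_ne_zero).trans hMM
  have hZ0 : 0 < Z := by linarith
  have hzp : ∀ n ∈ T, 0 < n := fun n hn => by
    exact_mod_cast lt_of_lt_of_le hZ0 (hT n hn).1
  rcases h α c x M (2 * Z) T hx hM1 (by linarith) (fun n hn =>
      ⟨hzp n hn, (hT n hn).2.1, (hT n hn).2.2⟩) with h1 | ⟨q, hq, hqM, u, hu⟩
  · refine h1.trans ?_
    set y : ℝ := x ^ (sig1 / 4) with hyd
    have hy0 : 0 < y := by positivity
    have hMy : M = 1 / y := by rw [hMd, hyd, Real.rpow_neg hx.le, one_div]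
    have hxy : x ≤ y := by
      rw [hyd]
      conv_lhs => rw [← Real.rpow_one x]
      exact Real.rpow_le_rpow_of_exponent_ge hx hx1 (by norm_num [sig1])
    have hMZ : M ≤ Z * y := by
      have h2 := mul_le_mul_of_nonneg_right (hMM.trans hZ) hy0.le
      rw [hMy] at h2 ⊢
      refine le_trans (le_of_eq ?_) h2
      field_simp
    have e : 2 * Z / M = 2 * Z * y := by rw [hMy]; field_simp
    rw [e]
    have h5 : 2 * Z * x ≤ 2 * Z * y := by gcongr
    calc C * (2 * Z * x + 2 * Z * y + M) ≤ C * (5 * (Z * y)) := by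
          gcongr; linarith
      _ = 5 * C * Z * y := by ring
  · refine absurd ⟨hq, hqM.trans hMW, u, hu.le.trans ?_⟩ (hminor q)
    exact div_le_div₀ (by positivity) (mul_le_mul_of_nonneg_right hMM hx.le)
      (by exact_mod_cast hzp z hz) (hT z hz).2.1

end Vale.Agent.P028.Lift
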