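import Vale.Agent.P028.Lift.BilGen
import Vale.Agent.P028.Lift.Sums
import Vale.Agent.P028.Lift.Par

/-!
The gain of a final state in which a variable of the second member lies in a sparse set.
-/

noncomputable section

namespace Vale.Agent.P028.Lift

open Finset

open BilinearAux

open Classical in
/-- The second member runs through a set which is sparse in one variable given the other. -/
theorem sparse_side_le {P S U V W : Finset ℕ} {i j k : ℕ → ℕ} (h : FinState P S U V W i j) (Y : ℕ)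
    (W' R : Finset ℕ) (Tc Td : ℕ → Finset ℕ) (φ : ℕ → ℝ) (hφ : ∀ c, 0 ≤ φ c)
    {e L D B Cb Cd Ct : ℝ} (he : 0 ≤ e) (hL : 1 ≤ L) (hCb : 0 ≤ Cb) (hB : 0 ≤ B)
    (hCd : 0 ≤ Cd) (hCt : 0 ≤ Ct) (hsub : W' ⊆ W) (hR : ∀ w ∈ W', upDev U k w ∈ R)
    (hdown : ∀ w ∈ W', ∀ p ∈ (downDev U k w).primeFactors, p ≤ Y)
    (hmem : ∀ w ∈ W', upDev U k w ∈ Tc (downDev U k w) ∨ downDev U k w ∈ Td (upDev U k w))
    (hall : ∑ c ∈ R, φ c ≤ B)
    (hblock : ∀ d, ∑ c ∈ R.filter (fun c => c ∈ Tc d), φ c ≤ Cb * e)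
    (hTd : ∀ c l, (((Td c).filter (fun d => Nat.log 2 d = l)).card : ℝ) ≤ e * 2 ^ l)
    (hD0 : 0 ≤ D) (hD : ∀ N : ℕ, 0 < N →
      (Nat.totient N : ℝ) / N * ∑ d ∈ N.divisors, 1 / (Nat.totient d : ℝ) ≤ D)
    (hdownB : ∀ (T : Finset ℕ) (e L : ℝ), 0 ≤ e → 1 ≤ L →
      (∀ d ∈ T, 0 < d ∧ Real.log d ≤ L) →
      (∀ l : ℕ, ((T.filter (fun d => Nat.log 2 d = l)).card : ℝ) ≤ e * 2 ^ l) →
      ∑ d ∈ T, 1 / (Nat.totient d : ℝ) ≤ Cd * e * L ^ 2)
    (htail : ∀ (N Y : ℕ) (T : Finset ℕ) (L : ℝ), 0 < N → (∀ p ∈ N.primeFactors, p ≤ Y) →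
      T ⊆ N.divisors → (∀ d ∈ T, L ≤ Real.log d) →
      ∑ d ∈ T, pDown N d ≤ Ct * Real.exp (-(L / Real.log (2 + (Y : ℝ)) ^ 2))) :
    ∑ w ∈ W', pDown (centreY U k Y) (downDev U k w) * φ (upDev U k w) ≤
      (D * Cb + B * (Cd + Ct)) * (e * L ^ 2 + Real.exp (-(L / Real.log (2 + (Y : ℝ)) ^ 2))) := by
  have hU := h.prime_U
  have hUY : ∀ p ∈ U.filter (fun p => p ≤ Y), p.Prime := fun p hp => hU p (mem_filter.1 hp).1
  have hcp : 0 < centreY U k Y := prodPow_pos hUY k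
  set N := centreY U k Y with hN
  have hNp : ∀ p ∈ N.primeFactors, p ≤ Y := by
    intro p hp
    rw [← Nat.support_factorization, Finsupp.mem_support_iff, hN, centreY, centre,
      factorization_prodPow hUY] at hp
    exact (mem_filter.1 (ite_ne_right_iff.1 hp).1).2
  have hdd : ∀ w ∈ W', downDev U k w ∈ N.divisors := by
    intro w hw
    refine Nat.mem_divisors.2 ⟨?_, hcp.ne'⟩
    refine (Nat.factorization_le_iff_dvd (downDev_pos hU k w).ne' hcp.ne').1 fun p => ?_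
    rw [hN, centreY, centre, downDev, factorization_prodPow hU, factorization_prodPow hUY]
    by_cases hp : p ∈ U
    · rw [if_pos hp]
      by_cases h0 : k p - w.factorization p = 0
      · rw [h0]; exact Nat.zero_le _
      · have hpd : p ∈ (downDev U k w).primeFactors := by
          rw [← Nat.support_factorization, Finsupp.mem_support_iff, downDev,
            factorization_prodPow hU, if_pos hp]
          exact h0
        rw [if_pos (mem_filter.2 ⟨hp, hdown w hw p hpd⟩)]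
        omega
    · rw [if_neg hp]; exact Nat.zero_le _
  set E1 : ℝ := e * L ^ 2 with hE1
  set E2 : ℝ := Real.exp (-(L / Real.log (2 + (Y : ℝ)) ^ 2)) with hE2
  have hp0 : ∀ d, 0 ≤ pDown N d := fun d => by unfold pDown; positivity
  have hin : ∀ c, ∑ d ∈ N.divisors.filter (fun d => d ∈ Td c), pDown N d ≤ Cd * E1 + Ct * E2 := by
    intro c
    rw [← Finset.sum_filter_add_sum_filter_not (N.divisors.filter (fun d => d ∈ Td c))
      (fun d => Real.log (d : ℝ) ≤ L) (fun d => pDown N d)]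
    refine add_le_add ?_ (htail N Y _ L hcp hNp
      (fun d hd => (mem_filter.1 (mem_filter.1 hd).1).1)
      fun d hd => (not_le.1 (mem_filter.1 hd).2).le)
    refine le_trans (sum_le_sum fun d _ => ?_) ((hdownB _ e L he hL (fun d hd =>
      ⟨Nat.pos_of_mem_divisors (mem_filter.1 (mem_filter.1 hd).1).1, (mem_filter.1 hd).2⟩)
      fun l => le_trans ?_ (hTd c l)).trans_eq (by rw [hE1]; ring))
    · refine div_le_div_of_nonneg_right ?_ (Nat.cast_nonneg _)
      exact div_le_one_of_le₀ (by exact_mod_cast Nat.totient_le _) (Nat.cast_nonneg _)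
    · refine Nat.cast_le.2 (card_le_card fun d hd => ?_)
      obtain ⟨hd1, hd2⟩ := mem_filter.1 hd
      exact mem_filter.2 ⟨(mem_filter.1 (mem_filter.1 hd1).1).2, hd2⟩
  have hfirst : ∑ q ∈ (R ×ˢ N.divisors).filter (fun q => q.1 ∈ Tc q.2), pDown N q.2 * φ q.1 ≤
      D * (Cb * e) := by
    rw [sum_filter, sum_product_right]
    calc _ = ∑ d ∈ N.divisors, pDown N d * ∑ c ∈ R.filter (fun c => c ∈ Tc d), φ c := by
          refine sum_congr rfl fun d _ => ?_
          rw [mul_sum, sum_filter]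
      _ ≤ ∑ d ∈ N.divisors, pDown N d * (Cb * e) :=
          sum_le_sum fun d _ => mul_le_mul_of_nonneg_left (hblock d) (hp0 d)
      _ = ((Nat.totient N : ℝ) / N * ∑ d ∈ N.divisors, 1 / (Nat.totient d : ℝ)) * (Cb * e) := by
          rw [mul_sum, sum_mul]
          exact sum_congr rfl fun d _ => by rw [pDown]; ring
      _ ≤ D * (Cb * e) := mul_le_mul_of_nonneg_right (hD N hcp) (mul_nonneg hCb he)
  have hsecond : ∑ q ∈ (R ×ˢ N.divisors).filter (fun q => q.2 ∈ Td q.1), pDown N q.2 * φ q.1 ≤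
      B * (Cd * E1 + Ct * E2) := by
    rw [sum_filter, sum_product]
    calc _ = ∑ c ∈ R, φ c * ∑ d ∈ N.divisors.filter (fun d => d ∈ Td c), pDown N d := by
          refine sum_congr rfl fun c _ => ?_
          rw [mul_sum, sum_filter]
          exact sum_congr rfl fun d _ => by simp only [mul_comm (φ c)]
      _ ≤ ∑ c ∈ R, φ c * (Cd * E1 + Ct * E2) :=
          sum_le_sum fun c _ => mul_le_mul_of_nonneg_left (hin c) (hφ c)
      _ = (∑ c ∈ R, φ c) * (Cd * E1 + Ct * E2) := (sum_mul ..).symm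
      _ ≤ _ := mul_le_mul_of_nonneg_right hall (by positivity)
  have he1 : e ≤ E1 := le_mul_of_one_le_right he (one_le_pow₀ hL)
  calc ∑ w ∈ W', pDown N (downDev U k w) * φ (upDev U k w)
      = ∑ q ∈ W'.image (fun w => (upDev U k w, downDev U k w)), pDown N q.2 * φ q.1 := by
        rw [sum_image ((dev_injOn h).2.mono (by exact_mod_cast hsub))]
    _ ≤ ∑ q ∈ (R ×ˢ N.divisors).filter (fun q => q.1 ∈ Tc q.2) ∪
          (R ×ˢ N.divisors).filter (fun q => q.2 ∈ Td q.1), pDown N q.2 * φ q.1 := by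
        refine sum_le_sum_of_subset_of_nonneg ?_ fun q _ _ => mul_nonneg (hp0 _) (hφ _)
        intro q hq
        obtain ⟨w, hw, rfl⟩ := mem_image.1 hq
        have hq' : (upDev U k w, downDev U k w) ∈ R ×ˢ N.divisors :=
          mem_product.2 ⟨hR w hw, hdd w hw⟩
        rcases hmem w hw with h1 | h1
        · exact mem_union_left _ (mem_filter.2 ⟨hq', h1⟩)
        · exact mem_union_right _ (mem_filter.2 ⟨hq', h1⟩)
    _ ≤ D * (Cb * e) + B * (Cd * E1 + Ct * E2) := by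
        refine le_trans ?_ (add_le_add hfirst hsecond)
        rw [← sum_union_inter]
        exact le_add_of_nonneg_right (sum_nonneg fun q _ => mul_nonneg (hp0 _) (hφ _))
    _ ≤ _ := by
        have h1 : 0 ≤ E1 := by positivity
        have h2 : 0 ≤ E2 := by positivity
        nlinarith [mul_le_mul_of_nonneg_left he1 (mul_nonneg hD0 hCb),
          mul_nonneg (mul_nonneg hD0 hCb) h2, mul_nonneg (mul_nonneg hB hCd) h2,
          mul_nonneg (mul_nonneg hB hCt) h1]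

open Classical in
/-- The bound of a final state from its two sums, one of which gains `E`. -/
theorem state_shape_le {P S U V W : Finset ℕ} {i j k : ℕ → ℕ} (h : FinState P S U V W i j)
    (F F' f f' : ℕ → ℝ) (Y : ℕ) (α1 α2 s t x x' : ℝ) (hF : ∀ v, 0 ≤ F v) (hF' : ∀ w, 0 ≤ F' w)
    (hFf : ∀ v ∈ V, F v ≤ f v * phiY Y v) (hFf' : ∀ w ∈ W, F' w ≤ f' w * phiY Y w)
    (hf : ∀ v, 0 ≤ f v) (hf' : ∀ w, 0 ≤ f' w)
    (hα1 : alL2 ≤ α1) (hα2 : alL2 ≤ α2) (hsum : α1 + α2 < 1) (hst : s * α1 = t * α2)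
    (hx : 0 < x) (hx' : 0 < x')
    (K : ℕ → ℕ → ℝ) (hK : ∀ v w, 0 ≤ K v w) (hK1 : ∀ v w, K v w ≤ 1)
    (hsupp : ∀ v w, K v w ≠ 0 →
      NoCoDev U k v w ∧ f v * (qd w v : ℝ) ≤ x ∧ f' w * (qd v w : ℝ) ≤ x' ∧
        (∀ p ∈ (downDev U k w).primeFactors, p ≤ Y) ∧ ∀ p ∈ (downDev U k v).primeFactors, p ≤ Y)
    (C1 C2 E : ℝ) (hC1 : 0 ≤ C1) (hC2 : 0 ≤ C2) (hE : 0 < E) (hE1 : E ≤ 1)
    (hG1 : ∀ v ∈ V, ∑ w ∈ W.filter (fun w => K v w ≠ 0),
      pDown (centreY U k Y) (downDev U k w) *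
        (((upDev U k v : ℝ) / upDev U k w) ^ s / upDev U k v) ≤ C1 * E)
    (hG2 : ∀ w ∈ W, ∑ v ∈ V.filter (fun v => K v w ≠ 0),
      pDown (centreY U k Y) (downDev U k v) *
        (((upDev U k w : ℝ) / upDev U k v) ^ t / upDev U k w) ≤ C2) :
    ∑ v ∈ V, ∑ w ∈ W, K v w * (F v * F' w) ≤
      C1 ^ α1 * C2 ^ α2 * E ^ alL2 * (x' ^ α1 * x ^ α2) *
        ((∑ v ∈ V, F v) ^ (1 - α2) * (∑ w ∈ W, F' w) ^ (1 - α1)) /
          ((fixedPart (P \ U) i j * fixedPart (P \ U) j i : ℕ) : ℝ) ^ alL2 := by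
  have hal : (0 : ℝ) < alL2 := by norm_num [alL2, delL, omL]
  have h' : FinState P (V ∪ W) U V W i j :=
    ⟨h.prime_mem, fun q hq => h.pos_of_mem q (Finset.union_subset h.V_sub h.W_sub hq),
      fun q hq => h.factors_le q (Finset.union_subset h.V_sub h.W_sub hq), h.U_sub,
      Finset.subset_union_left, Finset.subset_union_right, h.V_fix, h.W_fix⟩
  refine (final2_le h' F F' f f' Y α1 α2 s t x x' hF hF' hFf hFf' hf hf' (by linarith) (by linarith)
    hsum hst hx hx' K hK hK1 (fun v _ w _ hne => hsupp v w hne) (C1 * E) C2 (by positivity) hC2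
    hG1 hG2).trans ?_
  set A := ∑ v ∈ V, F v with hAd
  set B := ∑ w ∈ W, F' w with hBd
  have hA : 0 ≤ A := Finset.sum_nonneg fun v _ => hF v
  have hB : 0 ≤ B := Finset.sum_nonneg fun w _ => hF' w
  set Q1 : ℝ := ((fixedPart (P \ U) i j : ℕ) : ℝ) with hQ1d
  set Q2 : ℝ := ((fixedPart (P \ U) j i : ℕ) : ℝ) with hQ2d
  have q1 : 1 ≤ Q1 := by rw [hQ1d]; exact_mod_cast fixedPart_pos h.prime_sdiff i j
  have q2 : 1 ≤ Q2 := by rw [hQ2d]; exact_mod_cast fixedPart_pos h.prime_sdiff j i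
  rw [Nat.cast_mul, ← hQ1d, ← hQ2d, Real.mul_rpow (x := Q1) (y := Q2) (by linarith) (by linarith),
    Real.mul_rpow hA hB, Real.mul_rpow hA (by positivity), Real.mul_rpow hB (by positivity),
    Real.mul_rpow (div_nonneg hx'.le (by linarith)) (by positivity),
    Real.mul_rpow (div_nonneg hx.le (by linarith)) hC2, Real.mul_rpow hC1 hE.le,
    Real.div_rpow hx'.le (by linarith), Real.div_rpow hx.le (by linarith)]
  have eV : A ^ (1 - α2) = A ^ (1 - α1 - α2) * A ^ α1 := by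
    rw [← Real.rpow_add' hA (by linarith)]; ring_nf
  have eW : B ^ (1 - α1) = B ^ (1 - α1 - α2) * B ^ α2 := by
    rw [← Real.rpow_add' hB (by linarith)]; ring_nf
  have e1 : E ^ α1 ≤ E ^ alL2 := Real.rpow_le_rpow_of_exponent_ge hE hE1 hα1
  have d1 : Q1 ^ alL2 ≤ Q1 ^ α1 := Real.rpow_le_rpow_of_exponent_le q1 hα1
  have d2 : Q2 ^ alL2 ≤ Q2 ^ α2 := Real.rpow_le_rpow_of_exponent_le q2 hα2
  have p1 : 0 < Q1 := by linarith
  have p2 : 0 < Q2 := by linarith
  calc _ = C1 ^ α1 * C2 ^ α2 * E ^ α1 * (x' ^ α1 * x ^ α2) * (A ^ (1 - α2) * B ^ (1 - α1)) /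
        (Q1 ^ α1 * Q2 ^ α2) := by rw [eV, eW]; ring
    _ ≤ _ := by gcongr

open Classical in
/-- `upDev w` or `downDev w` lies in a set of density `e` in every block, given the other
variables; `L` bounds the logarithm of the downward deviations which are not in the tail. -/
theorem exists_state_sparse_le :
    ∃ C : ℝ, 0 < C ∧ ∀ (F F' f f' : ℕ → ℝ) (P S U V W : Finset ℕ) (i j k : ℕ → ℕ) (Y : ℕ)
      (x x' e L : ℝ) (K : ℕ → ℕ → ℝ) (Tc Td : ℕ → ℕ → Finset ℕ),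
      FinState P S U V W i j → (∀ v, 0 ≤ F v) → (∀ w, 0 ≤ F' w) →
      (∀ v ∈ V, F v ≤ f v * phiY Y v) → (∀ w ∈ W, F' w ≤ f' w * phiY Y w) →
      (∀ v, 0 ≤ f v) → (∀ w, 0 ≤ f' w) → 0 < x → 0 < x' → 0 ≤ e → 1 ≤ L →
      e * L ^ 2 + Real.exp (-(L / Real.log (2 + (Y : ℝ)) ^ 2)) ≤ 1 →
      (∀ v w, 0 ≤ K v w) → (∀ v w, K v w ≤ 1) →
      (∀ v d l, (((Tc v d).filter (fun c => Nat.log 2 c = l)).card : ℝ) ≤ e * 2 ^ l) →
      (∀ v c l, (((Td v c).filter (fun d => Nat.log 2 d = l)).card : ℝ) ≤ e * 2 ^ l) →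
      (∀ v w, K v w ≠ 0 → NoCoDev U k v w ∧ f v * (qd w v : ℝ) ≤ x ∧ f' w * (qd v w : ℝ) ≤ x' ∧
        (∀ p ∈ (downDev U k w).primeFactors, p ≤ Y) ∧ (∀ p ∈ (downDev U k v).primeFactors, p ≤ Y) ∧
        (upDev U k w ∈ Tc v (downDev U k w) ∨ downDev U k w ∈ Td v (upDev U k w))) →
      ∑ v ∈ V, ∑ w ∈ W, K v w * (F v * F' w) ≤
        C * (e * L ^ 2 + Real.exp (-(L / Real.log (2 + (Y : ℝ)) ^ 2))) ^ alL2 *
          ((x' ^ alL1 * x ^ alL2) + (x ^ alL1 * x' ^ alL2)) *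
          bilShape (∑ v ∈ V, F v) (∑ w ∈ W, F' w) /
            ((fixedPart (P \ U) i j * fixedPart (P \ U) j i : ℕ) : ℝ) ^ alL2 := by
  have hal : (0 : ℝ) < alL2 := by norm_num [alL2, delL, omL]
  have hal' : alL2 ≤ alL1 := by
    unfold alL1 alL2; linarith [show (0 : ℝ) ≤ omL by norm_num [omL]]
  have hsum : alL1 + alL2 < 1 := by norm_num [alL1, alL2, delL, omL]
  have hs0 : (0 : ℝ) < sL := by norm_num [sL, omL]
  have hs1 : sL < 1 := by norm_num [sL, omL]
  have ht1 : 1 < tL := by norm_num [tL, sL, alL1, alL2, delL, omL]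
  have hst : sL * alL1 = tL * alL2 := by rw [tL, div_mul_cancel₀ _ hal.ne']
  obtain ⟨D₀, hD₀⟩ := exists_centre_sum_le
  set D := max D₀ 0 with hDd
  have hD0 : 0 ≤ D := le_max_right _ _
  have hD : ∀ N : ℕ, 0 < N →
      (Nat.totient N : ℝ) / N * ∑ d ∈ N.divisors, 1 / (Nat.totient d : ℝ) ≤ D :=
    fun N hN => (hD₀ N hN).trans (le_max_left _ _)
  obtain ⟨Cb, hCb, hbelow⟩ := exists_block_below_le sL hs0 hs1
  obtain ⟨Ca, hCa, habove⟩ := exists_block_above_le tL ht1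
  obtain ⟨Cd, hCd, hdownB⟩ := exists_block_down_le
  obtain ⟨Ct, hCt, htail⟩ := exists_down_tail_le
  set Bs : ℝ := 1 / (1 - sL) with hBs
  set Bt : ℝ := 1 + 1 / (tL - 1) with hBt
  have hBs0 : 0 ≤ Bs := div_nonneg zero_le_one (by linarith)
  have hBt0 : 0 ≤ Bt := add_nonneg zero_le_one (div_nonneg zero_le_one (by linarith))
  set C1 : ℝ := D * Cb + Bs * (Cd + Ct) with hC1
  set C2 : ℝ := D * Ca + Bt * (Cd + Ct) with hC2
  have hC10 : 0 ≤ C1 := by positivity
  have hC20 : 0 ≤ C2 := by positivity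
  set K1 : ℝ := C1 ^ alL1 * (D * Bt) ^ alL2 with hK1d
  set K2 : ℝ := C2 ^ alL2 * (D * Bs) ^ alL1 with hK2d
  have hK10 : 0 ≤ K1 := by positivity
  have hK20 : 0 ≤ K2 := by positivity
  refine ⟨K1 + K2 + 1, by positivity, ?_⟩
  intro F F' f f' P S U V W i j k Y x x' e L K Tc Td h hF hF' hFf hFf' hf hf' hx hx' he hL hEle
    hK0 hK1 hTc hTd hsupp
  have hU := h.prime_U
  set E : ℝ := e * L ^ 2 + Real.exp (-(L / Real.log (2 + (Y : ℝ)) ^ 2)) with hEd
  have hE : 0 < E := add_pos_of_nonneg_of_pos (by positivity) (Real.exp_pos _)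
  set Kle : ℕ → ℕ → ℝ := fun v w => if upDev U k w ≤ upDev U k v then K v w else 0 with hKle
  set Kgt : ℕ → ℕ → ℝ := fun v w => if upDev U k w ≤ upDev U k v then 0 else K v w with hKgt
  have hsle : ∀ v w, Kle v w ≠ 0 → upDev U k w ≤ upDev U k v ∧ K v w ≠ 0 := fun v w hne =>
    ite_ne_right_iff.1 hne
  have hsgt : ∀ v w, Kgt v w ≠ 0 → upDev U k v < upDev U k w ∧ K v w ≠ 0 := fun v w hne => by
    simp only [hKgt] at hne
    split_ifs at hne with hle
    · exact absurd rfl hne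
    · exact ⟨not_le.1 hle, hne⟩
  have hbs : ∀ (a : ℕ), 0 < a → ∑ c ∈ Finset.Icc 1 a, ((a : ℝ) / c) ^ sL / a ≤ Bs := by
    intro a ha
    have ha' : (0 : ℝ) < a := by exact_mod_cast ha
    rw [← Finset.sum_div, div_le_iff₀ ha']
    refine (sum_small_le hs0 hs1 ha' _ fun c hc => ⟨(Finset.mem_Icc.1 hc).1,
      by exact_mod_cast (Finset.mem_Icc.1 hc).2⟩).trans ?_
    rw [← one_div_mul_eq_div]
  have hbt : ∀ (a N : ℕ), 0 < a → ∑ c ∈ Finset.Icc a N, ((a : ℝ) / c) ^ tL / a ≤ Bt := by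
    intro a N ha
    have ha' : (0 : ℝ) < a := by exact_mod_cast ha
    rw [← Finset.sum_div, div_le_iff₀ ha']
    exact sum_tail_le ht1 ha' _ fun c hc => ⟨le_trans ha (Finset.mem_Icc.1 hc).1,
      by exact_mod_cast (Finset.mem_Icc.1 hc).1⟩
  have hφ : ∀ (a : ℕ) (r : ℝ) (c : ℕ), 0 ≤ ((a : ℝ) / c) ^ r / a := fun a r c =>
    div_nonneg (Real.rpow_nonneg (by positivity) _) (Nat.cast_nonneg _)
  have hfilt : ∀ (R T : Finset ℕ) (l : ℕ),
      (((R.filter (fun c => c ∈ T)).filter (fun c => Nat.log 2 c = l)).card : ℝ) ≤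
        ((T.filter (fun c => Nat.log 2 c = l)).card : ℝ) := fun R T l => by
    refine Nat.cast_le.2 (card_le_card fun c hc => ?_)
    obtain ⟨h1, h2⟩ := mem_filter.1 hc
    exact mem_filter.2 ⟨(mem_filter.1 h1).2, h2⟩
  -- the pairs with `c ≤ a`
  have hLE := state_shape_le h F F' f f' Y alL1 alL2 sL tL x x' hF hF' hFf hFf' hf hf' hal' le_rfl
    hsum hst hx hx' Kle (fun v w => by simp only [hKle]; split_ifs; exacts [hK0 v w, le_rfl])
    (fun v w => by simp only [hKle]; split_ifs; exacts [hK1 v w, zero_le_one])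
    (fun v w hne => by
      obtain ⟨a1, a2, a3, a4, a5, -⟩ := hsupp v w (hsle v w hne).2
      exact ⟨a1, a2, a3, a4, a5⟩)
    C1 (D * Bt) E hC10 (by positivity) hE hEle
    (fun v _ => sparse_side_le h Y _ (Finset.Icc 1 (upDev U k v)) (Tc v) (Td v)
      (fun c => ((upDev U k v : ℝ) / c) ^ sL / upDev U k v) (hφ _ _) he hL hCb.le hBs0 hCd.le
      hCt.le (filter_subset _ _)
      (fun w hw => Finset.mem_Icc.2 ⟨upDev_pos hU k w, (hsle v w (mem_filter.1 hw).2).1⟩)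
      (fun w hw => (hsupp v w (hsle v w (mem_filter.1 hw).2).2).2.2.2.1)
      (fun w hw => (hsupp v w (hsle v w (mem_filter.1 hw).2).2).2.2.2.2.2)
      (hbs _ (upDev_pos hU k v))
      (fun d => hbelow _ _ e (upDev_pos hU k v) he
        (fun c hc => Finset.mem_Icc.1 (mem_filter.1 hc).1)
        fun l => (hfilt _ _ l).trans (hTc v d l))
      (hTd v) hD0 hD hdownB htail)
    (fun w _ => sum_sideY_le h.symm Y _ (Finset.Icc (upDev U k w) (V.sup (upDev U k)))
      (Finset.filter_subset _ _)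
      (fun v hv => Finset.mem_Icc.2 ⟨(hsle v w (mem_filter.1 hv).2).1,
        Finset.le_sup (Finset.mem_filter.1 hv).1⟩)
      (fun v hv => (hsupp v w (hsle v w (mem_filter.1 hv).2).2).2.2.2.2.1)
      (fun c => ((upDev U k w : ℝ) / c) ^ tL / upDev U k w) (hφ _ _)
      (hbt _ _ (upDev_pos hU k w)) hD0 hD)
  -- the pairs with `a < c`
  have hGT := state_shape_le h F F' f f' Y alL2 alL1 tL sL x x' hF hF' hFf hFf' hf hf' le_rfl hal'
    (by linarith) hst.symm hx hx' Kgt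
    (fun v w => by simp only [hKgt]; split_ifs; exacts [le_rfl, hK0 v w])
    (fun v w => by simp only [hKgt]; split_ifs; exacts [zero_le_one, hK1 v w])
    (fun v w hne => by
      obtain ⟨a1, a2, a3, a4, a5, -⟩ := hsupp v w (hsgt v w hne).2
      exact ⟨a1, a2, a3, a4, a5⟩)
    C2 (D * Bs) E hC20 (by positivity) hE hEle
    (fun v _ => sparse_side_le h Y _ (Finset.Icc (upDev U k v) (W.sup (upDev U k))) (Tc v) (Td v)
      (fun c => ((upDev U k v : ℝ) / c) ^ tL / upDev U k v) (hφ _ _) he hL hCa.le hBt0 hCd.le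
      hCt.le (filter_subset _ _)
      (fun w hw => Finset.mem_Icc.2 ⟨(hsgt v w (mem_filter.1 hw).2).1.le,
        Finset.le_sup (Finset.mem_filter.1 hw).1⟩)
      (fun w hw => (hsupp v w (hsgt v w (mem_filter.1 hw).2).2).2.2.2.1)
      (fun w hw => (hsupp v w (hsgt v w (mem_filter.1 hw).2).2).2.2.2.2.2)
      (hbt _ _ (upDev_pos hU k v))
      (fun d => habove _ _ e (upDev_pos hU k v) he
        (fun c hc => (Finset.mem_Icc.1 (mem_filter.1 hc).1).1)
        fun l => (hfilt _ _ l).trans (hTc v d l))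
      (hTd v) hD0 hD hdownB htail)
    (fun w _ => sum_sideY_le h.symm Y _ (Finset.Icc 1 (upDev U k w)) (Finset.filter_subset _ _)
      (fun v hv => Finset.mem_Icc.2 ⟨upDev_pos hU k v, (hsgt v w (mem_filter.1 hv).2).1.le⟩)
      (fun v hv => (hsupp v w (hsgt v w (mem_filter.1 hv).2).2).2.2.2.2.1)
      (fun c => ((upDev U k w : ℝ) / c) ^ sL / upDev U k w) (hφ _ _)
      (hbs _ (upDev_pos hU k w)) hD0 hD)
  set A := ∑ v ∈ V, F v with hAd
  set B := ∑ w ∈ W, F' w with hBd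
  have hA : 0 ≤ A := Finset.sum_nonneg fun v _ => hF v
  have hB : 0 ≤ B := Finset.sum_nonneg fun w _ => hF' w
  have hsplit : ∑ v ∈ V, ∑ w ∈ W, K v w * (F v * F' w) =
      ∑ v ∈ V, ∑ w ∈ W, Kle v w * (F v * F' w) + ∑ v ∈ V, ∑ w ∈ W, Kgt v w * (F v * F' w) := by
    rw [← sum_add_distrib]
    refine sum_congr rfl fun v _ => ?_
    rw [← sum_add_distrib]
    refine sum_congr rfl fun w _ => ?_
    simp only [hKle, hKgt]
    split_ifs <;> ring
  rw [hsplit]
  refine (add_le_add hLE hGT).trans ?_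
  have hth : 0 < thL := by norm_num [thL, alL1, delL, omL]
  have e1 : A ^ (1 - alL2) * B ^ (1 - alL1) ≤ bilShape A B := by
    rw [bilShape, show 1 - alL2 = omL + thL by norm_num [thL, alL1, alL2, delL, omL],
      ← thL, Real.rpow_add' hA (by norm_num [thL, alL1, delL, omL]), mul_assoc,
      ← Real.mul_rpow hA hB, add_mul]
    exact le_add_of_nonneg_right (by positivity)
  have e2 : A ^ (1 - alL1) * B ^ (1 - alL2) ≤ bilShape A B := by
    rw [bilShape, show 1 - alL2 = omL + thL by norm_num [thL, alL1, alL2, delL, omL],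
      ← thL, Real.rpow_add' hB (by norm_num [thL, alL1, delL, omL]), mul_left_comm,
      ← Real.mul_rpow hA hB, add_mul]
    exact le_add_of_nonneg_left (by positivity)
  have hM : 0 ≤ bilShape A B := le_trans (by positivity) e1
  rw [← add_div]
  refine div_le_div_of_nonneg_right ?_ (by positivity)
  rw [← hK1d]
  calc K1 * E ^ alL2 * (x' ^ alL1 * x ^ alL2) * (A ^ (1 - alL2) * B ^ (1 - alL1)) +
        C2 ^ alL2 * (D * Bs) ^ alL1 * E ^ alL2 * (x' ^ alL2 * x ^ alL1) *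
          (A ^ (1 - alL1) * B ^ (1 - alL2))
      ≤ (K1 + K2 + 1) * E ^ alL2 * (x' ^ alL1 * x ^ alL2) * bilShape A B +
        (K1 + K2 + 1) * E ^ alL2 * (x ^ alL1 * x' ^ alL2) * bilShape A B := by
        rw [← hK2d, mul_comm (x' ^ alL2)]
        gcongr
        · linarith
        · linarith
    _ = _ := by ring

end Vale.Agent.P028.Lift
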