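import Vale.Agent.P028.Lift.BigCases
import Vale.Agent.P028.Lift.BilPool
import Vale.Agent.P028.Lift.Sums
import Vale.Agent.P028.Lift.BilGen
import Vale.Agent.P028.Lift.Shape
import Vale.Agent.P028.Lift.StateGain

/-!
The pairs outside the boxes whose quotients are not exceptional.
-/

noncomputable section

namespace Vale.Agent.P028.Lift

open Finset BilinearAux

/-- A large variable off the major arcs. -/
def MinorVar (x α : ℝ) (z : ℕ) : Prop := x ^ (-sigB) ≤ (z : ℝ) ∧ ∀ h : ℕ, ¬ MajorAt x α h z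

theorem witness_of_not_minorVar {x α : ℝ} {z : ℕ} (hx : 0 < x) (hx1 : x ≤ 1)
    (hz : ¬ MinorVar x α z) : ∃ h, Witness x α h z := by
  rcases le_or_gt (x ^ (-sigB)) (z : ℝ) with h | h
  · unfold MinorVar at hz
    push Not at hz
    obtain ⟨g, hg⟩ := hz h
    exact ⟨g, hg.1, hg.2.1, fun _ => hg⟩
  · refine ⟨1, one_pos, ?_, fun h' => absurd h' (not_le.2 h)⟩
    rw [Nat.cast_one]
    exact Real.one_le_rpow_of_pos_of_le_one_of_nonpos hx hx1 (by norm_num [sig1])

open Classical in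
/-- The blocks of near values in which some value is minor. -/
def minorSet (x α c0 : ℝ) (N : ℕ) : Finset ℕ :=
  (Finset.range N).filter (fun z => NearInt ((z : ℝ) * α - c0) (2 * x) ∧
    ∃ z' < N, Nat.log 2 z' = Nat.log 2 z ∧ NearInt ((z' : ℝ) * α - c0) (2 * x) ∧ MinorVar x α z')

theorem mem_minorSet {x α c0 : ℝ} {N z : ℕ} (hN : z < N)
    (h1 : NearInt ((z : ℝ) * α - c0) (2 * x)) (h2 : MinorVar x α z) :
    z ∈ minorSet x α c0 N := by
  classical
  exact Finset.mem_filter.2 ⟨Finset.mem_range.2 hN, h1, z, hN, rfl, h1, h2⟩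

theorem exists_minorSet_card_le :
    ∃ C x0 : ℝ, 0 < C ∧ 0 < x0 ∧ ∀ (x α c0 : ℝ) (N l : ℕ), 0 < x → x ≤ x0 →
      (((minorSet x α c0 N).filter (fun z => Nat.log 2 z = l)).card : ℝ) ≤
        C * x ^ (sig1 / 4) * 2 ^ l := by
  classical
  obtain ⟨C, hC, h⟩ := exists_minor_block_le
  have hd : 0 < sigB - sig1 := by norm_num [sigB, sig1]
  refine ⟨C, min 1 ((4 : ℝ) ^ (-(1 / (sigB - sig1)))), hC, lt_min one_pos (by positivity), ?_⟩
  intro x α c0 N l hx hx0
  set T := (minorSet x α c0 N).filter (fun z => Nat.log 2 z = l) with hT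
  rcases T.eq_empty_or_nonempty with he | ⟨z₀, hz₀⟩
  · rw [he, Finset.card_empty, Nat.cast_zero]; positivity
  obtain ⟨hz₀, hl₀⟩ := Finset.mem_filter.1 hz₀
  simp only [minorSet, Finset.mem_filter, Finset.mem_range] at hz₀
  obtain ⟨-, -, z', hz'N, hl', hnear', hmin⟩ := hz₀
  rw [hl₀] at hl'
  have hx1 : x ≤ 1 := hx0.trans (min_le_left _ _)
  have h4 : (4 : ℝ) * majW x ≤ x ^ (-sigB) := by
    have e : x ^ (-sigB) = x ^ (-(sigB - sig1)) * x ^ (-sig1) := by
      rw [← Real.rpow_add hx]; ring_nf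
    rw [e, majW]
    refine mul_le_mul_of_nonneg_right ?_ (by positivity)
    calc (4 : ℝ) = ((4 : ℝ) ^ (-(1 / (sigB - sig1)))) ^ (-(sigB - sig1)) := by
          rw [← Real.rpow_mul (by norm_num),
            show -(1 / (sigB - sig1)) * -(sigB - sig1) = 1 by field_simp, Real.rpow_one]
      _ ≤ _ := Real.rpow_le_rpow_of_nonpos hx (hx0.trans (min_le_right _ _)) (by linarith)
  have hW1 : 1 ≤ majW x := Real.one_le_rpow_of_pos_of_le_one_of_nonpos hx hx1 (by norm_num [sig1])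
  have hz'4 : (4 : ℝ) ≤ z' := by linarith [hmin.1]
  have hz'0 : 4 ≤ z' := by exact_mod_cast hz'4
  have hup : (z' : ℝ) < 2 * 2 ^ l := by
    have := Nat.lt_pow_succ_log_self one_lt_two z'
    rw [hl', pow_succ] at this
    have h' : ((z' : ℕ) : ℝ) < ((2 ^ l * 2 : ℕ) : ℝ) := by exact_mod_cast this
    push_cast at h'
    linarith
  have hl1 : 1 ≤ l := by
    rw [← hl']
    exact Nat.log_pos one_lt_two (by omega)
  have hmem : ∀ z ∈ T, (2 : ℝ) ^ l ≤ (z : ℝ) ∧ (z : ℝ) ≤ 2 * 2 ^ l ∧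
      NearInt ((z : ℝ) * α - c0) (2 * x) := by
    intro z hz
    obtain ⟨hzS, hzl⟩ := Finset.mem_filter.1 hz
    simp only [minorSet, Finset.mem_filter, Finset.mem_range] at hzS
    have hz0 : z ≠ 0 := by rintro rfl; simp at hzl; omega
    have a1 := Nat.pow_log_le_self 2 hz0
    have a2 := (Nat.lt_pow_succ_log_self one_lt_two z).le
    rw [hzl] at a1 a2
    rw [pow_succ] at a2
    refine ⟨by exact_mod_cast a1, ?_, hzS.2.1⟩
    rw [mul_comm]
    exact_mod_cast a2
  have hz'T : z' ∈ T := Finset.mem_filter.2 ⟨mem_minorSet hz'N hnear' hmin, hl'⟩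
  refine (h x α c0 (2 ^ l) T hx hx1 (by linarith [hmin.1]) hmem ⟨z', hz'T, hmin.2⟩).trans
    (le_of_eq ?_)
  ring

/-- An upward and a downward deviation without a common prime are coprime. -/
theorem coprime_up_down {U : Finset ℕ} {k : ℕ → ℕ} (hU : ∀ p ∈ U, p.Prime) {v w : ℕ}
    (h : NoCoDev U k v w) : Nat.Coprime (upDev U k v) (downDev U k w) := by
  refine Nat.coprime_of_dvd fun p hp h1 h2 => ?_
  have e1 := hp.factorization_pos_of_dvd (upDev_pos hU k v).ne' h1
  have e2 := hp.factorization_pos_of_dvd (downDev_pos hU k w).ne' h2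
  rw [upDev, factorization_prodPow hU] at e1
  rw [downDev, factorization_prodPow hU] at e2
  by_cases hpU : p ∈ U
  · rw [if_pos hpU] at e1 e2
    rcases h p hpU with e | e <;> omega
  · rw [if_neg hpU] at e1
    exact lt_irrefl 0 e1

/-- Powers of `y` are below `exp (y / 4)` at `y = x ^ (-u)`. -/
theorem exists_exp_small_gen (u μ : ℝ) (hu0 : 0 < u) :
    ∃ x0 : ℝ, 0 < x0 ∧ x0 ≤ 1 ∧ ∀ x : ℝ, 0 < x → x ≤ x0 →
      Real.exp (-(1 / 4) * x ^ (-u)) ≤ x ^ μ := by
  have hev := (tendsto_rpow_mul_exp_neg_mul_atTop_nhds_zero (μ / u) (1 / 4) (by norm_num)).eventually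
    (Iic_mem_nhds (show (0 : ℝ) < 1 by norm_num))
  obtain ⟨M, hM⟩ := Filter.eventually_atTop.1 hev
  refine ⟨min 1 ((max M 1) ^ (-(1 / u))), lt_min one_pos (by positivity), min_le_left _ _, ?_⟩
  intro x hx hx0
  have hMy : M ≤ x ^ (-u) := by
    refine (le_max_left M 1).trans ?_
    calc max M 1 = ((max M 1) ^ (-(1 / u))) ^ (-u) := by
          rw [← Real.rpow_mul (by positivity), show -(1 / u) * -u = 1 by field_simp, Real.rpow_one]
      _ ≤ _ := Real.rpow_le_rpow_of_nonpos hx (hx0.trans (min_le_right _ _)) (by linarith)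
  have h : (x ^ (-u)) ^ (μ / u) * Real.exp (-(1 / 4) * x ^ (-u)) ≤ 1 := hM _ hMy
  rw [← Real.rpow_mul hx.le, show -u * (μ / u) = -μ by field_simp, Real.rpow_neg hx.le] at h
  have h0 : 0 < x ^ μ := Real.rpow_pos_of_pos hx _
  rw [inv_mul_le_iff₀ h0, mul_one] at h
  exact h

/-- The smallness of the error of a sparse state. -/
theorem exists_exp_small :
    ∃ x0 : ℝ, 0 < x0 ∧ x0 ≤ 1 ∧ ∀ x : ℝ, 0 < x → x ≤ x0 →
      Real.exp (-(1 / 4) * x ^ (-(1 / 10 ^ 20 : ℝ))) ≤ x ^ (1 / 10 ^ 8 : ℝ) :=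
  exists_exp_small_gen _ _ (by norm_num)

open Classical in
/-- A state in which a variable of the second member is minor. -/
theorem exists_minor_state_le :
    ∃ C x0 : ℝ, 0 < C ∧ 0 < x0 ∧ ∀ (β β' x : ℝ) (F F' f f' : ℕ → ℝ) (P S U V W : Finset ℕ)
      (i j k : ℕ → ℕ) (Y : ℕ) (K : ℕ → ℕ → ℝ),
      0 < x → x ≤ x0 → x ^ (-(20 : ℝ)) ≤ (Y : ℝ) → Real.log Y ≤ x ^ (-(1 / 10 ^ 20 : ℝ)) →
      FinState P S U V W i j → (∀ v, 0 ≤ F v) → (∀ w, 0 ≤ F' w) →
      (∀ v ∈ V, F v ≤ f v * phiY Y v) → (∀ w ∈ W, F' w ≤ f' w * phiY Y w) →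
      (∀ v, 0 ≤ f v) → (∀ w, 0 ≤ f' w) → (∀ v w, 0 ≤ K v w) → (∀ v w, K v w ≤ 1) →
      (∀ v w, K v w ≠ 0 → v ∈ V ∧ w ∈ W ∧ NoCoDev U k v w ∧ f v * (qd w v : ℝ) ≤ x ∧
        f' w * (qd v w : ℝ) ≤ x ∧ (∀ p ∈ (downDev U k w).primeFactors, p ≤ Y) ∧
        (∀ p ∈ (downDev U k v).primeFactors, p ≤ Y) ∧
        (∃ n : ℤ, |(qd w v : ℝ) * β - (qd v w : ℝ) * β' - n| < 2 * x) ∧
        (MinorVar x (β * ((fixedPart (P \ U) j i * downDev U k v : ℕ) : ℝ)) (upDev U k w) ∨
          MinorVar x (β' * ((fixedPart (P \ U) i j * upDev U k v : ℕ) : ℝ)) (downDev U k w))) →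
      ∑ v ∈ V, ∑ w ∈ W, K v w * (F v * F' w) ≤
        C * x ^ (1 + 4 * gainL) * bilShape (∑ v ∈ V, F v) (∑ w ∈ W, F' w) /
          ((fixedPart (P \ U) i j * fixedPart (P \ U) j i : ℕ) : ℝ) ^ alL2 := by
  obtain ⟨Cm, xm, hCm, hxm, hcard⟩ := exists_minorSet_card_le
  obtain ⟨Cs, hCs, hsparse⟩ := exists_state_sparse_le
  obtain ⟨xe, hxe, hxe1, hexp⟩ := exists_exp_small
  set μ : ℝ := 1 / 10 ^ 8 with hμ
  have hμ0 : 0 < μ := by positivity
  set x1 : ℝ := ((1 : ℝ) / (Cm + 1)) ^ (1 / μ) with hx1d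
  refine ⟨2 * Cs * (Cm + 1) ^ alL2, min (min xm xe) (min x1 (1 / 4)), by positivity,
    lt_min (lt_min hxm hxe) (lt_min (by positivity) (by norm_num)), ?_⟩
  intro β β' x F F' f f' P S U V W i j k Y K hx hx0 hY hlogY hst hF hF' hFf hFf' hf hf' hK0 hK1 hsupp
  have hxm' : x ≤ xm := hx0.trans ((min_le_left _ _).trans (min_le_left _ _))
  have hxe' : x ≤ xe := hx0.trans ((min_le_left _ _).trans (min_le_right _ _))
  have hx1' : x ≤ x1 := hx0.trans ((min_le_right _ _).trans (min_le_left _ _))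
  have hx4 : x ≤ 1 / 4 := hx0.trans ((min_le_right _ _).trans (min_le_right _ _))
  have hx1 : x ≤ 1 := hxe'.trans hxe1
  set Q := fixedPart (P \ U) i j with hQ
  set R := fixedPart (P \ U) j i with hR
  set N := (W.sup (fun w => max (upDev U k w) (downDev U k w))) + 1 with hN
  set L : ℝ := x ^ (-(3 / 10 ^ 20 : ℝ)) with hL
  set e : ℝ := Cm * x ^ (sig1 / 4) with he
  set Tc : ℕ → ℕ → Finset ℕ := fun v d =>
    minorSet x (β * ((R * downDev U k v : ℕ) : ℝ)) (((Q * (upDev U k v * d) : ℕ) : ℝ) * β') N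
    with hTc
  set Td : ℕ → ℕ → Finset ℕ := fun v c =>
    minorSet x (β' * ((Q * upDev U k v : ℕ) : ℝ)) (((R * (c * downDev U k v) : ℕ) : ℝ) * β) N
    with hTd
  have hL1 : 1 ≤ L := Real.one_le_rpow_of_pos_of_le_one_of_nonpos hx hx1 (by norm_num)
  have he0 : 0 ≤ e := by positivity
  -- the error of the state
  have hY4 : (4 : ℝ) ≤ Y := by
    refine le_trans ?_ hY
    calc (4 : ℝ) ≤ x⁻¹ := by rw [le_inv_comm₀ (by norm_num) hx]; linarith
      _ = x ^ (-1 : ℝ) := (Real.rpow_neg_one x).symm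
      _ ≤ _ := Real.rpow_le_rpow_of_exponent_ge hx hx1 (by norm_num)
  have hlog0 : 0 < Real.log (2 + (Y : ℝ)) := Real.log_pos (by linarith)
  have hlog2 : Real.log (2 + (Y : ℝ)) ≤ 2 * x ^ (-(1 / 10 ^ 20 : ℝ)) := by
    have h1 : Real.log (2 + (Y : ℝ)) ≤ Real.log ((Y : ℝ) ^ 2) :=
      Real.log_le_log (by linarith) (by nlinarith)
    rw [Real.log_pow] at h1
    push_cast at h1
    linarith
  have htot : e * L ^ 2 + Real.exp (-(L / Real.log (2 + (Y : ℝ)) ^ 2)) ≤ (Cm + 1) * x ^ μ := by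
    rw [add_mul, one_mul]
    refine add_le_add ?_ (le_trans (Real.exp_le_exp.2 ?_) (hexp x hx hxe'))
    · rw [he, mul_assoc]
      refine mul_le_mul_of_nonneg_left ?_ hCm.le
      rw [hL, ← Real.rpow_natCast _ 2, ← Real.rpow_mul hx.le, ← Real.rpow_add hx]
      exact Real.rpow_le_rpow_of_exponent_ge hx hx1 (by norm_num [sig1, hμ])
    · rw [neg_mul, neg_le_neg_iff, le_div_iff₀ (by positivity)]
      refine (mul_le_mul_of_nonneg_left (pow_le_pow_left₀ hlog0.le hlog2 2) (by positivity)).trans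
        (le_of_eq ?_)
      rw [hL, mul_pow, ← Real.rpow_natCast (x ^ _) 2, ← Real.rpow_mul hx.le]
      have e2 : x ^ (-(3 / 10 ^ 20 : ℝ)) = x ^ (-(1 / 10 ^ 20 : ℝ)) *
          x ^ (-(1 / 10 ^ 20 : ℝ) * ((2 : ℕ) : ℝ)) := by
        rw [← Real.rpow_add hx]; norm_num
      rw [e2]
      ring
  have htot1 : (Cm + 1) * x ^ μ ≤ 1 := by
    have h1 : x ^ μ ≤ 1 / (Cm + 1) := by
      refine (Real.rpow_le_rpow hx.le hx1' hμ0.le).trans (le_of_eq ?_)
      rw [hx1d, ← Real.rpow_mul (by positivity), one_div_mul_cancel hμ0.ne', Real.rpow_one]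
    rw [le_div_iff₀ (by positivity)] at h1
    linarith
  have hw : ∀ w ∈ W, upDev U k w < N ∧ downDev U k w < N := fun w hw => by
    have := Finset.le_sup (f := fun w => max (upDev U k w) (downDev U k w)) hw
    simp only [hN]
    omega
  have h := hsparse F F' f f' P S U V W i j k Y x x e L K Tc Td hst hF hF' hFf hFf' hf hf' hx hx
    he0 hL1 (htot.trans htot1) hK0 hK1 (fun v d l => hcard x _ _ N l hx hxm')
    (fun v c l => hcard x _ _ N l hx hxm') ?_
  swap
  · intro v w hne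
    obtain ⟨hv, hwW, hk, hc, ha, hd1, hd2, ⟨n, hn⟩, hmin⟩ := hsupp v w hne
    refine ⟨hk, hc, ha, hd1, hd2, ?_⟩
    obtain ⟨e1, e2⟩ := qd_eq_of_finState hst hv hwW hk
    rw [e1, e2] at hn
    rcases hmin with hm | hm
    · refine Or.inl (mem_minorSet (hw w hwW).1 ⟨n, ?_⟩ hm)
      convert hn using 2
      simp only [hQ, hR]; push_cast; ring
    · refine Or.inr (mem_minorSet (hw w hwW).2 ⟨-n, ?_⟩ hm)
      rw [abs_sub_comm] at hn
      convert hn using 2
      simp only [hQ, hR]; push_cast; ring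
  refine h.trans (div_le_div_of_nonneg_right ?_ (Real.rpow_nonneg (Nat.cast_nonneg _) _))
  have hA : 0 ≤ ∑ v ∈ V, F v := Finset.sum_nonneg fun v _ => hF v
  have hB : 0 ≤ ∑ w ∈ W, F' w := Finset.sum_nonneg fun v _ => hF' v
  have hbs : 0 ≤ bilShape (∑ v ∈ V, F v) (∑ w ∈ W, F' w) := by unfold bilShape; positivity
  refine mul_le_mul_of_nonneg_right ?_ hbs
  have ha2 : 0 ≤ alL2 := by norm_num [alL2, delL, omL]
  calc Cs * (e * L ^ 2 + Real.exp (-(L / Real.log (2 + (Y : ℝ)) ^ 2))) ^ alL2 *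
        (x ^ alL1 * x ^ alL2 + x ^ alL1 * x ^ alL2)
      ≤ Cs * ((Cm + 1) * x ^ μ) ^ alL2 * (x ^ alL1 * x ^ alL2 + x ^ alL1 * x ^ alL2) := by
        gcongr
    _ = 2 * Cs * (Cm + 1) ^ alL2 * (x ^ (μ * alL2) * (x ^ alL1 * x ^ alL2)) := by
        rw [Real.mul_rpow (by positivity) (by positivity), ← Real.rpow_mul hx.le]; ring
    _ ≤ 2 * Cs * (Cm + 1) ^ alL2 * x ^ (1 + 4 * gainL) := by
        refine mul_le_mul_of_nonneg_left ?_ (by positivity)
        rw [← Real.rpow_add hx, ← Real.rpow_add hx]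
        exact Real.rpow_le_rpow_of_exponent_ge hx hx1
          (by norm_num [hμ, alL1, alL2, delL, omL, gainL])

open Classical in
/-- A state of large area gains. -/
theorem exists_spare_state_le :
    ∃ C : ℝ, 0 < C ∧ ∀ (x : ℝ) (F F' f f' : ℕ → ℝ) (P S U V W : Finset ℕ)
      (i j k : ℕ → ℕ) (Y : ℕ) (K : ℕ → ℕ → ℝ),
      0 < x → x ≤ 1 → x ^ (-(2 + kapL)) ≤
        ((fixedPart (P \ U) i j * fixedPart (P \ U) j i : ℕ) : ℝ) →
      FinState P S U V W i j → (∀ v, 0 ≤ F v) → (∀ w, 0 ≤ F' w) →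
      (∀ v ∈ V, F v ≤ f v * phiY Y v) → (∀ w ∈ W, F' w ≤ f' w * phiY Y w) →
      (∀ v, 0 ≤ f v) → (∀ w, 0 ≤ f' w) → (∀ v w, 0 ≤ K v w) → (∀ v w, K v w ≤ 1) →
      (∀ v w, K v w ≠ 0 → NoCoDev U k v w ∧ f v * (qd w v : ℝ) ≤ x ∧
        f' w * (qd v w : ℝ) ≤ x ∧ (∀ p ∈ (downDev U k w).primeFactors, p ≤ Y) ∧
        (∀ p ∈ (downDev U k v).primeFactors, p ≤ Y)) →
      ∑ v ∈ V, ∑ w ∈ W, K v w * (F v * F' w) ≤
        C * x ^ (1 + 4 * gainL) * bilShape (∑ v ∈ V, F v) (∑ w ∈ W, F' w) /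
          ((fixedPart (P \ U) i j * fixedPart (P \ U) j i : ℕ) : ℝ) ^ beL := by
  obtain ⟨C, hC, h⟩ := exists_final_pool_le alL1 alL2 (by norm_num [alL2, delL, omL])
    (by norm_num [alL1, alL2, delL, omL]) (by norm_num [alL1, alL2, delL, omL])
  refine ⟨C + 1, by linarith, ?_⟩
  intro x F F' f f' P S U V W i j k Y K hx hx1 harea hst hF hF' hFf hFf' hf hf' hK0 hK1 hsupp
  set A := ∑ v ∈ V, F v with hA'
  set B := ∑ w ∈ W, F' w with hB'
  have hA : 0 ≤ A := Finset.sum_nonneg fun v _ => hF v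
  have hB : 0 ≤ B := Finset.sum_nonneg fun v _ => hF' v
  set Q := fixedPart (P \ U) i j with hQ
  set R := fixedPart (P \ U) j i with hR
  have hQ1 : (1 : ℝ) ≤ Q := by exact_mod_cast fixedPart_pos hst.prime_sdiff i j
  have hR1 : (1 : ℝ) ≤ R := by exact_mod_cast fixedPart_pos hst.prime_sdiff j i
  have h12 : alL2 ≤ alL1 := by norm_num [alL1, alL2, delL, omL]
  have h1 := h F F' f f' P S U V W i j k Y x x
    (fun v w => if upDev U k w ≤ upDev U k v then K v w else 0) hst hF hF' hFf hFf' hf hf' hx hx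
    (fun v w => by split_ifs; exacts [hK0 v w, le_rfl])
    (fun v w => by split_ifs; exacts [hK1 v w, zero_le_one])
    (fun v w hne => by
      obtain ⟨hle, hne'⟩ := ite_ne_right_iff.1 hne
      obtain ⟨e1, e2, e3, e4, e5⟩ := hsupp v w hne'
      exact ⟨e1, e2, e3, hle, e4, e5⟩)
  have h2 := h F' F f' f P S U W V j i k Y x x
    (fun w v => if upDev U k v ≤ upDev U k w then K v w else 0) hst.symm hF' hF hFf' hFf hf' hf hx hx
    (fun w v => by split_ifs; exacts [hK0 v w, le_rfl])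
    (fun w v => by split_ifs; exacts [hK1 v w, zero_le_one])
    (fun w v hne => by
      obtain ⟨hle, hne'⟩ := ite_ne_right_iff.1 hne
      obtain ⟨e1, e2, e3, e4, e5⟩ := hsupp v w hne'
      exact ⟨fun p hp => (e1 p hp).symm, e3, e2, hle, e5, e4⟩)
  rw [Finset.sum_comm] at h2
  rw [← hA', ← hB', ← hQ, ← hR] at h1 h2
  have hshape : ∀ (a b : ℝ), 0 ≤ a → 0 ≤ b → ∀ (q r : ℝ), 1 ≤ q → 1 ≤ r →
      C * (x ^ alL1 * x ^ alL2) * (a ^ (1 - alL2) * b ^ (1 - alL1)) / (q ^ alL1 * r ^ alL2) ≤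
        C * (x ^ alL1 * x ^ alL2) * (a ^ omL * (a * b) ^ thL) / (q * r) ^ alL2 := by
    intro a b ha hb q r hq hr
    rw [show 1 - alL2 = omL + thL by simp only [thL, alL1, alL2]; ring,
      Real.rpow_add' ha (by norm_num [thL, alL1, delL, omL]), Real.mul_rpow ha hb,
      show 1 - alL1 = thL from rfl, Real.mul_rpow (by linarith : (0 : ℝ) ≤ q)
        (by linarith : (0 : ℝ) ≤ r), mul_assoc (a ^ omL)]
    gcongr
  have h1' := h1.trans (hshape A B hA hB _ _ hQ1 hR1)
  have h2' := h2.trans (hshape B A hB hA _ _ hR1 hQ1)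
  rw [mul_comm B A, mul_comm (R : ℝ) Q] at h2'
  have hgain : x ^ alL1 * x ^ alL2 / ((Q : ℝ) * R) ^ alL2 ≤
      x ^ (1 + 4 * gainL) / ((Q : ℝ) * R) ^ beL := by
    rw [Nat.cast_mul] at harea
    have hq0 : (0 : ℝ) < (Q : ℝ) * R := by positivity
    have hd : 0 ≤ alL2 - beL := by norm_num [alL2, beL, thL, alL1, delL, omL]
    have e : ((Q : ℝ) * R) ^ alL2 = ((Q : ℝ) * R) ^ beL * ((Q : ℝ) * R) ^ (alL2 - beL) := by
      rw [← Real.rpow_add hq0]; ring_nf
    rw [e, mul_comm (((Q : ℝ) * R) ^ beL), ← div_div]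
    refine div_le_div_of_nonneg_right ?_ (by positivity)
    rw [div_le_iff₀ (by positivity)]
    refine le_trans ?_ (mul_le_mul_of_nonneg_left
      (Real.rpow_le_rpow (by positivity) harea hd) (by positivity))
    rw [← Real.rpow_mul hx.le, ← Real.rpow_add hx, ← Real.rpow_add hx]
    exact Real.rpow_le_rpow_of_exponent_ge hx hx1
      (by norm_num [alL2, beL, thL, alL1, delL, omL, kapL, gainL])
  calc ∑ v ∈ V, ∑ w ∈ W, K v w * (F v * F' w)
      ≤ ∑ v ∈ V, ∑ w ∈ W, ((if upDev U k w ≤ upDev U k v then K v w else 0) * (F v * F' w) +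
          (if upDev U k v ≤ upDev U k w then K v w else 0) * (F' w * F v)) := by
        refine Finset.sum_le_sum fun v _ => Finset.sum_le_sum fun w _ => ?_
        have hp := mul_nonneg (hK0 v w) (mul_nonneg (hF v) (hF' w))
        rw [mul_comm (F' w) (F v)]
        rcases le_total (upDev U k w) (upDev U k v) with hh | hh
        · rw [if_pos hh]
          refine le_add_of_nonneg_right ?_
          split_ifs
          · exact hp
          · simp
        · rw [if_pos hh]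
          refine le_add_of_nonneg_left ?_
          split_ifs
          · exact hp
          · simp
    _ ≤ C * (x ^ alL1 * x ^ alL2) * (A ^ omL * (A * B) ^ thL) / ((Q : ℝ) * R) ^ alL2 +
        C * (x ^ alL1 * x ^ alL2) * (B ^ omL * (A * B) ^ thL) / ((Q : ℝ) * R) ^ alL2 := by
        simp only [Finset.sum_add_distrib]
        exact add_le_add h1' h2'
    _ = C * (x ^ alL1 * x ^ alL2 / ((Q : ℝ) * R) ^ alL2) * bilShape A B := by
        rw [bilShape]; ring
    _ ≤ (C + 1) * (x ^ (1 + 4 * gainL) / ((Q : ℝ) * R) ^ beL) * bilShape A B := by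
        have hbs : 0 ≤ bilShape A B := by unfold bilShape; positivity
        refine mul_le_mul_of_nonneg_right ?_ hbs
        exact mul_le_mul (by linarith) hgain (by positivity) (by linarith)
    _ = _ := by rw [Nat.cast_mul]; ring

open Classical in
/-- Every final state gains. -/
theorem exists_bigPart_le :
    ∃ C : ℝ, 0 < C ∧ ∀ (β β' x : ℝ) (F F' f f' : ℕ → ℝ) (V W : Finset ℕ) (k : ℕ → ℕ) (Y : ℕ),
      0 < x → C * x ≤ 1 → x ^ (-(20 : ℝ)) ≤ (Y : ℝ) →
      Real.log Y ≤ x ^ (-(1 / 10 ^ 20 : ℝ)) →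
      Pool F f V k Y → Pool F' f' W k Y →
      ∑ v ∈ V, ∑ w ∈ W.filter (fun w => BadPair β β' x f f' k Y v w ∧
          x ^ (-(202 / 100 : ℝ)) < (qd w v : ℝ) * (qd v w : ℝ) ∧
          ¬ ExcMem β' x (qd v w) ∧ ¬ ExcMem β x (qd w v)), F v * F' w ≤
        C * x ^ (1 + 4 * gainL) * gainShape (∑ v ∈ V, F v) (∑ w ∈ W, F' w) := by
  obtain ⟨Cr, hCr⟩ := exists_split_bound2 thL beL (by norm_num [thL, alL1, delL, omL])
    (by norm_num [thL, alL1, delL, omL]) (by norm_num [beL, thL, alL1, delL, omL])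
    (by norm_num [beL, thL, alL1, delL, omL])
  obtain ⟨Cb, hCb, hbil⟩ := exists_bilPool_le
  obtain ⟨x0, hx0, hcases⟩ := exists_big_cases
  obtain ⟨Cm, xm, hCm, hxm, hminor⟩ := exists_minor_state_le
  obtain ⟨Cp, hCp, hspare⟩ := exists_spare_state_le
  refine ⟨2 + 1 / x0 + 1 / xm + 8 * Cb + 2 * (max Cr 0 * (2 * Cm + Cp)), by positivity, ?_⟩
  intro β β' x F₀ F₀' f f' V₀ W₀ k₀ Y hx hCx hY hlogY hV₀ hW₀
  have q1 : 0 ≤ 1 / x0 := by positivity
  have q2 : 0 ≤ 1 / xm := by positivity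
  have q3 : 0 ≤ max Cr 0 * (2 * Cm + Cp) := by positivity
  have hsmall : ∀ c : ℝ, c ≤ 2 + 1 / x0 + 1 / xm + 8 * Cb + 2 * (max Cr 0 * (2 * Cm + Cp)) →
      c * x ≤ 1 := fun c hc => le_trans (mul_le_mul_of_nonneg_right hc hx.le) hCx
  have hxx0 : x ≤ x0 := by
    have := hsmall (1 / x0) (by linarith)
    rwa [one_div_mul_eq_div, div_le_one hx0] at this
  have hxxm : x ≤ xm := by
    have := hsmall (1 / xm) (by linarith)
    rwa [one_div_mul_eq_div, div_le_one hxm] at this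
  have hx1 : x ≤ 1 := by linarith [hsmall 2 (by linarith)]
  have hY2 : 2 ≤ Y := by
    have h2 : (2 : ℝ) ≤ x ^ (-(20 : ℝ)) := by
      calc (2 : ℝ) ≤ x⁻¹ := by
            rw [le_inv_comm₀ (by norm_num) hx]; linarith [hsmall 2 (by linarith)]
        _ = x ^ (-1 : ℝ) := (Real.rpow_neg_one x).symm
        _ ≤ _ := Real.rpow_le_rpow_of_exponent_ge hx hx1 (by norm_num)
    exact_mod_cast h2.trans hY
  set mA := ∑ v ∈ V₀, F₀ v with hmA
  set mB := ∑ w ∈ W₀, F₀' w with hmB
  have hA0 : 0 ≤ mA := Finset.sum_nonneg fun v _ => hV₀.F_nonneg v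
  have hB0 : 0 ≤ mB := Finset.sum_nonneg fun v _ => hW₀.F_nonneg v
  have hbs : bilShape mA mB ≤ 2 * gainShape mA mB := bilShape_le_gainShape hA0 hB0
  have hbs0 : 0 ≤ bilShape mA mB := by unfold bilShape; positivity
  have hgs0 := gainShape_nonneg hA0 hB0
  set P4 := x ^ (1 + 4 * gainL) with hP4
  have hP40 : 0 < P4 := Real.rpow_pos_of_pos hx _
  -- the small radii
  have hsmallRad : ∀ y y' : ℝ, 0 < y → 0 < y' → y ≤ x → y' ≤ x →
      (y ≤ x ^ (1 + sig0) ∨ y' ≤ x ^ (1 + sig0)) →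
      ∑ v ∈ V₀, ∑ w ∈ W₀.filter (fun w => f v * (qd w v : ℝ) ≤ y ∧ f' w * (qd v w : ℝ) ≤ y' ∧
          Linked k₀ Y v w), F₀ v * F₀' w ≤ 4 * Cb * P4 * gainShape mA mB := by
    intro y y' hy hy' hyx hyx' hone
    refine le_trans (Finset.sum_le_sum fun v _ => Finset.sum_le_sum_of_subset_of_nonneg
      (fun w hw => ?_) fun w _ _ => mul_nonneg (hV₀.F_nonneg v) (hW₀.F_nonneg w))
      ((hbil F₀ F₀' f f' V₀ W₀ k₀ Y y y' hy hy' hY2 hV₀ hW₀).trans ?_)
    · obtain ⟨hwW, e1, e2, e3⟩ := Finset.mem_filter.1 hw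
      exact Finset.mem_filter.2 ⟨hwW, e1, e2, Or.inl e3⟩
    rw [← hmA, ← hmB]
    have a1 : 0 ≤ alL1 := by norm_num [alL1, delL, omL]
    have a2 : 0 ≤ alL2 := by norm_num [alL2, delL, omL]
    have key : ∀ (u u' : ℝ), 0 ≤ u → 0 ≤ u' → u ≤ x → u' ≤ x →
        (u ≤ x ^ (1 + sig0) ∨ u' ≤ x ^ (1 + sig0)) → u ^ alL1 * u' ^ alL2 ≤ P4 := by
      intro u u' hu hu' hux hux' h
      rcases h with h | h
      · refine (mul_le_mul (Real.rpow_le_rpow hu h a1) (Real.rpow_le_rpow hu' hux' a2)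
          (Real.rpow_nonneg hu' _) (by positivity)).trans ?_
        rw [← Real.rpow_mul hx.le, ← Real.rpow_add hx]
        exact Real.rpow_le_rpow_of_exponent_ge hx hx1
          (by norm_num [alL1, alL2, delL, omL, sig0, gainL])
      · refine (mul_le_mul (Real.rpow_le_rpow hu hux a1) (Real.rpow_le_rpow hu' h a2)
          (Real.rpow_nonneg hu' _) (by positivity)).trans ?_
        rw [← Real.rpow_mul hx.le, ← Real.rpow_add hx]
        exact Real.rpow_le_rpow_of_exponent_ge hx hx1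
          (by norm_num [alL1, alL2, delL, omL, sig0, gainL])
    have := key y' y hy'.le hy.le hyx' hyx hone.symm
    have := key y y' hy.le hy'.le hyx hyx' hone
    calc Cb * (y' ^ alL1 * y ^ alL2 + y ^ alL1 * y' ^ alL2) * bilShape mA mB
        ≤ Cb * (P4 + P4) * (2 * gainShape mA mB) := by gcongr
      _ = 4 * Cb * P4 * gainShape mA mB := by ring
  set xs := x ^ (1 + sig0) with hxs
  have hxs0 : 0 < xs := Real.rpow_pos_of_pos hx _
  have hxsx : xs ≤ x := by
    rw [hxs]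
    refine (Real.rpow_le_rpow_of_exponent_ge hx hx1 (show (1 : ℝ) ≤ 1 + sig0 by norm_num [sig0])).trans ?_
    rw [Real.rpow_one]
  -- the splitting
  set S := V₀ ∪ W₀ with hS
  set P := S.biUnion Nat.primeFactors with hP
  have hpos : ∀ q ∈ S, 0 < q := fun q hq =>
    (Finset.mem_union.1 hq).elim (fun h => hV₀.pos q h) fun h => hW₀.pos q h
  have hPp : ∀ r ∈ P, r.Prime := by
    intro r hr
    obtain ⟨q, _, hq⟩ := Finset.mem_biUnion.1 hr
    exact Nat.prime_of_mem_primeFactors hq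
  set F : ℕ → ℝ := fun q => if q ∈ V₀ then F₀ q else 0 with hFd
  set F' : ℕ → ℝ := fun q => if q ∈ W₀ then F₀' q else 0 with hFd'
  have hF : ∀ q, 0 ≤ F q := fun q => by
    simp only [hFd]; split_ifs
    · exact hV₀.F_nonneg q
    · exact le_rfl
  have hF' : ∀ q, 0 ≤ F' q := fun q => by
    simp only [hFd']; split_ifs
    · exact hW₀.F_nonneg q
    · exact le_rfl
  have hFf : ∀ q, F q ≤ f q * phiY Y q := fun q => by
    simp only [hFd]; split_ifs with hh
    · exact hV₀.F_le q hh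
    · exact mul_nonneg (hV₀.f_nonneg q) (phiY_nonneg Y q)
  have hFf' : ∀ q, F' q ≤ f' q * phiY Y q := fun q => by
    simp only [hFd']; split_ifs with hh
    · exact hW₀.F_le q hh
    · exact mul_nonneg (hW₀.f_nonneg q) (phiY_nonneg Y q)
  set cond : ℕ → ℕ → Prop := fun v w => BadPair β β' x f f' k₀ Y v w ∧
    x ^ (-(202 / 100 : ℝ)) < (qd w v : ℝ) * (qd v w : ℝ) ∧
    ¬ ExcMem β' x (qd v w) ∧ ¬ ExcMem β x (qd w v) ∧
    xs ≤ f v * (qd w v : ℝ) ∧ xs ≤ f' w * (qd v w : ℝ) with hcond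
  set K : ℕ → ℕ → ℝ := fun v w => if v ∈ V₀ ∧ w ∈ W₀ ∧ cond v w then 1 else 0 with hKd
  have hK0 : ∀ v w, 0 ≤ K v w := fun v w => by simp only [hKd]; split <;> norm_num
  set Ms : ℝ := mA ^ omL + mB ^ omL with hMs
  set G : ℝ := (2 * Cm + Cp) * P4 * Ms with hG
  have hG0 : 0 ≤ G := by positivity
  have hsA : ∑ v ∈ S, F v = mA := by
    rw [hmA, ← Finset.sum_subset Finset.subset_union_left fun q _ hq => by simp [hFd, hq]]
    exact Finset.sum_congr rfl fun q hq => by simp [hFd, hq]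
  have hsB : ∑ v ∈ S, F' v = mB := by
    rw [hmB, ← Finset.sum_subset Finset.subset_union_right fun q _ hq => by simp [hFd', hq]]
    exact Finset.sum_congr rfl fun q hq => by simp [hFd', hq]
  have hfinal : FinalBound2 thL beL G P S F F' K := by
    intro U V W i j k hU hV hW hi hj K' hK'0 hK'le hK'supp
    have h : FinState P S U V W i j := ⟨hPp, hpos,
      fun q hq r hr => Finset.mem_biUnion.2 ⟨q, hq, hr⟩, hU, hV, hW, hi, hj⟩
    set Q := fixedPart (P \ U) i j with hQd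
    set R := fixedPart (P \ U) j i with hRd
    have hQp : 0 < Q := fixedPart_pos h.prime_sdiff i j
    have hRp : 0 < R := fixedPart_pos h.prime_sdiff j i
    set A := ∑ v ∈ V, F v with hAd
    set B := ∑ w ∈ W, F' w with hBd
    have hA : 0 ≤ A := Finset.sum_nonneg fun v _ => hF v
    have hB : 0 ≤ B := Finset.sum_nonneg fun v _ => hF' v
    set k' : ℕ → ℕ := fun p => if Y < p then k₀ p else k p with hk'
    have hle1 : ∀ v w, K' v w ≤ 1 := fun v w => (hK'le v w).trans (by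
      simp only [hKd]; split <;> norm_num)
    have hdata : ∀ v w, K' v w ≠ 0 → NoCoDev U k' v w ∧ f v * (qd w v : ℝ) ≤ x ∧
        f' w * (qd v w : ℝ) ≤ x ∧ (∀ p ∈ (downDev U k' w).primeFactors, p ≤ Y) ∧
        (∀ p ∈ (downDev U k' v).primeFactors, p ≤ Y) ∧ cond v w := by
      intro v w hne
      have hh : v ∈ V₀ ∧ w ∈ W₀ ∧ cond v w := by
        by_contra hc
        have := hK'le v w
        simp only [hKd, if_neg hc] at this
        exact hne (le_antisymm this (hK'0 v w))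
      obtain ⟨hv, hw, hc⟩ := hh
      obtain ⟨hl, e1, e2, -, -⟩ := hc.1
      refine ⟨fun p hp => ?_, e1, e2, fun p hp => ?_, fun p hp => ?_, hc⟩
      · simp only [hk']
        split_ifs with hY'
        · exact hl p (h.prime_U p hp) hY'
        · exact hK'supp v w hne p hp
      all_goals
        rw [← Nat.support_factorization, Finsupp.mem_support_iff, downDev,
          factorization_prodPow h.prime_U] at hp
        obtain ⟨hpU, hne0⟩ := ite_ne_right_iff.1 hp
        by_contra hY'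
        simp only [hk', if_pos (not_le.1 hY')] at hne0
      · have := hW₀.centre_le w hw p (h.prime_U p hpU) (not_le.1 hY')
        omega
      · have := hV₀.centre_le v hv p (h.prime_U p hpU) (not_le.1 hY')
        omega
    have hMA : A ^ omL ≤ mA ^ omL := Real.rpow_le_rpow hA
      (hsA ▸ Finset.sum_le_sum_of_subset_of_nonneg hV fun q _ _ => hF q) (by norm_num [omL])
    have hMB : B ^ omL ≤ mB ^ omL := Real.rpow_le_rpow hB
      (hsB ▸ Finset.sum_le_sum_of_subset_of_nonneg hW fun q _ _ => hF' q) (by norm_num [omL])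
    have hshape : bilShape A B ≤ Ms * (A * B) ^ thL := by
      rw [bilShape, hMs]
      exact mul_le_mul_of_nonneg_right (add_le_add hMA hMB) (by positivity)
    have hbsAB : 0 ≤ bilShape A B := by unfold bilShape; positivity
    have hQR1 : (1 : ℝ) ≤ ((Q * R : ℕ) : ℝ) := by exact_mod_cast Nat.mul_pos hQp hRp
    by_cases harea : x ^ (-(2 + kapL)) ≤ ((Q * R : ℕ) : ℝ)
    · refine (hspare x F F' f f' P S U V W i j k' Y K' hx hx1 harea h hF hF' (fun v _ => hFf v)
        (fun w _ => hFf' w) hV₀.f_nonneg hW₀.f_nonneg hK'0 hle1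
        fun v w hne => ?_).trans ?_
      · obtain ⟨e1, e2, e3, e4, e5, -⟩ := hdata v w hne
        exact ⟨e1, e2, e3, e4, e5⟩
      rw [← hAd, ← hBd, ← hQd, ← hRd]
      refine div_le_div_of_nonneg_right ?_ (Real.rpow_nonneg (Nat.cast_nonneg _) _)
      calc Cp * P4 * bilShape A B ≤ (2 * Cm + Cp) * P4 * (Ms * (A * B) ^ thL) := by
            refine mul_le_mul (mul_le_mul_of_nonneg_right (by linarith) hP40.le) hshape hbsAB
              (by positivity)
        _ = _ := by rw [hG]; ring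
    set α1 : ℕ → ℕ → Prop := fun v w => v ∈ V ∧ w ∈ W ∧
      (MinorVar x (β * ((R * downDev U k' v : ℕ) : ℝ)) (upDev U k' w) ∨
        MinorVar x (β' * ((Q * upDev U k' v : ℕ) : ℝ)) (downDev U k' w)) with hα1
    set α2 : ℕ → ℕ → Prop := fun v w => v ∈ V ∧ w ∈ W ∧
      (MinorVar x (β' * ((Q * downDev U k' w : ℕ) : ℝ)) (upDev U k' v) ∨
        MinorVar x (β * ((R * upDev U k' w : ℕ) : ℝ)) (downDev U k' v)) with hα2
    have h1 := hminor β β' x F F' f f' P S U V W i j k' Y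
      (fun v w => if α1 v w then K' v w else 0) hx hxxm hY hlogY h hF hF' (fun v _ => hFf v)
      (fun w _ => hFf' w) hV₀.f_nonneg hW₀.f_nonneg
      (fun v w => by split_ifs; exacts [hK'0 v w, le_rfl])
      (fun v w => by split_ifs; exacts [hle1 v w, zero_le_one])
      (fun v w hne => by
        obtain ⟨⟨hv, hw, hm⟩, hne'⟩ := ite_ne_right_iff.1 hne
        obtain ⟨e1, e2, e3, e4, e5, hc⟩ := hdata v w hne'
        obtain ⟨-, -, -, -, n, hn, -⟩ := hc.1
        exact ⟨hv, hw, e1, e2, e3, e4, e5, ⟨n, hn⟩, hm⟩)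
    have h2 := hminor β' β x F' F f' f P S U W V j i k' Y
      (fun w v => if α2 v w then K' v w else 0) hx hxxm hY hlogY h.symm hF' hF (fun v _ => hFf' v)
      (fun w _ => hFf w) hW₀.f_nonneg hV₀.f_nonneg
      (fun w v => by split_ifs; exacts [hK'0 v w, le_rfl])
      (fun w v => by split_ifs; exacts [hle1 v w, zero_le_one])
      (fun w v hne => by
        obtain ⟨⟨hv, hw, hm⟩, hne'⟩ := ite_ne_right_iff.1 hne
        obtain ⟨e1, e2, e3, e4, e5, hc⟩ := hdata v w hne'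
        obtain ⟨-, -, -, -, n, hn, -⟩ := hc.1
        refine ⟨hw, hv, fun p hp => (e1 p hp).symm, e3, e2, e5, e4, ⟨-n, ?_⟩, hm⟩
        rw [← abs_neg]
        convert hn using 2
        push_cast
        ring)
    rw [Finset.sum_comm] at h2
    rw [← hAd, ← hBd, ← hQd, ← hRd] at h1 h2
    rw [show bilShape B A = bilShape A B by rw [bilShape, bilShape, mul_comm B A]; ring,
      mul_comm R Q] at h2
    -- every pair has a minor variable
    have hcover : ∀ v ∈ V, ∀ w ∈ W, K' v w ≠ 0 → α1 v w ∨ α2 v w := by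
      intro v hv w hw hne
      by_contra hno
      push Not at hno
      obtain ⟨hn1, hn2⟩ := hno
      simp only [hα1, hv, hw, true_and, not_or] at hn1
      simp only [hα2, hv, hw, true_and, not_or] at hn2
      obtain ⟨hk, e2, e3, -, -, hc⟩ := hdata v w hne
      obtain ⟨hbad, hbig, hexc', hexc, hl1, hl2⟩ := hc
      obtain ⟨-, -, -, -, n, hn, hnot⟩ := hbad
      obtain ⟨wc, hwc⟩ := witness_of_not_minorVar hx hx1 hn1.1
      obtain ⟨wd, hwd⟩ := witness_of_not_minorVar hx hx1 hn1.2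
      obtain ⟨wa, hwa⟩ := witness_of_not_minorVar hx hx1 hn2.1
      obtain ⟨wb, hwb⟩ := witness_of_not_minorVar hx hx1 hn2.2
      obtain ⟨e1a, e1c⟩ := qd_eq_of_finState h hv hw hk
      rw [← hQd] at e1a
      rw [← hRd] at e1c
      have hk2 : NoCoDev U k' w v := fun p hp => (hk p hp).symm
      have hg := Nat.gcd_pos_of_pos_left w (hpos v (hV hv))
      have hcop : Nat.Coprime (qd w v) (qd v w) := by
        have := Nat.coprime_div_gcd_div_gcd hg
        rw [qd, qd, Nat.gcd_comm w v]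
        exact this.symm
      simp only [e1a, e1c] at e2 e3 hl1 hl2 hbig hexc hexc' hn hnot hcop
      rcases hcases β β' x (f v) (f' w) Q (upDev U k' v) (downDev U k' w) R (upDev U k' w)
        (downDev U k' v) wa wd wc wb n hx hxx0 hQp (upDev_pos h.prime_U k' v)
        (downDev_pos h.prime_U k' w) hRp (upDev_pos h.prime_U k' w) (downDev_pos h.prime_U k' v)
        hcop (coprime_up_down h.prime_U hk) (coprime_up_down h.prime_U hk2) e2 hl1 e3 hl2
        (not_le.1 harea).le hbig hwc hwb hwa hwd hn with hcase | hcase | hcase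
      · exact hnot hcase
      · exact hexc hcase
      · exact hexc' hcase
    have hpow : ((Q * R : ℕ) : ℝ) ^ beL ≤ ((Q * R : ℕ) : ℝ) ^ alL2 :=
      Real.rpow_le_rpow_of_exponent_le hQR1 (by norm_num [beL, thL, alL1, alL2, delL, omL])
    calc ∑ v ∈ V, ∑ w ∈ W, K' v w * (F v * F' w)
        ≤ ∑ v ∈ V, ∑ w ∈ W, ((if α1 v w then K' v w else 0) * (F v * F' w) +
            (if α2 v w then K' v w else 0) * (F' w * F v)) := by
          refine Finset.sum_le_sum fun v hv => Finset.sum_le_sum fun w hw => ?_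
          have hp := mul_nonneg (hK'0 v w) (mul_nonneg (hF v) (hF' w))
          rw [mul_comm (F' w) (F v)]
          by_cases hne : K' v w = 0
          · simp [hne]
          rcases hcover v hv w hw hne with hh | hh
          · rw [if_pos hh]
            refine le_add_of_nonneg_right ?_
            split_ifs
            · exact hp
            · simp
          · rw [if_pos hh]
            refine le_add_of_nonneg_left ?_
            split_ifs
            · exact hp
            · simp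
      _ ≤ 2 * (Cm * P4 * bilShape A B / ((Q * R : ℕ) : ℝ) ^ alL2) := by
          simp only [Finset.sum_add_distrib]
          rw [two_mul]
          exact add_le_add h1 h2
      _ ≤ 2 * (Cm * P4 * (Ms * (A * B) ^ thL) / ((Q * R : ℕ) : ℝ) ^ beL) := by
          gcongr
      _ ≤ _ := by
          rw [← mul_div_assoc]
          refine div_le_div_of_nonneg_right ?_ (Real.rpow_nonneg (Nat.cast_nonneg _) _)
          rw [hG]
          have : 0 ≤ Cp * P4 * (Ms * (A * B) ^ thL) := by positivity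
          linarith
  -- assembly
  have hfix : ∀ q ∈ S, ∀ p, p ∉ P → q.factorization p = (fun _ : ℕ => 0) p := by
    intro q hq r hr
    by_contra hne
    refine hr (Finset.mem_biUnion.2 ⟨q, hq, ?_⟩)
    rw [← Nat.support_factorization]
    exact Finsupp.mem_support_iff.2 hne
  have hb := hCr P S F F' K G hPp hF hF' hK0 hG0 hfinal P S S (fun _ => 0) (fun _ => 0)
    subset_rfl subset_rfl subset_rfl hfix hfix
  rw [hsA, hsB, Finset.sdiff_self] at hb
  simp only [fixedPart, Finset.prod_empty, mul_one, Nat.cast_one, Real.one_rpow, div_one] at hb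
  have hmain : ∑ v ∈ V₀, ∑ w ∈ W₀.filter (fun w => cond v w), F₀ v * F₀' w ≤
      2 * (max Cr 0 * (2 * Cm + Cp)) * P4 * gainShape mA mB := by
    refine le_trans ?_ ((hb.trans (mul_le_mul_of_nonneg_right
      (mul_le_mul_of_nonneg_right (le_max_left Cr 0) hG0) (by positivity))).trans ?_)
    · refine le_trans (Finset.sum_le_sum fun v hv => ?_)
        (Finset.sum_le_sum_of_subset_of_nonneg Finset.subset_union_left fun v _ _ =>
          Finset.sum_nonneg fun w _ => mul_nonneg (hK0 v w) (mul_nonneg (hF v) (hF' w)))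
      refine le_trans ?_ (Finset.sum_le_sum_of_subset_of_nonneg
        ((Finset.filter_subset (fun w => cond v w) W₀).trans Finset.subset_union_right) fun w _ _ =>
          mul_nonneg (hK0 v w) (mul_nonneg (hF v) (hF' w)))
      refine Finset.sum_le_sum fun w hw => le_of_eq ?_
      obtain ⟨hwW, hc⟩ := Finset.mem_filter.1 hw
      simp only [hKd, hFd, hFd', hv, hwW, hc, and_self, if_true, one_mul]
    · calc max Cr 0 * G * (mA * mB) ^ thL
          = max Cr 0 * (2 * Cm + Cp) * P4 * bilShape mA mB := by rw [hG, bilShape, hMs]; ring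
        _ ≤ max Cr 0 * (2 * Cm + Cp) * P4 * (2 * gainShape mA mB) := by gcongr
        _ = _ := by ring
  have hs1 := hsmallRad xs x hxs0 hx hxsx le_rfl (Or.inl le_rfl)
  have hs2 := hsmallRad x xs hx hxs0 le_rfl hxsx (Or.inr le_rfl)
  calc ∑ v ∈ V₀, ∑ w ∈ W₀.filter (fun w => BadPair β β' x f f' k₀ Y v w ∧
          x ^ (-(202 / 100 : ℝ)) < (qd w v : ℝ) * (qd v w : ℝ) ∧
          ¬ ExcMem β' x (qd v w) ∧ ¬ ExcMem β x (qd w v)), F₀ v * F₀' w
      ≤ ∑ v ∈ V₀, (∑ w ∈ W₀.filter (fun w => f v * (qd w v : ℝ) ≤ xs ∧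
            f' w * (qd v w : ℝ) ≤ x ∧ Linked k₀ Y v w), F₀ v * F₀' w +
          ∑ w ∈ W₀.filter (fun w => f v * (qd w v : ℝ) ≤ x ∧
            f' w * (qd v w : ℝ) ≤ xs ∧ Linked k₀ Y v w), F₀ v * F₀' w +
          ∑ w ∈ W₀.filter (fun w => cond v w), F₀ v * F₀' w) := by
        refine Finset.sum_le_sum fun v _ => ?_
        simp only [Finset.sum_filter, ← Finset.sum_add_distrib]
        refine Finset.sum_le_sum fun w _ => ?_
        have hp := mul_nonneg (hV₀.F_nonneg v) (hW₀.F_nonneg w)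
        by_cases hb' : BadPair β β' x f f' k₀ Y v w ∧
            x ^ (-(202 / 100 : ℝ)) < (qd w v : ℝ) * (qd v w : ℝ) ∧
            ¬ ExcMem β' x (qd v w) ∧ ¬ ExcMem β x (qd w v)
        · rw [if_pos hb']
          obtain ⟨hbad, hbig, hx1', hx2'⟩ := hb'
          obtain ⟨hl, hc, ha, -, -⟩ := id hbad
          rcases le_or_gt (f v * (qd w v : ℝ)) xs with h1 | h1
          · rw [if_pos ⟨h1, ha, hl⟩]
            split_ifs <;> linarith
          rcases le_or_gt (f' w * (qd v w : ℝ)) xs with h2 | h2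
          · rw [if_pos (show f v * (qd w v : ℝ) ≤ x ∧ f' w * (qd v w : ℝ) ≤ xs ∧
              Linked k₀ Y v w from ⟨hc, h2, hl⟩)]
            split_ifs <;> linarith
          · rw [if_pos (show cond v w from ⟨hbad, hbig, hx1', hx2', h1.le, h2.le⟩)]
            split_ifs <;> linarith
        · rw [if_neg hb']
          split_ifs <;> linarith
    _ ≤ 4 * Cb * P4 * gainShape mA mB + 4 * Cb * P4 * gainShape mA mB +
        2 * (max Cr 0 * (2 * Cm + Cp)) * P4 * gainShape mA mB := by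
        simp only [Finset.sum_add_distrib]
        exact add_le_add (add_le_add hs1 hs2) hmain
    _ = (8 * Cb + 2 * (max Cr 0 * (2 * Cm + Cp))) * P4 * gainShape mA mB := by ring
    _ ≤ _ := mul_le_mul_of_nonneg_right
        (mul_le_mul_of_nonneg_right (by linarith) hP40.le) hgs0

end Vale.Agent.P028.Lift
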