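import Vale.Agent.P028.Lift.Sep

/-!
Boxes of small area: near points are few or satisfy exact relations.
-/

noncomputable section

namespace Vale.Agent.P028.Lift

open Finset

/-- The cross product of two pairs. -/
def wedge (p q : ℕ × ℕ) : ℤ := (p.1 : ℤ) * q.2 - (q.1 : ℤ) * p.2

/-- A crowded class of near points with small wedges satisfies one exact relation. -/
theorem class_exact {β β' x E1 E2 D : ℝ} {N : ℕ} {S : Finset (ℕ × ℕ)} {t : ℕ × ℕ → ℤ}
    (hx : 0 < x) (hE1 : 0 < E1) (hE2 : 0 < E2) (hN : 0 < N)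
    (hbox : ∀ p ∈ S, InBox E1 E2 p)
    (ht : ∀ p ∈ S, |(p.1 : ℝ) * β - (p.2 : ℝ) * β' - t p| < 2 * x)
    (hw : ∀ p ∈ S, ∀ q ∈ S, |(wedge p q : ℝ)| ≤ D) (hD : 6 * x * D < 1) (hS : N < S.card) :
    ∃ (P : ℕ) (u u' : ℤ), 0 < P ∧ (P : ℝ) ≤ 4 * D / N ∧
      |(P : ℝ) * β - u| ≤ 32 * x * E1 / N ∧ |(P : ℝ) * β' - u'| ≤ 32 * x * E2 / N ∧
      ∀ p ∈ S, (P : ℤ) * t p = (p.1 : ℤ) * u - (p.2 : ℤ) * u' := by
  have hNr : (0 : ℝ) < N := by exact_mod_cast hN
  have hne : S.Nonempty := card_pos.1 (by omega)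
  have hc0 : ∀ p ∈ S, (0 : ℝ) < p.1 := fun p hp => hE2.trans (hbox p hp).1
  let f : ℕ × ℕ → ℝ := fun p => (p.2 : ℝ) / p.1
  have hfw : ∀ p ∈ S, ∀ q ∈ S, f q - f p = (wedge p q : ℝ) / ((p.1 : ℝ) * q.1) := by
    intro p hp q hq
    have := hc0 p hp
    have := hc0 q hq
    simp only [f, wedge]
    push_cast
    field_simp
  have hw0 : ∀ p ∈ S, ∀ q ∈ S, wedge p q = 0 → p = q := by
    intro p hp q hq h
    obtain ⟨-, -, b3, -, bp⟩ := hbox p hp
    refine eq_of_cross_eq bp (hbox q hq).2.2.2.2 (by exact_mod_cast hE1.trans b3) ?_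
    exact_mod_cast sub_eq_zero.1 h
  have htri : ∀ p ∈ S, ∀ q ∈ S, ∀ r ∈ S,
      t p * wedge q r + t q * wedge r p + t r * wedge p q = 0 := by
    intro p hp q hq r hr
    have e : ((t p * wedge q r + t q * wedge r p + t r * wedge p q : ℤ) : ℝ)
        = -(((p.1 : ℝ) * β - (p.2 : ℝ) * β' - t p) * (wedge q r : ℝ)
          + ((q.1 : ℝ) * β - (q.2 : ℝ) * β' - t q) * (wedge r p : ℝ)
          + ((r.1 : ℝ) * β - (r.2 : ℝ) * β' - t r) * (wedge p q : ℝ)) := by
      simp only [wedge]; push_cast; ring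
    have hb : ∀ τ w : ℝ, |τ| < 2 * x → |w| ≤ D → |τ * w| ≤ 2 * x * D := fun τ w h1 h2 => by
      rw [abs_mul]
      exact mul_le_mul h1.le h2 (abs_nonneg _) (by linarith)
    have h3 : |((t p * wedge q r + t q * wedge r p + t r * wedge p q : ℤ) : ℝ)| < 1 := by
      rw [e, abs_neg]
      refine lt_of_le_of_lt ((abs_add_three _ _ _).trans ?_) hD
      linarith [hb _ _ (ht p hp) (hw q hq r hr), hb _ _ (ht q hq) (hw r hr p hp),
        hb _ _ (ht r hr) (hw p hp q hq)]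
    exact Int.abs_lt_one_iff.1 (by exact_mod_cast h3)
  obtain ⟨pm, hm, hmin⟩ := S.exists_min_image f hne
  obtain ⟨pM, hM, hmax⟩ := S.exists_max_image f hne
  set W : ℤ := wedge pm pM with hW
  have hWpos : 0 < W := by
    by_contra h
    push Not at h
    have hle : f pM ≤ f pm := by
      rw [← sub_nonpos, hfw pm hm pM hM]
      refine div_nonpos_of_nonpos_of_nonneg (by exact_mod_cast h) ?_
      exact (mul_pos (hc0 pm hm) (hc0 pM hM)).le
    have : S.card ≤ 1 := by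
      rw [card_le_one]
      intro p hp q hq
      apply hw0 p hp q hq
      have h1 : f q - f p = 0 := by
        linarith [hmin p hp, hmin q hq, hmax p hp, hmax q hq]
      rw [hfw p hp q hq, div_eq_zero_iff] at h1
      rcases h1 with h1 | h1
      · exact_mod_cast h1
      · exact absurd h1 (mul_pos (hc0 p hp) (hc0 q hq)).ne'
    omega
  set X : ℤ := (pm.1 : ℤ) * t pM - (pM.1 : ℤ) * t pm with hX
  set Y : ℤ := (pm.2 : ℤ) * t pM - (pM.2 : ℤ) * t pm with hY
  set g : ℕ := Int.gcd (Int.gcd Y X : ℤ) W with hg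
  have hg0 : 0 < g := Int.gcd_pos_of_ne_zero_right _ hWpos.ne'
  have hg1 : ((g : ℤ) ∣ (Int.gcd Y X : ℤ)) := Int.gcd_dvd_left _ _
  obtain ⟨y, hy⟩ : (g : ℤ) ∣ Y := hg1.trans (Int.gcd_dvd_left _ _)
  obtain ⟨z, hz⟩ : (g : ℤ) ∣ X := hg1.trans (Int.gcd_dvd_right _ _)
  obtain ⟨P, hP⟩ : (g : ℤ) ∣ W := Int.gcd_dvd_right _ _
  have hgz : (0 : ℤ) < g := by exact_mod_cast hg0
  have hP0 : 0 < P := pos_of_mul_pos_right (hP ▸ hWpos) hgz.le
  have hrel : ∀ p ∈ S, P * t p = (p.1 : ℤ) * (-y) - (p.2 : ℤ) * (-z) := by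
    intro p hp
    have h := htri p hp pm hm pM hM
    apply mul_left_cancel₀ hgz.ne'
    simp only [hW, hX, hY, wedge] at hP hy hz h ⊢
    linear_combination h - (t p) * hP - (p.1 : ℤ) * hy + (p.2 : ℤ) * hz
  obtain ⟨e1, e2, e3, hbez⟩ : ∃ e1 e2 e3 : ℤ, y * e1 + z * e2 + P * e3 = 1 := by
    refine ⟨Int.gcdA Y X * Int.gcdA (Int.gcd Y X : ℤ) W,
      Int.gcdB Y X * Int.gcdA (Int.gcd Y X : ℤ) W, Int.gcdB (Int.gcd Y X : ℤ) W, ?_⟩
    apply mul_left_cancel₀ hgz.ne'
    have h1 := Int.gcd_eq_gcd_ab Y X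
    have h2 := Int.gcd_eq_gcd_ab (Int.gcd Y X : ℤ) W
    rw [← hg] at h2
    linear_combination -h2 - (Int.gcdA (Int.gcd Y X : ℤ) W) * h1
      - (Int.gcdA Y X * Int.gcdA (Int.gcd Y X : ℤ) W) * hy
      - (Int.gcdB Y X * Int.gcdA (Int.gcd Y X : ℤ) W) * hz
      - (Int.gcdB (Int.gcd Y X : ℤ) W) * hP
  have hdvd : ∀ p ∈ S, ∀ q ∈ S, P ∣ wedge p q := by
    intro p hp q hq
    have r1 := hrel p hp
    have r2 := hrel q hq
    refine ⟨e3 * wedge p q + e1 * ((p.2 : ℤ) * t q - (q.2 : ℤ) * t p)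
      + e2 * ((p.1 : ℤ) * t q - (q.1 : ℤ) * t p), ?_⟩
    simp only [wedge]
    linear_combination (-((p.1 : ℤ) * q.2 - (q.1 : ℤ) * p.2)) * hbez
      + (e1 * (q.2 : ℤ) + e2 * (q.1 : ℤ)) * r1 - (e1 * (p.2 : ℤ) + e2 * (p.1 : ℤ)) * r2
  have hPr : (0 : ℝ) < P := by exact_mod_cast hP0
  have hgr : (0 : ℝ) < g := by exact_mod_cast hg0
  have hWr : (W : ℝ) = (g : ℝ) * P := by exact_mod_cast hP
  have hNg : (N : ℝ) ≤ 4 * g := by
    have hsep := card_le_of_separated S f (lo := f pm) (σ := f pM - f pm)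
      (g := (P : ℝ) / (4 * E2 ^ 2)) (by positivity) (by linarith [hmin pM hM])
      (fun p hp => ⟨hmin p hp, by linarith [hmax p hp]⟩) ?_
    · have h1 : ((N : ℝ) + 1) ≤ S.card := by exact_mod_cast hS
      have h2 : f pM - f pm ≤ (W : ℝ) / E2 ^ 2 := by
        rw [hfw pm hm pM hM]
        refine div_le_div_of_nonneg_left (by exact_mod_cast hWpos.le) (by positivity) ?_
        rw [sq]
        exact mul_le_mul (hbox pm hm).1.le (hbox pM hM).1.le hE2.le (hc0 pm hm).le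
      have h3 : (f pM - f pm) / ((P : ℝ) / (4 * E2 ^ 2)) ≤ 4 * g := by
        refine (div_le_div_of_nonneg_right h2 (by positivity)).trans_eq ?_
        rw [hWr]; field_simp
      linarith
    · intro p hp q hq hne
      have h1 : P ≤ |wedge p q| :=
        Int.le_of_dvd (abs_pos.2 fun h => hne (hw0 p hp q hq h)) ((dvd_abs _ _).2 (hdvd p hp q hq))
      have h1' : (P : ℝ) ≤ |(wedge p q : ℝ)| := by exact_mod_cast h1
      rw [abs_sub_comm, hfw p hp q hq, abs_div,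
        abs_of_pos (mul_pos (hc0 p hp) (hc0 q hq))]
      refine div_le_div₀ (abs_nonneg _) h1' (mul_pos (hc0 p hp) (hc0 q hq)) ?_
      calc (p.1 : ℝ) * q.1 ≤ (2 * E2) * (2 * E2) :=
            mul_le_mul (hbox p hp).2.1 (hbox q hq).2.1 (hc0 q hq).le (by linarith)
        _ = 4 * E2 ^ 2 := by ring
  have hτ : ∀ a b U V : ℝ, |a| ≤ U → |b| ≤ U → |V| * (g : ℝ) ≤ (|a| + |b|) * (2 * x) →
      |V| ≤ 16 * x * U / N := by
    intro a b U V h1 h2 h3
    rw [le_div_iff₀ hNr]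
    have := mul_le_mul_of_nonneg_left hNg (abs_nonneg V)
    have := mul_le_mul_of_nonneg_right (add_le_add h1 h2) (show 0 ≤ 2 * x by linarith)
    linarith
  have hcomb : ∀ a b V : ℝ, (g : ℝ) * V = a * ((pm.1 : ℝ) * β - (pm.2 : ℝ) * β' - t pm)
      - b * ((pM.1 : ℝ) * β - (pM.2 : ℝ) * β' - t pM) →
      |V| * (g : ℝ) ≤ (|a| + |b|) * (2 * x) := by
    intro a b V h
    rw [← abs_of_pos hgr, ← abs_mul, mul_comm V, h]
    refine (abs_sub _ _).trans ?_
    rw [abs_mul, abs_mul, add_mul]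
    exact add_le_add (mul_le_mul_of_nonneg_left (ht pm hm).le (abs_nonneg _))
      (mul_le_mul_of_nonneg_left (ht pM hM).le (abs_nonneg _))
  obtain ⟨-, hm2, -, hm4, -⟩ := hbox pm hm
  obtain ⟨-, hM2, -, hM4, -⟩ := hbox pM hM
  have hyr : (Y : ℝ) = (g : ℝ) * y := by exact_mod_cast hy
  have hzr : (X : ℝ) = (g : ℝ) * z := by exact_mod_cast hz
  have hPn : (P.toNat : ℝ) = (P : ℝ) := by exact_mod_cast Int.toNat_of_nonneg hP0.le
  refine ⟨P.toNat, -y, -z, by omega, ?_, ?_, ?_, fun p hp => ?_⟩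
  · rw [hPn, le_div_iff₀ hNr]
    have h1 := (le_abs_self (W : ℝ)).trans (hw pm hm pM hM)
    have h2 := mul_le_mul_of_nonneg_left hNg hPr.le
    rw [hWr] at h1
    linarith
  · rw [hPn]
    refine (hτ _ _ (2 * E1) _ ?_ ?_
      (hcomb (pM.2 : ℝ) (pm.2 : ℝ) _ ?_)).trans_eq (by ring)
    · rwa [Nat.abs_cast]
    · rwa [Nat.abs_cast]
    · push_cast
      rw [sub_neg_eq_add, mul_add, ← hyr, ← mul_assoc, ← hWr, hY, hW, wedge]
      push_cast
      ring
  · rw [hPn]
    refine (hτ _ _ (2 * E2) _ ?_ ?_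
      (hcomb (pM.1 : ℝ) (pm.1 : ℝ) _ ?_)).trans_eq (by ring)
    · rwa [Nat.abs_cast]
    · rwa [Nat.abs_cast]
    · push_cast
      rw [sub_neg_eq_add, mul_add, ← hzr, ← mul_assoc, ← hWr, hX, hW, wedge]
      push_cast
      ring
  · rw [Int.toNat_of_nonneg hP0.le]
    exact hrel p hp

/-- Cut the slopes into `k` intervals, so that the near points of one interval are coplanar with the
origin; an interval with more than `N` points yields an exact relation for all of its points. -/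
theorem exists_count :
    ∃ C : ℝ, 0 < C ∧ ∀ (β β' x E1 E2 : ℝ) (k N : ℕ) (R : Finset (ℕ × ℕ)),
      0 < x → 1 / 2 ≤ E1 → 1 / 2 ≤ E2 → 0 < k → 0 < N → C * x * (E1 * E2) < k →
      (∀ p ∈ R, InBox E1 E2 p ∧ Near β β' x p) →
      ∃ R' : Finset (ℕ × ℕ), R' ⊆ R ∧ R'.card ≤ k * N ∧
        ∀ p ∈ R \ R', ExactRel β β' x (C * (E1 * E2) / (k * N)) (C * x * E1 / N)
          (C * x * E2 / N) p := by
  refine ⟨48, by norm_num, fun β β' x E1 E2 k N R hx hE1 hE2 hk hN hkx hR => ?_⟩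
  have hE1' : 0 < E1 := by linarith
  have hE2' : 0 < E2 := by linarith
  have hkr : (0 : ℝ) < k := by exact_mod_cast hk
  choose! t ht using fun p hp => (hR p hp).2
  let v : ℕ × ℕ → ℝ := fun p => (p.2 : ℝ) / p.1 * (E2 / E1) * k / 2
  let idx : ℕ × ℕ → ℕ := fun p => ⌊v p⌋₊
  let cls : ℕ → Finset (ℕ × ℕ) := fun i => R.filter fun p => idx p = i
  refine ⟨R.filter fun p => (cls (idx p)).card ≤ N, filter_subset _ _, ?_, ?_⟩
  · have hidx : ((R.filter fun p => (cls (idx p)).card ≤ N).image idx).card ≤ k := by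
      refine (card_le_card fun i hi => ?_).trans (card_range k).le
      obtain ⟨p, hp, rfl⟩ := mem_image.1 hi
      obtain ⟨b1, -, -, b4, -⟩ := (hR p (mem_filter.1 hp).1).1
      have hp1 : (0 : ℝ) < p.1 := hE2'.trans b1
      refine mem_range.2 ((Nat.floor_lt (by positivity)).2 ?_)
      have h1 : (p.2 : ℝ) / p.1 * (E2 / E1) < 2 := by
        rw [div_mul_div_comm, div_lt_iff₀ (by positivity)]
        have h5 := mul_le_mul_of_nonneg_right b4 hE2'.le
        have h6 := mul_lt_mul_of_pos_left b1 hE1'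
        linarith
      have h7 := mul_lt_mul_of_pos_right h1 hkr
      simp only [v]
      linarith
    refine (card_le_mul_card_image (f := idx) _ N fun i hi => ?_).trans ?_
    · obtain ⟨p, hp, rfl⟩ := mem_image.1 hi
      refine le_trans (card_le_card fun q hq => ?_) (mem_filter.1 hp).2
      simp only [mem_filter] at hq
      exact mem_filter.2 ⟨hq.1.1, hq.2⟩
    · rw [mul_comm k N]
      exact Nat.mul_le_mul_left N hidx
  · intro p hp
    simp only [mem_sdiff, mem_filter, not_and, not_le] at hp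
    obtain ⟨hpR, hpc⟩ := hp
    have hmem : ∀ q ∈ cls (idx p), q ∈ R ∧ idx q = idx p := fun q hq => mem_filter.1 hq
    have hD : 6 * x * (8 * (E1 * E2) / k) < 1 := by
      rw [mul_div_assoc', div_lt_one hkr]; linarith
    have hw : ∀ a ∈ cls (idx p), ∀ b ∈ cls (idx p), |(wedge a b : ℝ)| ≤ 8 * (E1 * E2) / k := by
      intro a ha b hb
      obtain ⟨haR, hai⟩ := hmem a ha
      obtain ⟨hbR, hbi⟩ := hmem b hb
      obtain ⟨a1, a2, -⟩ := (hR a haR).1
      obtain ⟨b1, b2, -⟩ := (hR b hbR).1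
      have ha1 : (0 : ℝ) < a.1 := hE2'.trans a1
      have hb1 : (0 : ℝ) < b.1 := hE2'.trans b1
      have hva : 0 ≤ v a := by positivity
      have hvb : 0 ≤ v b := by positivity
      have f1 := Nat.floor_le hva
      have f2 := Nat.lt_floor_add_one (v a)
      have f3 := Nat.floor_le hvb
      have f4 := Nat.lt_floor_add_one (v b)
      simp only [idx] at hai hbi
      rw [hai] at f1 f2
      rw [hbi] at f3 f4
      have hlt : |v b - v a| < 1 := by
        rw [abs_lt]; constructor <;> linarith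
      have e : v b - v a = (wedge a b : ℝ) * (E2 * k) / (2 * E1 * ((a.1 : ℝ) * b.1)) := by
        simp only [v, wedge]; push_cast; field_simp
      rw [e, abs_div, abs_mul, abs_of_pos (show 0 < E2 * k by positivity),
        abs_of_pos (show 0 < 2 * E1 * ((a.1 : ℝ) * b.1) by positivity),
        div_lt_one (by positivity)] at hlt
      rw [le_div_iff₀ hkr]
      have h1 : (a.1 : ℝ) * b.1 ≤ (2 * E2) * (2 * E2) := mul_le_mul a2 b2 hb1.le (by linarith)
      have h2 := mul_le_mul_of_nonneg_left h1 (show 0 ≤ 2 * E1 by linarith)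
      refine le_of_mul_le_mul_left ?_ hE2'
      linarith
    obtain ⟨P, u, u', hP0, hPQ, hu, hu', hrel⟩ := class_exact hx hE1' hE2' hN
      (fun q hq => (hR q (hmem q hq).1).1) (fun q hq => ht q (hmem q hq).1) hw hD (hpc hpR)
    refine ⟨P, u, u', t p, hP0, hPQ.trans ?_, hu.trans ?_, hu'.trans ?_, ht p hpR,
      hrel p (mem_filter.2 ⟨hpR, rfl⟩)⟩
    · rw [mul_div_assoc', div_div]
      exact div_le_div_of_nonneg_right (by
        linarith [mul_pos hE1' hE2']) (by positivity)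
    · gcongr; norm_num
    · gcongr; norm_num

end Vale.Agent.P028.Lift
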