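import Vale.Agent.P028.Lift.Matching
import Vale.Agent.P028.NumberLemmas

/-!
The three-path inequality for a set of ratios equidistributed on sublattices.

Cauchy's inequality bounds the cube of the weight by the weight of the paths `w₁ — v — w — v₁`.
For fixed ends the three ratios of a path multiply to the ratio of the ends, so the hypothesis on
sublattices bounds their number; the weight of the ends is the bilinear input.
-/

noncomputable section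

namespace Vale.Agent.P028.Lift

open Finset

/-- `τ(n) ≤ C n ^ δ`. -/
private theorem exists_divisors_le_rpow (δ : ℝ) (hδ : 0 < δ) :
    ∃ C : ℝ, 0 < C ∧ ∀ n : ℕ, 0 < n → (n.divisors.card : ℝ) ≤ C * (n : ℝ) ^ δ := by
  obtain ⟨C, L0, hC, hdiv⟩ := exists_divisors_card_le
  set L1 : ℝ := max (max L0 2) (Real.exp (C / δ)) with hL1
  refine ⟨Real.exp (δ * L1), Real.exp_pos _, fun n hn => ?_⟩
  have hn1 : (1 : ℝ) ≤ n := by exact_mod_cast hn
  have hlog : 0 ≤ Real.log (n : ℝ) := Real.log_nonneg hn1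
  set L : ℝ := max L1 (Real.log n) with hL
  have hLe : L0 ≤ L := ((le_max_left _ _).trans (le_max_left _ _)).trans (le_max_left _ _)
  have hL2 : 2 ≤ L := ((le_max_right _ _).trans (le_max_left _ _)).trans (le_max_left _ _)
  have hLexp : Real.exp (C / δ) ≤ L := (le_max_right _ _).trans (le_max_left _ _)
  have hnL : (n : ℝ) ≤ Real.exp L := by
    calc (n : ℝ) = Real.exp (Real.log n) := (Real.exp_log (by linarith)).symm
      _ ≤ _ := Real.exp_le_exp.2 (le_max_right _ _)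
  refine (hdiv L hLe n hn hnL).trans ?_
  rw [Real.rpow_def_of_pos (by linarith : (0 : ℝ) < n), ← Real.exp_add, Real.exp_le_exp]
  have h1 : C / δ ≤ Real.log L := (Real.le_log_iff_exp_le (by linarith)).2 hLexp
  have hlogL : 0 < Real.log L := Real.log_pos (by linarith)
  have h2 : C * L / Real.log L ≤ δ * L := by
    rw [div_le_iff₀ hlogL]
    rw [div_le_iff₀ hδ] at h1
    calc C * L ≤ Real.log L * δ * L := mul_le_mul_of_nonneg_right h1 (by linarith)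
      _ = δ * L * Real.log L := by ring
  refine h2.trans ?_
  rw [mul_comm (Real.log _) δ, ← mul_add]
  refine mul_le_mul_of_nonneg_left (max_le (by linarith) ?_) hδ.le
  have : 0 ≤ L1 := le_trans (by norm_num) ((le_max_right L0 2).trans (le_max_left _ _))
  linarith

/-- The three-path inequality. -/
private theorem three_path {α β : Type*} [DecidableEq α] [DecidableEq β] (E : Finset (α × β))
    (a : α → ℝ) (b : β → ℝ) (V : Finset α) (W : Finset β)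
    (hE : ∀ e ∈ E, e.1 ∈ V ∧ e.2 ∈ W) (ha : ∀ v, 0 ≤ a v) (hb : ∀ w, 0 ≤ b w) :
    (∑ e ∈ E, a e.1 * b e.2) ^ 3 ≤
      (∑ e ∈ E, a e.1 * b e.2 * ((∑ f ∈ E.filter (fun f => f.1 = e.1), b f.2) *
          ∑ f ∈ E.filter (fun f => f.2 = e.2), a f.1)) *
        ((∑ v ∈ V, a v) * ∑ w ∈ W, b w) := by
  set d : α → ℝ := fun v => ∑ f ∈ E.filter (fun f => f.1 = v), b f.2 with hd
  set d' : β → ℝ := fun w => ∑ f ∈ E.filter (fun f => f.2 = w), a f.1 with hd'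
  set S := ∑ e ∈ E, a e.1 * b e.2 with hS
  have hd0 : ∀ v, 0 ≤ d v := fun v => sum_nonneg fun f _ => hb _
  have hd'0 : ∀ w, 0 ≤ d' w := fun w => sum_nonneg fun f _ => ha _
  have hab : ∀ e : α × β, 0 ≤ a e.1 * b e.2 := fun e => mul_nonneg (ha _) (hb _)
  set T := ∑ e ∈ E, a e.1 * b e.2 * Real.sqrt (d e.1 * d' e.2) with hT
  set U := ∑ e ∈ E, a e.1 * b e.2 / Real.sqrt (d e.1 * d' e.2) with hU
  set P := ∑ e ∈ E, a e.1 * b e.2 * (d e.1 * d' e.2) with hP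
  have hS0 : 0 ≤ S := sum_nonneg fun e _ => hab e
  have hT0 : 0 ≤ T := sum_nonneg fun e _ => mul_nonneg (hab e) (Real.sqrt_nonneg _)
  have hU0 : 0 ≤ U := sum_nonneg fun e _ => div_nonneg (hab e) (Real.sqrt_nonneg _)
  have hP0 : 0 ≤ P := sum_nonneg fun e _ => mul_nonneg (hab e) (mul_nonneg (hd0 _) (hd'0 _))
  have hpos : ∀ e ∈ E, a e.1 * b e.2 ≠ 0 → 0 < d e.1 ∧ 0 < d' e.2 := by
    intro e he hne
    have hbe : 0 < b e.2 := lt_of_le_of_ne (hb _) (Ne.symm (right_ne_zero_of_mul hne))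
    have hae : 0 < a e.1 := lt_of_le_of_ne (ha _) (Ne.symm (left_ne_zero_of_mul hne))
    constructor
    · exact hbe.trans_le (single_le_sum (f := fun f : α × β => b f.2) (fun f _ => hb _)
        (mem_filter.2 ⟨he, rfl⟩))
    · exact hae.trans_le (single_le_sum (f := fun f : α × β => a f.1) (fun f _ => ha _)
        (mem_filter.2 ⟨he, rfl⟩))
  have h1 : S ^ 2 ≤ T * U := by
    refine sum_sq_le_sum_mul_sum_of_sq_le_mul E (fun e _ => mul_nonneg (hab e) (Real.sqrt_nonneg _))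
      (fun e _ => div_nonneg (hab e) (Real.sqrt_nonneg _)) fun e he => ?_
    by_cases hne : a e.1 * b e.2 = 0
    · simp [hne]
    obtain ⟨h1, h2⟩ := hpos e he hne
    have hs : 0 < Real.sqrt (d e.1 * d' e.2) := Real.sqrt_pos.2 (mul_pos h1 h2)
    exact le_of_eq (by field_simp)
  have h2 : T ^ 2 ≤ S * P := by
    refine sum_sq_le_sum_mul_sum_of_sq_le_mul E (fun e _ => hab e)
      (fun e _ => mul_nonneg (hab e) (mul_nonneg (hd0 _) (hd'0 _))) fun e _ => ?_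
    rw [mul_pow, Real.sq_sqrt (mul_nonneg (hd0 _) (hd'0 _))]
    exact le_of_eq (by ring)
  have h3 : U ^ 2 ≤ (∑ e ∈ E, a e.1 * b e.2 / d e.1) * ∑ e ∈ E, a e.1 * b e.2 / d' e.2 := by
    refine sum_sq_le_sum_mul_sum_of_sq_le_mul E (fun e _ => div_nonneg (hab e) (hd0 _))
      (fun e _ => div_nonneg (hab e) (hd'0 _)) fun e _ => ?_
    rw [div_pow, Real.sq_sqrt (mul_nonneg (hd0 _) (hd'0 _)), div_mul_div_comm, sq]
  have h4 : ∑ e ∈ E, a e.1 * b e.2 / d e.1 ≤ ∑ v ∈ V, a v := by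
    rw [← sum_fiberwise_of_maps_to (g := Prod.fst) (fun e he => (hE e he).1)]
    refine sum_le_sum fun v _ => ?_
    calc ∑ e ∈ E.filter (fun e => e.1 = v), a e.1 * b e.2 / d e.1
        = ∑ e ∈ E.filter (fun e => e.1 = v), a v / d v * b e.2 :=
          sum_congr rfl fun e he => by rw [(mem_filter.1 he).2]; ring
      _ = a v / d v * d v := by rw [← mul_sum]
      _ ≤ a v := by
          rcases eq_or_ne (d v) 0 with h | h
          · rw [h, mul_zero]; exact ha v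
          · rw [div_mul_cancel₀ _ h]
  have h5 : ∑ e ∈ E, a e.1 * b e.2 / d' e.2 ≤ ∑ w ∈ W, b w := by
    rw [← sum_fiberwise_of_maps_to (g := Prod.snd) (fun e he => (hE e he).2)]
    refine sum_le_sum fun w _ => ?_
    calc ∑ e ∈ E.filter (fun e => e.2 = w), a e.1 * b e.2 / d' e.2
        = ∑ e ∈ E.filter (fun e => e.2 = w), b w / d' w * a e.1 :=
          sum_congr rfl fun e he => by rw [(mem_filter.1 he).2]; ring
      _ = b w / d' w * d' w := by rw [← mul_sum]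
      _ ≤ b w := by
          rcases eq_or_ne (d' w) 0 with h | h
          · rw [h, mul_zero]; exact hb w
          · rw [div_mul_cancel₀ _ h]
  have hMM : U ^ 2 ≤ (∑ v ∈ V, a v) * ∑ w ∈ W, b w :=
    h3.trans (mul_le_mul h4 h5 (sum_nonneg fun e _ => div_nonneg (hab e) (hd'0 _))
      (sum_nonneg fun v _ => ha v))
  show S ^ 3 ≤ P * ((∑ v ∈ V, a v) * ∑ w ∈ W, b w)
  rcases eq_or_lt_of_le hS0 with h | h
  · rw [← h]
    simpa using mul_nonneg hP0
      (mul_nonneg (sum_nonneg fun v _ => ha v) (sum_nonneg fun w _ => hb w))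
  refine le_of_mul_le_mul_left ?_ h
  calc S * S ^ 3 = (S ^ 2) ^ 2 := by ring
    _ ≤ (T * U) ^ 2 := pow_le_pow_left₀ (sq_nonneg _) h1 2
    _ = T ^ 2 * U ^ 2 := by ring
    _ ≤ S * P * ((∑ v ∈ V, a v) * ∑ w ∈ W, b w) :=
        mul_le_mul h2 hMM (sq_nonneg _) (mul_nonneg hS0 hP0)
    _ = _ := by ring

/-- Two coprime positive pairs with the same ratio are equal. -/
private theorem eq_of_coprime_of_mul_eq {c a c' a' : ℕ} (h : Nat.Coprime c a)
    (h' : Nat.Coprime c' a') (e : a * c' = a' * c) : c = c' ∧ a = a' := by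
  constructor
  · refine Nat.dvd_antisymm (h.dvd_of_dvd_mul_left ⟨a', by rw [e, mul_comm]⟩) ?_
    exact h'.dvd_of_dvd_mul_left ⟨a, by rw [← e, mul_comm]⟩
  · refine Nat.dvd_antisymm (h.symm.dvd_of_dvd_mul_right ⟨c', e.symm⟩) ?_
    exact h'.symm.dvd_of_dvd_mul_right ⟨c, e⟩

/-- The triples of ratios of the paths between ends of ratio `C' / A'`. -/
private def paths (R : Finset (ℕ × ℕ)) (C' A' : ℕ) : Finset ((ℕ × ℕ) × (ℕ × ℕ) × (ℕ × ℕ)) :=
  (R ×ˢ R ×ˢ R).filter fun t =>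
    C' * t.1.2 * t.2.1.1 * t.2.2.2 = A' * t.1.1 * t.2.1.2 * t.2.2.1

/-- A number of ratios, as a function of the middle one. -/
private def fibre (R : Finset (ℕ × ℕ)) (C' A' : ℕ) (r : ℕ × ℕ) :
    Finset ((ℕ × ℕ) × (ℕ × ℕ)) :=
  (R ×ˢ R).filter fun t => C' * t.1.2 * r.1 * t.2.2 = A' * t.1.1 * r.2 * t.2.1

/-- The scale of the ends. -/
private def scale (E1 E2 : ℝ) (C' A' : ℕ) : ℝ := max ((C' : ℝ) / E2) ((A' : ℝ) / E1)

/-- In a fibre either ratio determines the other one. -/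
private theorem fibre_unique {E1 E2 : ℝ} {R : Finset (ℕ × ℕ)}
    (hpos : ∀ p ∈ R, 0 < p.1 ∧ 0 < p.2) (hbox : ∀ p ∈ R, InBox E1 E2 p) {C' A' : ℕ}
    (hC' : 0 < C') (hA' : 0 < A') {r : ℕ × ℕ} (hr1 : 0 < r.1) (hr2 : 0 < r.2)
    {t t' : (ℕ × ℕ) × (ℕ × ℕ)} (ht : t ∈ fibre R C' A' r) (ht' : t' ∈ fibre R C' A' r) :
    (t.1 = t'.1 → t = t') ∧ (t.2 = t'.2 → t = t') := by
  have h := mem_filter.1 ht
  have h' := mem_filter.1 ht'
  obtain ⟨hh1, hh3⟩ := mem_product.1 h.1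
  obtain ⟨hh1', hh3'⟩ := mem_product.1 h'.1
  have e1 := h.2
  have e1' := h'.2
  refine ⟨fun e => ?_, fun e => ?_⟩
  · obtain ⟨q1, q1'⟩ := hpos _ hh1
    rw [← e] at e1'
    have key : t.2.2 * t'.2.1 = t'.2.2 * t.2.1 := by
      refine Nat.eq_of_mul_eq_mul_left
        (Nat.mul_pos (Nat.mul_pos hC' q1') hr1) ?_
      refine Nat.eq_of_mul_eq_mul_left (Nat.mul_pos (Nat.mul_pos hA' q1) hr2) ?_
      calc A' * t.1.1 * r.2 * (C' * t.1.2 * r.1 * (t.2.2 * t'.2.1))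
          = (C' * t.1.2 * r.1 * t.2.2) * (A' * t.1.1 * r.2 * t'.2.1) := by ring
        _ = (A' * t.1.1 * r.2 * t.2.1) * (C' * t.1.2 * r.1 * t'.2.2) := by rw [e1, ← e1']
        _ = _ := by ring
    obtain ⟨u1, u2⟩ := eq_of_coprime_of_mul_eq (hbox _ hh3).2.2.2.2 (hbox _ hh3').2.2.2.2 key
    exact Prod.ext e (Prod.ext u1 u2)
  · obtain ⟨q1, q1'⟩ := hpos _ hh3
    rw [← e] at e1'
    have key : t.1.2 * t'.1.1 = t'.1.2 * t.1.1 := by
      refine Nat.eq_of_mul_eq_mul_left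
        (Nat.mul_pos (Nat.mul_pos hC' q1') hr1) ?_
      refine Nat.eq_of_mul_eq_mul_left (Nat.mul_pos (Nat.mul_pos hA' q1) hr2) ?_
      calc A' * t.2.1 * r.2 * (C' * t.2.2 * r.1 * (t.1.2 * t'.1.1))
          = (C' * t.1.2 * r.1 * t.2.2) * (A' * t'.1.1 * r.2 * t.2.1) := by ring
        _ = (A' * t.1.1 * r.2 * t.2.1) * (C' * t'.1.2 * r.1 * t.2.2) := by rw [e1, ← e1']
        _ = _ := by ring
    obtain ⟨u1, u2⟩ := eq_of_coprime_of_mul_eq (hbox _ hh1).2.2.2.2 (hbox _ hh1').2.2.2.2 key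
    exact Prod.ext (Prod.ext u1 u2) e

/-- Two complementary products of a balanced pair cannot both be small. -/
private theorem one_big {E1 E2 Z G P Q C A c a u v : ℝ} (hE1 : 0 < E1) (hE2 : 0 < E2)
    (hC : 0 < C) (hA : 0 < A) (hG : 0 ≤ G) (hu : 0 ≤ u) (hv : 0 ≤ v) (huv : u * v = P * Q)
    (hP : P * G = C * c) (hQ : Q * G = A * a) (hc : E2 ≤ c) (ha : E1 ≤ a)
    (hZZ : Z ^ 2 * (E1 * E2) ≤ 8 * (C * A)) :
    Z * (E1 * E2) ≤ 3 * G * u ∨ Z * (E1 * E2) ≤ 3 * G * v := by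
  by_contra h
  push Not at h
  have h1 := mul_lt_mul'' h.1 h.2 (by positivity) (by positivity)
  have h2 : 3 * G * u * (3 * G * v) = 9 * (C * c) * (A * a) := by
    rw [← hP, ← hQ, show 9 * (P * G) * (Q * G) = 9 * (P * Q) * G * G by ring, ← huv]; ring
  rw [h2] at h1
  have h4 : 9 * (C * E2) * (A * E1) ≤ 9 * (C * c) * (A * a) :=
    mul_le_mul (mul_le_mul_of_nonneg_left (mul_le_mul_of_nonneg_left hc hC.le) (by norm_num))
      (mul_le_mul_of_nonneg_left ha hA.le) (by positivity) (by nlinarith)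
  have h5 := mul_le_mul_of_nonneg_right hZZ (show (0 : ℝ) ≤ E1 * E2 by positivity)
  have h6 : 0 < C * A * (E1 * E2) := by positivity
  nlinarith

/-- The size data of one path. -/
private theorem fibre_size {E1 E2 : ℝ} (hE1 : 0 < E1) (hE2 : 0 < E2) {C' A' : ℕ}
    {t : (ℕ × ℕ) × (ℕ × ℕ)} {r : ℕ × ℕ} (h1 : InBox E1 E2 t.1) (h2 : InBox E1 E2 r)
    (h3 : InBox E1 E2 t.2) (hte : C' * t.1.2 * r.1 * t.2.2 = A' * t.1.1 * r.2 * t.2.1) :
    (max ((C' : ℝ) / E2) ((A' : ℝ) / E1)) ^ 2 * (E1 * E2) ≤ 8 * ((C' : ℝ) * A') := by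
  have hE10 := hE1
  have hE20 := hE2
  obtain ⟨b1, b1', b2, b2', -⟩ := h1
  obtain ⟨hc2, hc2', ha2, ha2', -⟩ := h2
  obtain ⟨d1, d1', d2, d2', -⟩ := h3
  -- balance of the ends
  have hbal : (C' : ℝ) * E1 ≤ 8 * A' * E2 ∧ (A' : ℝ) * E2 ≤ 8 * C' * E1 := by
    have e : (C' : ℝ) * t.1.2 * r.1 * t.2.2 = (A' : ℝ) * t.1.1 * r.2 * t.2.1 := by
      exact_mod_cast hte
    constructor
    · refine le_of_mul_le_mul_right ?_ (mul_pos hE20 hE10)
      calc (C' : ℝ) * E1 * (E2 * E1) = (C' : ℝ) * E1 * E2 * E1 := by ring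
        _ ≤ (C' : ℝ) * t.1.2 * r.1 * t.2.2 := by gcongr
        _ = _ := e
        _ ≤ (A' : ℝ) * (2 * E2) * (2 * E1) * (2 * E2) := by gcongr
        _ = _ := by ring
    · refine le_of_mul_le_mul_right ?_ (mul_pos hE20 hE10)
      calc (A' : ℝ) * E2 * (E2 * E1) = (A' : ℝ) * E2 * E1 * E2 := by ring
        _ ≤ (A' : ℝ) * t.1.1 * r.2 * t.2.1 := by gcongr
        _ = _ := e.symm
        _ ≤ (C' : ℝ) * (2 * E1) * (2 * E2) * (2 * E1) := by gcongr
        _ = _ := by ring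
  rcases max_choice ((C' : ℝ) / E2) ((A' : ℝ) / E1) with h | h <;> rw [h, div_pow]
  · rw [div_mul_eq_mul_div, div_le_iff₀ (by positivity)]
    nlinarith [mul_le_mul_of_nonneg_left hbal.1 (show (0 : ℝ) ≤ (C' : ℝ) * E2 by positivity)]
  · rw [div_mul_eq_mul_div, div_le_iff₀ (by positivity)]
    nlinarith [mul_le_mul_of_nonneg_left hbal.2 (show (0 : ℝ) ≤ (A' : ℝ) * E1 by positivity)]

/-- The size of a fibre with given reduced data `P`, `Q`, `G`. -/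
private theorem fibre_card {E1 E2 K L : ℝ} {R : Finset (ℕ × ℕ)} (hE10 : 0 < E1) (hE20 : 0 < E2)
    (hK : 1 ≤ K) (hL : 0 ≤ L) (hbox : ∀ p ∈ R, InBox E1 E2 p)
    (hpos : ∀ p ∈ R, 0 < p.1 ∧ 0 < p.2)
    (hsub : ∀ d1 d2 : ℕ, 0 < d1 → 0 < d2 →
      ((R.filter (fun p => d1 ∣ p.1 ∧ d2 ∣ p.2)).card : ℝ) ≤
        K * (L * (E1 * E2 / (d1 * d2)) + 1))
    {C' A' : ℕ} (hC' : 0 < C') (hA' : 0 < A') {r : ℕ × ℕ} (hr : r ∈ R) {P Q G : ℕ}
    (hPp : 0 < P) (hQp : 0 < Q) (hPG : P * G = C' * r.1) (hQG : Q * G = A' * r.2)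
    (hdiv : ∀ t ∈ fibre R C' A' r, P ∣ t.1.1 * t.2.1 ∧ Q ∣ t.1.2 * t.2.2) {Z : ℝ} (hZ0 : 0 < Z)
    (hZZ : Z ^ 2 * (E1 * E2) ≤ 8 * ((C' : ℝ) * A')) :
    ((fibre R C' A' r).card : ℝ) ≤
      (P.divisors.card : ℝ) * Q.divisors.card * (K * (3 * L * G / Z + 1)) := by
  obtain ⟨hr1, hr2⟩ := hpos r hr
  obtain ⟨hc2, -, ha2, -, -⟩ := hbox r hr
  have hPGr : (P : ℝ) * G = (C' : ℝ) * r.1 := by exact_mod_cast hPG
  have hQGr : (Q : ℝ) * G = (A' : ℝ) * r.2 := by exact_mod_cast hQG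
  -- one piece for each splitting of `P` and `Q`
  set piece : ℕ × ℕ → Finset ((ℕ × ℕ) × (ℕ × ℕ)) := fun pq =>
    (fibre R C' A' r).filter fun t =>
      pq.1 ∣ t.1.1 ∧ pq.2 ∣ t.1.2 ∧ P / pq.1 ∣ t.2.1 ∧ Q / pq.2 ∣ t.2.2 with hpiece
  have hcover : fibre R C' A' r ⊆ (P.divisors ×ˢ Q.divisors).biUnion piece := by
    intro t ht
    obtain ⟨h1, h2⟩ := hdiv t ht
    obtain ⟨p, p', hp, hp', hpe⟩ := Nat.dvd_mul.1 h1
    obtain ⟨s, s', hs, hs', hse⟩ := Nat.dvd_mul.1 h2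
    have hp0 : 0 < p := Nat.pos_of_ne_zero fun h => hPp.ne' (by rw [← hpe, h, zero_mul])
    have hs0 : 0 < s := Nat.pos_of_ne_zero fun h => hQp.ne' (by rw [← hse, h, zero_mul])
    refine mem_biUnion.2 ⟨(p, s), mem_product.2
      ⟨Nat.mem_divisors.2 ⟨Dvd.intro _ hpe, hPp.ne'⟩,
        Nat.mem_divisors.2 ⟨Dvd.intro _ hse, hQp.ne'⟩⟩,
      mem_filter.2 ⟨ht, hp, hs, ?_, ?_⟩⟩
    · rw [show P / p = p' by rw [← hpe, Nat.mul_div_cancel_left _ hp0]]
      exact hp'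
    · rw [show Q / s = s' by rw [← hse, Nat.mul_div_cancel_left _ hs0]]
      exact hs'
  have hone : ∀ pq ∈ P.divisors ×ˢ Q.divisors,
      ((piece pq).card : ℝ) ≤ K * (3 * L * G / Z + 1) := by
    rintro ⟨p, s⟩ hpq
    obtain ⟨hp, hs⟩ := mem_product.1 hpq
    have hpd := (Nat.mem_divisors.1 hp).1
    have hsd := (Nat.mem_divisors.1 hs).1
    have hp0 : 0 < p := Nat.pos_of_mem_divisors hp
    have hs0 : 0 < s := Nat.pos_of_mem_divisors hs
    have hp'0 : 0 < P / p := Nat.div_pos (Nat.le_of_dvd hPp hpd) hp0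
    have hs'0 : 0 < Q / s := Nat.div_pos (Nat.le_of_dvd hQp hsd) hs0
    have hleft : (piece (p, s)).card ≤ (R.filter fun x => p ∣ x.1 ∧ s ∣ x.2).card := by
      refine card_le_card_of_injOn Prod.fst (fun t ht => ?_) fun t ht t' ht' e => ?_
      · obtain ⟨h1, h2, h3, -⟩ := mem_filter.1 ht
        exact mem_filter.2 ⟨(mem_product.1 (mem_filter.1 h1).1).1, h2, h3⟩
      · exact (fibre_unique hpos hbox hC' hA' hr1 hr2 (mem_filter.1 ht).1 (mem_filter.1 ht').1).1 e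
    have hright : (piece (p, s)).card ≤
        (R.filter fun x => P / p ∣ x.1 ∧ Q / s ∣ x.2).card := by
      refine card_le_card_of_injOn Prod.snd (fun t ht => ?_) fun t ht t' ht' e => ?_
      · obtain ⟨h1, -, -, h4, h5⟩ := mem_filter.1 ht
        exact mem_filter.2 ⟨(mem_product.1 (mem_filter.1 h1).1).2, h4, h5⟩
      · exact (fibre_unique hpos hbox hC' hA' hr1 hr2 (mem_filter.1 ht).1 (mem_filter.1 ht').1).2 e
    have hprod : ((p : ℝ) * s) * (((P / p : ℕ) : ℝ) * ((Q / s : ℕ) : ℝ)) = (P : ℝ) * Q := by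
      have e1 : (p : ℝ) * ((P / p : ℕ) : ℝ) = P := by exact_mod_cast Nat.mul_div_cancel' hpd
      have e2 : (s : ℝ) * ((Q / s : ℕ) : ℝ) = Q := by exact_mod_cast Nat.mul_div_cancel' hsd
      calc ((p : ℝ) * s) * (((P / p : ℕ) : ℝ) * ((Q / s : ℕ) : ℝ))
          = ((p : ℝ) * ((P / p : ℕ) : ℝ)) * ((s : ℝ) * ((Q / s : ℕ) : ℝ)) := by ring
        _ = _ := by rw [e1, e2]
    have hbig := one_big hE10 hE20 (C := (C' : ℝ)) (A := (A' : ℝ)) (by exact_mod_cast hC')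
      (by exact_mod_cast hA') (Nat.cast_nonneg G) (by positivity) (by positivity) hprod hPGr hQGr
      hc2.le ha2.le hZZ
    have hconv : ∀ y : ℝ, 0 < y → Z * (E1 * E2) ≤ 3 * G * y →
        L * (E1 * E2 / y) ≤ 3 * L * G / Z := by
      intro y hy h
      rw [mul_div_assoc', div_le_div_iff₀ hy hZ0]
      calc L * (E1 * E2) * Z = L * (Z * (E1 * E2)) := by ring
        _ ≤ L * (3 * G * y) := mul_le_mul_of_nonneg_left h hL
        _ = _ := by ring
    rcases hbig with h | h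
    · refine ((Nat.cast_le.2 hleft).trans (hsub p s hp0 hs0)).trans ?_
      exact mul_le_mul_of_nonneg_left (by linarith [hconv _ (by positivity) h]) (by linarith)
    · refine ((Nat.cast_le.2 hright).trans (hsub _ _ hp'0 hs'0)).trans ?_
      exact mul_le_mul_of_nonneg_left
        (by linarith [hconv _ (by positivity) h]) (by linarith)
  calc ((fibre R C' A' r).card : ℝ)
      ≤ ∑ pq ∈ P.divisors ×ˢ Q.divisors, ((piece pq).card : ℝ) := by
        exact_mod_cast (card_le_card hcover).trans card_biUnion_le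
    _ ≤ (P.divisors ×ˢ Q.divisors).card * (K * (3 * L * G / Z + 1)) := by
        refine (sum_le_sum hone).trans (le_of_eq ?_)
        rw [sum_const, nsmul_eq_mul]
    _ = _ := by rw [card_product, Nat.cast_mul]

/-- The data of one middle ratio with a nonempty fibre. -/
private theorem fibre_facts {E1 E2 K L : ℝ} {R : Finset (ℕ × ℕ)} (hE1 : 1 / 2 ≤ E1)
    (hE2 : 1 / 2 ≤ E2) (hK : 1 ≤ K) (hL : 0 ≤ L) (hbox : ∀ p ∈ R, InBox E1 E2 p)
    (hsub : ∀ d1 d2 : ℕ, 0 < d1 → 0 < d2 →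
      ((R.filter (fun p => d1 ∣ p.1 ∧ d2 ∣ p.2)).card : ℝ) ≤
        K * (L * (E1 * E2 / (d1 * d2)) + 1))
    {C' A' : ℕ} (hC' : 0 < C') (hA' : 0 < A') (hco : Nat.Coprime C' A') {r : ℕ × ℕ} (hr : r ∈ R)
    (hne : (fibre R C' A' r).Nonempty) {D : ℝ}
    (hD : ∀ n : ℕ, 0 < n → (n : ℝ) ≤ 16 * (2 + E1 + E2) ^ 3 → (n.divisors.card : ℝ) ≤ D) :
    ∃ G : ℕ, G = Nat.gcd A' r.1 * Nat.gcd C' r.2 ∧ scale E1 E2 C' A' ≤ 4 * G ∧
      (G : ℝ) ≤ 4 * (E1 * E2) ∧ (C' : ℝ) ≤ 16 * (2 + E1 + E2) ^ 3 ∧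
      (A' : ℝ) ≤ 16 * (2 + E1 + E2) ^ 3 ∧
      ((fibre R C' A' r).card : ℝ) ≤
        D ^ 2 * K * (3 * L * G / scale E1 E2 C' A' + 1) := by
  have hE10 : 0 < E1 := by linarith
  have hE20 : 0 < E2 := by linarith
  have hpos : ∀ p ∈ R, 0 < p.1 ∧ 0 < p.2 := fun p hp => by
    obtain ⟨h1, -, h2, -, -⟩ := hbox p hp
    exact ⟨by exact_mod_cast hE20.trans h1, by exact_mod_cast hE10.trans h2⟩
  obtain ⟨hr1, hr2⟩ := hpos r hr
  obtain ⟨hc2, hc2', ha2, ha2', hcop⟩ := hbox r hr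
  set g1 := Nat.gcd A' r.1 with hg1
  set g2 := Nat.gcd C' r.2 with hg2
  set G := g1 * g2 with hG
  have hg1p : 0 < g1 := Nat.gcd_pos_of_pos_left _ hA'
  have hg2p : 0 < g2 := Nat.gcd_pos_of_pos_left _ hC'
  set P := C' / g2 * (r.1 / g1) with hP
  set Q := A' / g1 * (r.2 / g2) with hQ
  have hC2 : C' / g2 * g2 = C' := Nat.div_mul_cancel (Nat.gcd_dvd_left _ _)
  have hA1 : A' / g1 * g1 = A' := Nat.div_mul_cancel (Nat.gcd_dvd_left _ _)
  have hr1e : r.1 / g1 * g1 = r.1 := Nat.div_mul_cancel (Nat.gcd_dvd_right _ _)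
  have hr2e : r.2 / g2 * g2 = r.2 := Nat.div_mul_cancel (Nat.gcd_dvd_right _ _)
  have hPG : P * G = C' * r.1 := by
    calc P * G = C' / g2 * g2 * (r.1 / g1 * g1) := by rw [hP, hG]; ring
      _ = _ := by rw [hC2, hr1e]
  have hQG : Q * G = A' * r.2 := by
    calc Q * G = A' / g1 * g1 * (r.2 / g2 * g2) := by rw [hQ, hG]; ring
      _ = _ := by rw [hA1, hr2e]
  have hGp : 0 < G := Nat.mul_pos hg1p hg2p
  have hPp : 0 < P := by
    rcases Nat.eq_zero_or_pos P with h | h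
    · rw [h, zero_mul] at hPG
      exact absurd hPG.symm (Nat.mul_pos hC' hr1).ne'
    · exact h
  have hQp : 0 < Q := by
    rcases Nat.eq_zero_or_pos Q with h | h
    · rw [h, zero_mul] at hQG
      exact absurd hQG.symm (Nat.mul_pos hA' hr2).ne'
    · exact h
  have hPQco : Nat.Coprime P Q := by
    rw [hP, hQ]
    refine Nat.Coprime.mul_left (Nat.Coprime.mul_right ?_ ?_) (Nat.Coprime.mul_right ?_ ?_)
    · exact Nat.Coprime.of_dvd (Nat.div_dvd_of_dvd (Nat.gcd_dvd_left _ _))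
        (Nat.div_dvd_of_dvd (Nat.gcd_dvd_left _ _)) hco
    · exact Nat.coprime_div_gcd_div_gcd hg2p
    · exact (Nat.coprime_div_gcd_div_gcd hg1p).symm
    · exact Nat.Coprime.of_dvd (Nat.div_dvd_of_dvd (Nat.gcd_dvd_right _ _))
        (Nat.div_dvd_of_dvd (Nat.gcd_dvd_right _ _)) hcop
  -- the divisibility in a fibre
  have hdiv : ∀ t ∈ fibre R C' A' r, P ∣ t.1.1 * t.2.1 ∧ Q ∣ t.1.2 * t.2.2 := by
    intro t ht
    have e := (mem_filter.1 ht).2
    have e2 : P * (t.1.2 * t.2.2) = Q * (t.1.1 * t.2.1) := by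
      refine Nat.eq_of_mul_eq_mul_right hGp ?_
      calc P * (t.1.2 * t.2.2) * G = P * G * (t.1.2 * t.2.2) := by ring
        _ = C' * t.1.2 * r.1 * t.2.2 := by rw [hPG]; ring
        _ = A' * t.1.1 * r.2 * t.2.1 := e
        _ = Q * G * (t.1.1 * t.2.1) := by rw [hQG]; ring
        _ = Q * (t.1.1 * t.2.1) * G := by ring
    exact ⟨hPQco.dvd_of_dvd_mul_left (Dvd.intro _ e2),
      hPQco.symm.dvd_of_dvd_mul_left (Dvd.intro _ e2.symm)⟩
  obtain ⟨t, ht⟩ := hne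
  obtain ⟨htR, hte⟩ := mem_filter.1 ht
  obtain ⟨ht1, ht3⟩ := mem_product.1 htR
  obtain ⟨b1, b1', b2, b2', -⟩ := hbox _ ht1
  obtain ⟨d1, d1', d2, d2', -⟩ := hbox _ ht3
  obtain ⟨hp1, hp1'⟩ := hpos _ ht1
  obtain ⟨hp3, hp3'⟩ := hpos _ ht3
  have hPle : (P : ℝ) ≤ 4 * E2 ^ 2 := by
    have h : P ≤ t.1.1 * t.2.1 := Nat.le_of_dvd (Nat.mul_pos hp1 hp3) (hdiv t ht).1
    calc (P : ℝ) ≤ (t.1.1 : ℝ) * t.2.1 := by exact_mod_cast h
      _ ≤ 2 * E2 * (2 * E2) := mul_le_mul b1' d1' (by positivity) (by linarith)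
      _ = _ := by ring
  have hQle : (Q : ℝ) ≤ 4 * E1 ^ 2 := by
    have h : Q ≤ t.1.2 * t.2.2 := Nat.le_of_dvd (Nat.mul_pos hp1' hp3') (hdiv t ht).2
    calc (Q : ℝ) ≤ (t.1.2 : ℝ) * t.2.2 := by exact_mod_cast h
      _ ≤ 2 * E1 * (2 * E1) := mul_le_mul b2' d2' (by positivity) (by linarith)
      _ = _ := by ring
  have hGr : (0 : ℝ) < G := by exact_mod_cast hGp
  have hPGr : (P : ℝ) * G = (C' : ℝ) * r.1 := by exact_mod_cast hPG
  have hQGr : (Q : ℝ) * G = (A' : ℝ) * r.2 := by exact_mod_cast hQG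
  have hCZ : (C' : ℝ) ≤ 4 * E2 * G := by
    have h : (C' : ℝ) * E2 ≤ 4 * E2 * G * E2 := by
      calc (C' : ℝ) * E2 ≤ (C' : ℝ) * r.1 := mul_le_mul_of_nonneg_left hc2.le (by positivity)
        _ = P * G := hPGr.symm
        _ ≤ 4 * E2 ^ 2 * G := mul_le_mul_of_nonneg_right hPle hGr.le
        _ = _ := by ring
    exact le_of_mul_le_mul_right h hE20
  have hAZ : (A' : ℝ) ≤ 4 * E1 * G := by
    have h : (A' : ℝ) * E1 ≤ 4 * E1 * G * E1 := by
      calc (A' : ℝ) * E1 ≤ (A' : ℝ) * r.2 := mul_le_mul_of_nonneg_left ha2.le (by positivity)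
        _ = Q * G := hQGr.symm
        _ ≤ 4 * E1 ^ 2 * G := mul_le_mul_of_nonneg_right hQle hGr.le
        _ = _ := by ring
    exact le_of_mul_le_mul_right h hE10
  set S : ℝ := 2 + E1 + E2 with hS
  have hG4 : (G : ℝ) ≤ 4 * (E1 * E2) := by
    have h : G ≤ r.1 * r.2 := Nat.le_of_dvd (Nat.mul_pos hr1 hr2)
      (Nat.mul_dvd_mul (Nat.gcd_dvd_right _ _) (Nat.gcd_dvd_right _ _))
    calc (G : ℝ) ≤ (r.1 : ℝ) * r.2 := by exact_mod_cast h
      _ ≤ 2 * E2 * (2 * E1) := mul_le_mul hc2' ha2' (by positivity) (by linarith)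
      _ = _ := by ring
  have hE1S : E1 ≤ S := by rw [hS]; linarith
  have hE2S : E2 ≤ S := by rw [hS]; linarith
  have hS1 : 1 ≤ S := by rw [hS]; linarith
  have h3 : ∀ e : ℝ, 0 ≤ e → e ≤ S → 4 * e * G ≤ 16 * S ^ 3 := fun e he he' => by
    calc 4 * e * G ≤ 4 * S * (4 * (S * S)) := by
          refine mul_le_mul (by linarith) (hG4.trans ?_) hGr.le (by linarith)
          exact mul_le_mul_of_nonneg_left (mul_le_mul hE1S hE2S hE20.le (by linarith)) (by norm_num)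
      _ = _ := by ring
  have hsq : ∀ e : ℝ, 0 ≤ e → e ≤ S → 4 * e ^ 2 ≤ 16 * S ^ 3 := fun e he he' => by
    calc 4 * e ^ 2 ≤ 4 * S ^ 2 := by gcongr
      _ ≤ 16 * S ^ 3 := by nlinarith [pow_le_pow_right₀ hS1 (show 2 ≤ 3 by norm_num)]
  set Z := scale E1 E2 C' A' with hZ
  have hZ0 : 0 < Z := lt_of_lt_of_le (by positivity) (le_max_left _ _)
  refine ⟨G, rfl, max_le ((div_le_iff₀ hE20).2 (by linarith)) ((div_le_iff₀ hE10).2 (by linarith)),
    hG4, hCZ.trans (h3 E2 hE20.le hE2S), hAZ.trans (h3 E1 hE10.le hE1S), ?_⟩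
  have hsize := fibre_size hE10 hE20 (hbox _ ht1) (hbox r hr) (hbox _ ht3) hte
  refine (fibre_card hE10 hE20 hK hL hbox hpos hsub hC' hA' hr hPp hQp hPG hQG hdiv hZ0
    hsize).trans ?_
  have hDP := hD P hPp (hPle.trans (hsq E2 hE20.le hE2S))
  calc (P.divisors.card : ℝ) * Q.divisors.card * (K * (3 * L * G / Z + 1))
      ≤ D * D * (K * (3 * L * G / Z + 1)) :=
        mul_le_mul_of_nonneg_right
          (mul_le_mul hDP (hD Q hQp (hQle.trans (hsq E1 hE10.le hE1S))) (by positivity)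
            (le_trans (by positivity) hDP))
          (mul_nonneg (by linarith) (by positivity))
    _ = _ := by ring

/-- The number of triples of ratios between fixed ends. -/
private theorem card_paths_le {E1 E2 K L : ℝ} {R : Finset (ℕ × ℕ)} (hE1 : 1 / 2 ≤ E1)
    (hE2 : 1 / 2 ≤ E2) (hK : 1 ≤ K) (hL : 0 ≤ L) (hL1 : L ≤ 1)
    (hbox : ∀ p ∈ R, InBox E1 E2 p)
    (hsub : ∀ d1 d2 : ℕ, 0 < d1 → 0 < d2 →
      ((R.filter (fun p => d1 ∣ p.1 ∧ d2 ∣ p.2)).card : ℝ) ≤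
        K * (L * (E1 * E2 / (d1 * d2)) + 1))
    {C' A' : ℕ} (hC' : 0 < C') (hA' : 0 < A') (hco : Nat.Coprime C' A')
    (hne : (paths R C' A').Nonempty) {D : ℝ}
    (hD : ∀ n : ℕ, 0 < n → (n : ℝ) ≤ 16 * (2 + E1 + E2) ^ 3 → (n.divisors.card : ℝ) ≤ D) :
    scale E1 E2 C' A' ≤ 16 * (E1 * E2) ∧
      ((paths R C' A').card : ℝ) ≤
        19 * D ^ 4 * K ^ 2 * (L * (E1 * E2) / scale E1 E2 C' A' + 1) := by
  set Z := scale E1 E2 C' A' with hZ
  set T2 := E1 * E2 with hT2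
  have hE20 : 0 < E2 := by linarith
  have hT20 : 0 < T2 := mul_pos (by linarith) hE20
  have hZ0 : 0 < Z := lt_of_lt_of_le (by positivity) (le_max_left _ _)
  set R0 := R.filter fun r => (fibre R C' A' r).Nonempty with hR0
  have hcard : (paths R C' A').card = ∑ r ∈ R0, (fibre R C' A' r).card := by
    rw [hR0, sum_filter_of_ne (fun r _ h => card_pos.1 (Nat.pos_of_ne_zero h))]
    rw [paths, card_filter, sum_product]
    simp_rw [sum_product]
    rw [sum_comm]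
    refine sum_congr rfl fun r _ => ?_
    rw [fibre, card_filter, sum_product]
  have facts := fun r (hr : r ∈ R0) =>
    fibre_facts (E1 := E1) (E2 := E2) hE1 hE2 hK hL hbox hsub hC' hA' hco
      (mem_filter.1 hr).1 (mem_filter.1 hr).2 hD
  obtain ⟨t, ht⟩ := hne
  have ht2 : t.2.1 ∈ R0 := by
    obtain ⟨h1, e⟩ := mem_filter.1 ht
    obtain ⟨h1, h23⟩ := mem_product.1 h1
    obtain ⟨h2, h3⟩ := mem_product.1 h23
    exact mem_filter.2 ⟨h2, (t.1, t.2.2), mem_filter.2 ⟨mem_product.2 ⟨h1, h3⟩, e⟩⟩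
  obtain ⟨G0, -, hZG0, hG0, hCb, hAb, -⟩ := facts _ ht2
  refine ⟨by linarith, ?_⟩
  have hD0 : 0 ≤ D := le_trans (by positivity) (hD C' hC' hCb)
  set B : ℕ × ℕ → ℝ := fun g => D ^ 2 * K * (3 * L * ((g.1 : ℝ) * g.2) / Z + 1) with hB
  have hmaps : ∀ r ∈ R0, (Nat.gcd A' r.1, Nat.gcd C' r.2) ∈ A'.divisors ×ˢ C'.divisors :=
    fun r _ => mem_product.2 ⟨Nat.mem_divisors.2 ⟨Nat.gcd_dvd_left _ _, hA'.ne'⟩,
      Nat.mem_divisors.2 ⟨Nat.gcd_dvd_left _ _, hC'.ne'⟩⟩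
  rw [hcard, Nat.cast_sum, ← sum_fiberwise_of_maps_to hmaps]
  have hgroup : ∀ g ∈ A'.divisors ×ˢ C'.divisors,
      ∑ r ∈ R0.filter (fun r => (Nat.gcd A' r.1, Nat.gcd C' r.2) = g),
        ((fibre R C' A' r).card : ℝ) ≤ 19 * D ^ 2 * K ^ 2 * (L * T2 / Z + 1) := by
    intro g hg
    set F := R0.filter fun r => (Nat.gcd A' r.1, Nat.gcd C' r.2) = g with hF
    rcases F.eq_empty_or_nonempty with h0 | ⟨r0, hr0⟩
    · rw [h0, sum_empty]; positivity
    obtain ⟨hr0R, hr0g⟩ := mem_filter.1 hr0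
    obtain ⟨G, hG, hZG, hGT, -, -, -⟩ := facts _ hr0R
    obtain ⟨hg1, hg2⟩ := mem_product.1 hg
    have hGr : (G : ℝ) = (g.1 : ℝ) * g.2 := by rw [hG, ← hr0g]; push_cast; rfl
    have hGp : (0 : ℝ) < G := by linarith
    have hterm : ∀ r ∈ F, ((fibre R C' A' r).card : ℝ) ≤ D ^ 2 * K * (3 * L * G / Z + 1) := by
      intro r hr
      obtain ⟨hrR, hrg⟩ := mem_filter.1 hr
      obtain ⟨G', hG', -, -, -, -, hle⟩ := facts _ hrR
      have : G' = G := by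
        rw [hG', hG]
        exact congrArg (fun p : ℕ × ℕ => p.1 * p.2) (hrg.trans hr0g.symm)
      rw [this] at hle
      exact hle
    have hFcard : (F.card : ℝ) ≤ K * (L * (T2 / G) + 1) := by
      rw [hGr]
      refine le_trans (Nat.cast_le.2 (card_le_card ?_))
        (hsub g.1 g.2 (Nat.pos_of_mem_divisors hg1) (Nat.pos_of_mem_divisors hg2))
      intro r hr
      obtain ⟨hrR, hrg⟩ := mem_filter.1 hr
      exact mem_filter.2 ⟨(mem_filter.1 hrR).1, hrg ▸ Nat.gcd_dvd_right _ _,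
        hrg ▸ Nat.gcd_dvd_right _ _⟩
    have hexp : (L * (T2 / G) + 1) * (3 * L * G / Z + 1) ≤ 19 * (L * T2 / Z + 1) := by
      have e : (L * (T2 / G) + 1) * (3 * L * G / Z + 1) =
          3 * L * (L * T2 / Z) + L * T2 / G + 3 * L * G / Z + 1 := by
        field_simp
        ring
      rw [e]
      have h1 : L * (L * T2 / Z) ≤ 1 * (L * T2 / Z) :=
        mul_le_mul_of_nonneg_right hL1 (by positivity)
      have h2 : L * T2 / G ≤ 4 * (L * T2 / Z) := by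
        rw [mul_div_assoc', div_le_div_iff₀ hGp hZ0]
        nlinarith [mul_le_mul_of_nonneg_left hZG (mul_nonneg hL hT20.le)]
      have h3 : 3 * L * G / Z ≤ 12 * (L * T2 / Z) := by
        rw [mul_div_assoc', div_le_div_iff_of_pos_right hZ0]
        nlinarith [mul_le_mul_of_nonneg_left hGT hL]
      linarith
    calc ∑ r ∈ F, ((fibre R C' A' r).card : ℝ) ≤ F.card * (D ^ 2 * K * (3 * L * G / Z + 1)) := by
          refine (sum_le_sum hterm).trans (le_of_eq ?_)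
          rw [sum_const, nsmul_eq_mul]
      _ ≤ K * (L * (T2 / G) + 1) * (D ^ 2 * K * (3 * L * G / Z + 1)) :=
          mul_le_mul_of_nonneg_right hFcard (by positivity)
      _ = D ^ 2 * K ^ 2 * ((L * (T2 / G) + 1) * (3 * L * G / Z + 1)) := by ring
      _ ≤ D ^ 2 * K ^ 2 * (19 * (L * T2 / Z + 1)) :=
          mul_le_mul_of_nonneg_left hexp (by positivity)
      _ = _ := by ring
  calc _ ≤ ∑ _g ∈ A'.divisors ×ˢ C'.divisors, 19 * D ^ 2 * K ^ 2 * (L * T2 / Z + 1) :=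
        sum_le_sum hgroup
    _ = (A'.divisors.card : ℝ) * C'.divisors.card * (19 * D ^ 2 * K ^ 2 * (L * T2 / Z + 1)) := by
        rw [sum_const, nsmul_eq_mul, card_product, Nat.cast_mul]
    _ ≤ D * D * (19 * D ^ 2 * K ^ 2 * (L * T2 / Z + 1)) :=
        mul_le_mul_of_nonneg_right (mul_le_mul (hD A' hA' hAb) (hD C' hC' hCb) (by positivity) hD0)
          (by positivity)
    _ = _ := by ring

/-- The pairs whose ratio data lie in `R`. -/
private def edges (V W : Finset ℕ) (R : Finset (ℕ × ℕ)) : Finset (ℕ × ℕ) :=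
  (V ×ˢ W).filter fun e => (qd e.2 e.1, qd e.1 e.2) ∈ R

/-- The middle pairs of the paths with given ends. -/
private def ends (V W : Finset ℕ) (R : Finset (ℕ × ℕ)) (o : ℕ × ℕ) : Finset (ℕ × ℕ) :=
  (edges V W R).filter fun e => (e.1, o.2) ∈ edges V W R ∧ (o.1, e.2) ∈ edges V W R

/-- The paths with fixed ends. -/
private theorem card_ends_le {F F' : ℕ → ℝ} {V W : Finset ℕ} {E1 E2 x K L D : ℝ}
    {R : Finset (ℕ × ℕ)} (hf : Fams F F' V W E1 E2 x) (hK : 1 ≤ K) (hL : 0 ≤ L) (hL1 : L ≤ 1)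
    (hbox : ∀ p ∈ R, InBox E1 E2 p)
    (hsub : ∀ d1 d2 : ℕ, 0 < d1 → 0 < d2 →
      ((R.filter (fun p => d1 ∣ p.1 ∧ d2 ∣ p.2)).card : ℝ) ≤
        K * (L * (E1 * E2 / (d1 * d2)) + 1))
    (hD : ∀ n : ℕ, 0 < n → (n : ℝ) ≤ 16 * (2 + E1 + E2) ^ 3 → (n.divisors.card : ℝ) ≤ D) :
    ∀ o ∈ V ×ˢ W, (ends V W R o).Nonempty →
      scale E1 E2 (qd o.2 o.1) (qd o.1 o.2) ≤ 16 * (E1 * E2) ∧
        ((ends V W R o).card : ℝ) ≤ 19 * D ^ 4 * K ^ 2 *
          (L * (E1 * E2) / scale E1 E2 (qd o.2 o.1) (qd o.1 o.2) + 1) := by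
  have hE1 := hf.half_le_E1
  have hE2 := hf.half_le_E2
  have hVW : ∀ e ∈ edges V W R, e.1 ∈ V ∧ e.2 ∈ W := fun e he => mem_product.1 (mem_filter.1 he).1
  rintro ⟨v1, w1⟩ ho hne
  obtain ⟨hv1, hw1⟩ := mem_product.1 ho
  have hqd : ∀ a b : ℕ, 0 < a → 0 < qd a b := fun a b ha => BilinearAux.qd_pos ha
  have hC' := hqd w1 v1 (hf.pos_W _ hw1)
  have hA' := hqd v1 w1 (hf.pos_V _ hv1)
  have hco : Nat.Coprime (qd w1 v1) (qd v1 w1) := by
    unfold qd
    rw [Nat.gcd_comm w1 v1]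
    exact (Nat.coprime_div_gcd_div_gcd (Nat.gcd_pos_of_pos_left _ (hf.pos_V _ hv1))).symm
  set tri : ℕ × ℕ → (ℕ × ℕ) × (ℕ × ℕ) × (ℕ × ℕ) := fun e =>
    ((qd w1 e.1, qd e.1 w1), (qd e.2 e.1, qd e.1 e.2), (qd e.2 v1, qd v1 e.2)) with htri
  have hmaps : ∀ e ∈ ends V W R (v1, w1), tri e ∈ paths R (qd w1 v1) (qd v1 w1) := by
    intro e he
    obtain ⟨h2, h1, h3⟩ := mem_filter.1 he
    refine mem_filter.2 ⟨mem_product.2 ⟨(mem_filter.1 h1).2,
      mem_product.2 ⟨(mem_filter.1 h2).2, (mem_filter.1 h3).2⟩⟩, ?_⟩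
    refine Nat.eq_of_mul_eq_mul_right
      (Nat.mul_pos (hf.pos_V _ hv1) (hf.pos_V _ (hVW e h2).1)) ?_
    show qd w1 v1 * qd e.1 w1 * qd e.2 e.1 * qd v1 e.2 * (v1 * e.1) =
      qd v1 w1 * qd w1 e.1 * qd e.1 e.2 * qd e.2 v1 * (v1 * e.1)
    calc qd w1 v1 * qd e.1 w1 * qd e.2 e.1 * qd v1 e.2 * (v1 * e.1)
        = qd e.1 w1 * qd v1 e.2 * (v1 * qd w1 v1) * (e.1 * qd e.2 e.1) := by ring
      _ = qd e.1 w1 * qd v1 e.2 * (w1 * qd v1 w1) * (e.2 * qd e.1 e.2) := by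
          rw [mul_qd_eq v1 w1, mul_qd_eq e.1 e.2]
      _ = qd v1 w1 * qd e.1 e.2 * (w1 * qd e.1 w1) * (e.2 * qd v1 e.2) := by ring
      _ = qd v1 w1 * qd e.1 e.2 * (e.1 * qd w1 e.1) * (v1 * qd e.2 v1) := by
          rw [mul_qd_eq e.1 w1, mul_qd_eq v1 e.2]
      _ = _ := by ring
  have hinj : Set.InjOn tri (ends V W R (v1, w1)) := by
    intro e he e' he' h
    simp only [htri, Prod.mk.injEq] at h
    obtain ⟨⟨a1, a2⟩, -, b1, b2⟩ := h
    refine Prod.ext ?_ ?_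
    · refine Nat.eq_of_mul_eq_mul_right (hqd w1 e.1 (hf.pos_W _ hw1)) ?_
      rw [← mul_qd_eq e.1 w1, a1, ← mul_qd_eq e'.1 w1, a2]
    · refine Nat.eq_of_mul_eq_mul_right (hqd v1 e.2 (hf.pos_V _ hv1)) ?_
      rw [mul_qd_eq v1 e.2, b2, mul_qd_eq v1 e'.2, b1]
  obtain ⟨e0, he0⟩ := hne
  obtain ⟨h1, h2⟩ := card_paths_le (E1 := E1) (E2 := E2) hE1 hE2 hK hL hL1 hbox hsub hC' hA' hco
    ⟨_, hmaps e0 he0⟩ hD
  exact ⟨h1, (Nat.cast_le.2 (card_le_card_of_injOn tri hmaps hinj)).trans h2⟩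

/-- The weight of the paths. -/
private theorem paths_weight_le {F F' : ℕ → ℝ} {V W : Finset ℕ} {E1 E2 x : ℝ}
    {R : Finset (ℕ × ℕ)} (hf : Fams F F' V W E1 E2 x) :
    ∑ e ∈ edges V W R, F e.1 * F' e.2 *
        ((∑ f ∈ (edges V W R).filter (fun f => f.1 = e.1), F' f.2) *
          ∑ f ∈ (edges V W R).filter (fun f => f.2 = e.2), F f.1) ≤
      4 * x ^ 2 / (E1 * E2) *
        ∑ o ∈ V ×ˢ W, F o.1 * F' o.2 * ((ends V W R o).card : ℝ) := by
  have hE10 : 0 < E1 := by linarith [hf.half_le_E1]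
  have hE20 : 0 < E2 := by linarith [hf.half_le_E2]
  have hx := hf.x_pos
  set Ed := edges V W R with hEd
  have hVW : ∀ e ∈ Ed, e.1 ∈ V ∧ e.2 ∈ W := fun e he => mem_product.1 (mem_filter.1 he).1
  have e1 : ∀ v, ∑ f ∈ Ed.filter (fun f => f.1 = v), F' f.2 =
      ∑ w ∈ W, if (v, w) ∈ Ed then F' w else 0 := by
    intro v
    rw [← sum_filter]
    refine sum_bij (fun f _ => f.2) (fun f hf => ?_) (fun f hf g hg h => ?_) (fun w hw => ?_)
      (fun f _ => rfl)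
    · obtain ⟨h1, h2⟩ := mem_filter.1 hf
      exact mem_filter.2 ⟨(hVW f h1).2, h2 ▸ h1⟩
    · exact Prod.ext ((mem_filter.1 hf).2.trans (mem_filter.1 hg).2.symm) h
    · exact ⟨(v, w), mem_filter.2 ⟨(mem_filter.1 hw).2, rfl⟩, rfl⟩
  have e2 : ∀ w, ∑ f ∈ Ed.filter (fun f => f.2 = w), F f.1 =
      ∑ v ∈ V, if (v, w) ∈ Ed then F v else 0 := by
    intro w
    rw [← sum_filter]
    refine sum_bij (fun f _ => f.1) (fun f hf => ?_) (fun f hf g hg h => ?_) (fun v hv => ?_)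
      (fun f _ => rfl)
    · obtain ⟨h1, h2⟩ := mem_filter.1 hf
      exact mem_filter.2 ⟨(hVW f h1).1, h2 ▸ h1⟩
    · exact Prod.ext h ((mem_filter.1 hf).2.trans (mem_filter.1 hg).2.symm)
    · exact ⟨(v, w), mem_filter.2 ⟨(mem_filter.1 hv).2, rfl⟩, rfl⟩
  have e3 : ∑ o ∈ V ×ˢ W, F o.1 * F' o.2 * ((ends V W R o).card : ℝ) =
      ∑ e ∈ Ed, ∑ v ∈ V, ∑ w ∈ W,
        if (e.1, w) ∈ Ed ∧ (v, e.2) ∈ Ed then F v * F' w else 0 := by
    rw [sum_comm (s := Ed)]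
    rw [sum_product]
    refine sum_congr rfl fun v _ => ?_
    rw [sum_comm (s := Ed)]
    refine sum_congr rfl fun w _ => ?_
    rw [ends, card_filter, Nat.cast_sum, mul_sum]
    refine sum_congr rfl fun e _ => ?_
    split_ifs <;> simp
  rw [e3, mul_sum]
  refine sum_le_sum fun e he => ?_
  obtain ⟨hv, hw⟩ := hVW e he
  have hb : F e.1 * F' e.2 ≤ 4 * x ^ 2 / (E1 * E2) := by
    calc F e.1 * F' e.2 ≤ 2 * x / E2 * (2 * x / E1) :=
          mul_le_mul (hf.F_le _ hv) (hf.F'_le _ hw) (hf.F'_nonneg _) (by positivity)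
      _ = _ := by rw [div_mul_div_comm]; ring_nf
  refine (mul_le_mul_of_nonneg_right hb (mul_nonneg (sum_nonneg fun f _ => hf.F'_nonneg _)
    (sum_nonneg fun f _ => hf.F_nonneg _))).trans (mul_le_mul_of_nonneg_left ?_ (by positivity))
  rw [e1, e2, mul_comm, sum_mul_sum]
  refine le_of_eq (sum_congr rfl fun v _ => sum_congr rfl fun w _ => ?_)
  split_ifs <;> simp_all

/-- One dyadic class of ends. -/
private theorem class_le {F F' : ℕ → ℝ} {V W : Finset ℕ} {E1 E2 x L Lam M T2 : ℝ}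
    (hf : Fams F F' V W E1 E2 x) (hL : 0 ≤ L) (hLam : 0 ≤ Lam) (hM : 0 ≤ M) (hT20 : 0 < T2)
    (hH : HeightBound F F' V W E1 E2 x Lam M) (O : Finset (ℕ × ℕ)) (hOVW : O ⊆ V ×ˢ W)
    (hzpos : ∀ o ∈ O, 0 < scale E1 E2 (qd o.2 o.1) (qd o.1 o.2) ∧
      scale E1 E2 (qd o.2 o.1) (qd o.1 o.2) ≤ 16 * T2) (k : ℕ) :
    ∑ o ∈ O.filter (fun o => ⌊Real.logb 2 (16 * T2 / scale E1 E2 (qd o.2 o.1) (qd o.1 o.2))⌋₊ = k),
      F o.1 * F' o.2 * (L * T2 / scale E1 E2 (qd o.2 o.1) (qd o.1 o.2) + 1) ≤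
      2 * Lam * M * (L * (T2 * x) + 1) := by
  have hE10 : 0 < E1 := by linarith [hf.half_le_E1]
  have hE20 : 0 < E2 := by linarith [hf.half_le_E2]
  have hx := hf.x_pos
  set zo : ℕ × ℕ → ℝ := fun o => scale E1 E2 (qd o.2 o.1) (qd o.1 o.2) with hzo
  set kk : ℕ × ℕ → ℕ := fun o => ⌊Real.logb 2 (16 * T2 / zo o)⌋₊ with hkk
  change ∑ o ∈ O.filter (fun o => kk o = k), F o.1 * F' o.2 * (L * T2 / zo o + 1) ≤ _
  set Zk := 16 * T2 / (2 : ℝ) ^ k with hZk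
  have hZk0 : 0 < Zk := by positivity
  have hin : ∀ o ∈ O.filter (fun o => kk o = k), zo o ≤ Zk ∧ Zk ≤ 2 * zo o := by
    intro o ho
    obtain ⟨hoO, hk⟩ := mem_filter.1 ho
    obtain ⟨hz0, hz1⟩ := hzpos o hoO
    have hy : 1 ≤ 16 * T2 / zo o := by rw [le_div_iff₀ hz0, one_mul]; exact hz1
    have hlog : 0 ≤ Real.logb 2 (16 * T2 / zo o) := Real.logb_nonneg one_lt_two hy
    have hlo := Nat.floor_le hlog
    have hhi := Nat.lt_floor_add_one (Real.logb 2 (16 * T2 / zo o))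
    rw [show ⌊Real.logb 2 (16 * T2 / zo o)⌋₊ = k from hk] at hlo hhi
    rw [Real.le_logb_iff_rpow_le one_lt_two (by positivity), Real.rpow_natCast,
      le_div_iff₀ hz0] at hlo
    rw [Real.logb_lt_iff_lt_rpow one_lt_two (by positivity), ← Nat.cast_add_one,
      Real.rpow_natCast, div_lt_iff₀ hz0, pow_succ] at hhi
    constructor
    · rw [hZk, le_div_iff₀ (by positivity)]; linarith
    · rw [hZk, div_le_iff₀ (by positivity)]; linarith
  calc ∑ o ∈ O.filter (fun o => kk o = k), F o.1 * F' o.2 * (L * T2 / zo o + 1)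
      ≤ ∑ o ∈ O.filter (fun o => kk o = k), (2 * L * T2 / Zk + 1) * (F o.1 * F' o.2) := by
        refine sum_le_sum fun o ho => ?_
        rw [mul_comm]
        refine mul_le_mul_of_nonneg_right ?_ (mul_nonneg (hf.F_nonneg _) (hf.F'_nonneg _))
        obtain ⟨hz0, hz⟩ := (⟨(hzpos o (mem_filter.1 ho).1).1, (hin o ho).2⟩ : _ ∧ _)
        have : L * T2 / zo o ≤ 2 * L * T2 / Zk := by
          rw [div_le_div_iff₀ hz0 hZk0]
          nlinarith [mul_le_mul_of_nonneg_left hz (mul_nonneg hL hT20.le)]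
        linarith
    _ = (2 * L * T2 / Zk + 1) * ∑ o ∈ O.filter (fun o => kk o = k), F o.1 * F' o.2 := by
        rw [mul_sum]
    _ ≤ (2 * L * T2 / Zk + 1) * (Lam * min (x * Zk) 1 * M) := by
        refine mul_le_mul_of_nonneg_left ?_ (by positivity)
        refine le_trans ?_ (hH Zk hZk0)
        have e : ∀ v ∈ V, ∑ w ∈ W.filter (fun w => (qd w v : ℝ) ≤ E2 * Zk ∧ (qd v w : ℝ) ≤ E1 * Zk),
            F v * F' w = ∑ w ∈ W, if (qd w v : ℝ) ≤ E2 * Zk ∧ (qd v w : ℝ) ≤ E1 * Zk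
              then F v * F' w else 0 := fun v _ => sum_filter _ _
        rw [sum_congr rfl e, ← sum_product', ← sum_filter]
        refine sum_le_sum_of_subset_of_nonneg ?_
          fun o _ _ => mul_nonneg (hf.F_nonneg _) (hf.F'_nonneg _)
        intro o ho
        have hz := (hin o ho).1
        change max ((qd o.2 o.1 : ℝ) / E2) ((qd o.1 o.2 : ℝ) / E1) ≤ Zk at hz
        rw [max_le_iff, div_le_iff₀ hE20, div_le_iff₀ hE10] at hz
        refine mem_filter.2 ⟨hOVW (mem_filter.1 ho).1, ?_, ?_⟩ <;> linarith [hz.1, hz.2]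
    _ = Lam * M * (2 * L * T2 / Zk * min (x * Zk) 1 + min (x * Zk) 1) := by ring
    _ ≤ Lam * M * (2 * L * T2 / Zk * (x * Zk) + 1) := by
        refine mul_le_mul_of_nonneg_left (add_le_add ?_ (min_le_right _ _)) (mul_nonneg hLam hM)
        exact mul_le_mul_of_nonneg_left (min_le_left _ _) (by positivity)
    _ = Lam * M * (2 * (L * (T2 * x)) + 1) := by field_simp
    _ ≤ _ := by nlinarith [mul_nonneg hLam hM]

/-- If every sublattice carries at most `K (L A + 1)` of the ratios, the weight saves a power of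
`L + 1 / (x T₂)` up to `T ^ ε`. -/
theorem exists_ratio_le (ε : ℝ) (hε : 0 < ε) :
    ∃ C : ℝ, 0 < C ∧ ∀ (F F' : ℕ → ℝ) (V W : Finset ℕ) (E1 E2 x K L Lam M : ℝ)
      (R : Finset (ℕ × ℕ)),
      Fams F F' V W E1 E2 x → 1 ≤ K → 0 ≤ L → L ≤ 1 → 0 ≤ Lam → 0 ≤ M →
      (∀ p ∈ R, InBox E1 E2 p) →
      (∀ d1 d2 : ℕ, 0 < d1 → 0 < d2 →
        ((R.filter (fun p => d1 ∣ p.1 ∧ d2 ∣ p.2)).card : ℝ) ≤
          K * (L * (E1 * E2 / (d1 * d2)) + 1)) →
      HeightBound F F' V W E1 E2 x Lam M →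
      ratioWeight F F' V W R ^ 3 ≤
        C * (2 + E1 + E2) ^ ε * K ^ 2 * Lam * x ^ 3 * (L + 1 / (x * (E1 * E2))) * M *
          ((∑ v ∈ V, F v) * ∑ w ∈ W, F' w) := by
  set δ := ε / 20 with hδ
  have hδ0 : 0 < δ := by positivity
  obtain ⟨Cd, hCd, hdiv⟩ := exists_divisors_le_rpow δ hδ0
  have hlog2 : 0 < Real.log 2 := Real.log_pos one_lt_two
  set Cn : ℝ := (16 : ℝ) ^ δ / (δ * Real.log 2) + 1 with hCn
  refine ⟨4 * 19 * (Cd * (16 : ℝ) ^ δ) ^ 4 * 2 * Cn, by positivity, ?_⟩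
  intro F F' V W E1 E2 x K L Lam M R hf hK hL hL1 hLam hM hbox hsub hH
  have hE1 := hf.half_le_E1
  have hE2 := hf.half_le_E2
  have hx := hf.x_pos
  set T2 := E1 * E2 with hT2
  set S : ℝ := 2 + E1 + E2 with hS
  have hE10 : 0 < E1 := by linarith
  have hE20 : 0 < E2 := by linarith
  have hT20 : 0 < T2 := mul_pos hE10 hE20
  have hS1 : 1 ≤ S := by rw [hS]; linarith
  set D : ℝ := Cd * (16 : ℝ) ^ δ * S ^ (3 * δ) with hD
  have hD0 : 0 ≤ D := by positivity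
  have hDle : ∀ n : ℕ, 0 < n → (n : ℝ) ≤ 16 * S ^ 3 → (n.divisors.card : ℝ) ≤ D := by
    intro n hn hle
    refine (hdiv n hn).trans ?_
    rw [hD, mul_assoc]
    refine mul_le_mul_of_nonneg_left ?_ hCd.le
    calc (n : ℝ) ^ δ ≤ (16 * S ^ 3) ^ δ := Real.rpow_le_rpow (by positivity) hle hδ0.le
      _ = 16 ^ δ * S ^ (3 * δ) := by
          rw [Real.mul_rpow (by norm_num) (by positivity), ← Real.rpow_natCast S 3,
            ← Real.rpow_mul (by linarith)]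
          norm_num
  -- the pairs
  set Ed := edges V W R with hEd
  have hweight : ratioWeight F F' V W R = ∑ e ∈ Ed, F e.1 * F' e.2 := by
    rw [hEd, edges, sum_filter, sum_product, ratioWeight]
    exact sum_congr rfl fun v _ => by rw [sum_filter]
  -- the paths
  set cnt : ℕ × ℕ → Finset (ℕ × ℕ) := ends V W R with hcnt
  have hVW : ∀ e ∈ Ed, e.1 ∈ V ∧ e.2 ∈ W := fun e he => mem_product.1 (mem_filter.1 he).1
  set P3 := ∑ e ∈ Ed, F e.1 * F' e.2 * ((∑ f ∈ Ed.filter (fun f => f.1 = e.1), F' f.2) *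
      ∑ f ∈ Ed.filter (fun f => f.2 = e.2), F f.1) with hP3
  have hthree := three_path Ed F F' V W hVW hf.F_nonneg hf.F'_nonneg
  have hP3le : P3 ≤ 4 * x ^ 2 / T2 *
      ∑ o ∈ V ×ˢ W, F o.1 * F' o.2 * ((cnt o).card : ℝ) := paths_weight_le hf
  have hcount := card_ends_le hf hK hL hL1 hbox hsub hDle
  -- dyadic scales
  set zo : ℕ × ℕ → ℝ := fun o => scale E1 E2 (qd o.2 o.1) (qd o.1 o.2) with hzo
  set O := (V ×ˢ W).filter fun o => (cnt o).Nonempty with hO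
  set N := ⌊Real.logb 2 (16 * S ^ 3)⌋₊ + 1 with hN
  set kk : ℕ × ℕ → ℕ := fun o => ⌊Real.logb 2 (16 * T2 / zo o)⌋₊ with hkk
  have hzpos : ∀ o ∈ O, 1 / E2 ≤ zo o ∧ 0 < zo o ∧ zo o ≤ 16 * T2 := by
    intro o ho
    obtain ⟨hoVW, hne⟩ := mem_filter.1 ho
    have h1 : (1 : ℝ) ≤ (qd o.2 o.1 : ℝ) := by
      exact_mod_cast BilinearAux.qd_pos (hf.pos_W _ (mem_product.1 hoVW).2)
    have h2 : 1 / E2 ≤ zo o :=
      (div_le_div_of_nonneg_right h1 hE20.le).trans (le_max_left _ _)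
    exact ⟨h2, (show (0 : ℝ) < 1 / E2 by positivity).trans_le h2, (hcount o hoVW hne).1⟩
  have hkmem : ∀ o ∈ O, kk o ∈ range N := by
    intro o ho
    obtain ⟨hlow, hz0, -⟩ := hzpos o ho
    rw [mem_range, hN, Nat.lt_succ_iff]
    refine Nat.floor_mono (Real.logb_le_logb_of_le one_lt_two (by positivity) ?_)
    rw [div_le_iff₀ hz0]
    rw [div_le_iff₀ hE20] at hlow
    calc 16 * T2 = 16 * E1 * E2 * 1 := by rw [hT2]; ring
      _ ≤ 16 * E1 * E2 * (zo o * E2) := mul_le_mul_of_nonneg_left hlow (by positivity)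
      _ = 16 * (E1 * E2 * E2) * zo o := by ring
      _ ≤ 16 * S ^ 3 * zo o := by
          have hE1S : E1 ≤ S := by rw [hS]; linarith
          have hE2S : E2 ≤ S := by rw [hS]; linarith
          rw [pow_three, ← mul_assoc S S S]
          gcongr
  have hclass : ∀ k ∈ range N, ∑ o ∈ O.filter (fun o => kk o = k),
      F o.1 * F' o.2 * (L * T2 / zo o + 1) ≤ 2 * Lam * M * (L * (T2 * x) + 1) := by
    intro k _
    exact class_le hf hL hLam hM hT20 hH O (filter_subset _ _) (fun o ho => (hzpos o ho).2) k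
  have hsum : ∑ o ∈ V ×ˢ W, F o.1 * F' o.2 * ((cnt o).card : ℝ) ≤
      19 * D ^ 4 * K ^ 2 * (N * (2 * Lam * M * (L * (T2 * x) + 1))) := by
    calc ∑ o ∈ V ×ˢ W, F o.1 * F' o.2 * ((cnt o).card : ℝ)
        = ∑ o ∈ O, F o.1 * F' o.2 * ((cnt o).card : ℝ) := by
          rw [hO, sum_filter_of_ne]
          intro o _ hne
          exact card_pos.1 (Nat.pos_of_ne_zero fun h => hne (by simp [h]))
      _ ≤ ∑ o ∈ O, 19 * D ^ 4 * K ^ 2 * (F o.1 * F' o.2 * (L * T2 / zo o + 1)) := by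
          refine sum_le_sum fun o ho => ?_
          obtain ⟨hoVW, hne⟩ := mem_filter.1 ho
          refine (mul_le_mul_of_nonneg_left (hcount o hoVW hne).2
            (mul_nonneg (hf.F_nonneg _) (hf.F'_nonneg _))).trans (le_of_eq ?_)
          ring
      _ = 19 * D ^ 4 * K ^ 2 *
            ∑ k ∈ range N, ∑ o ∈ O.filter (fun o => kk o = k),
              F o.1 * F' o.2 * (L * T2 / zo o + 1) := by
          rw [sum_fiberwise_of_maps_to hkmem, mul_sum]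
      _ ≤ _ := by
          refine mul_le_mul_of_nonneg_left ?_ (by positivity)
          refine (sum_le_sum hclass).trans (le_of_eq ?_)
          rw [sum_const, card_range, nsmul_eq_mul]
  have hNle : (N : ℝ) ≤ Cn * S ^ (3 * δ) := by
    have h16 : (1 : ℝ) ≤ 16 * S ^ 3 := by nlinarith [one_le_pow₀ (n := 3) hS1]
    have hl : 0 ≤ Real.logb 2 (16 * S ^ 3) := Real.logb_nonneg one_lt_two h16
    have hpow1 : 1 ≤ S ^ (3 * δ) := Real.one_le_rpow hS1 (by positivity)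
    rw [hN, Nat.cast_add_one]
    calc (⌊Real.logb 2 (16 * S ^ 3)⌋₊ : ℝ) + 1 ≤ Real.log (16 * S ^ 3) / Real.log 2 + 1 :=
          add_le_add (Nat.floor_le hl) le_rfl
      _ ≤ (16 * S ^ 3) ^ δ / δ / Real.log 2 + S ^ (3 * δ) :=
          add_le_add (div_le_div_of_nonneg_right (Real.log_le_rpow_div (by positivity) hδ0) hlog2.le)
            hpow1
      _ = _ := by
          rw [Real.mul_rpow (by norm_num) (by positivity), ← Real.rpow_natCast S 3,
            ← Real.rpow_mul (by linarith), hCn]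
          push_cast
          field_simp
  have hpowS : D ^ 4 * S ^ (3 * δ) ≤ (Cd * (16 : ℝ) ^ δ) ^ 4 * S ^ ε := by
    rw [hD, mul_pow _ (S ^ (3 * δ)) 4, mul_assoc]
    refine mul_le_mul_of_nonneg_left ?_ (by positivity)
    rw [← Real.rpow_mul_natCast (by linarith), ← Real.rpow_add (by linarith)]
    refine Real.rpow_le_rpow_of_exponent_le hS1 ?_
    rw [hδ]
    push_cast
    linarith
  set mm := (∑ v ∈ V, F v) * ∑ w ∈ W, F' w with hmm
  have hmm0 : 0 ≤ mm :=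
    mul_nonneg (sum_nonneg fun v _ => hf.F_nonneg v) (sum_nonneg fun w _ => hf.F'_nonneg w)
  rw [hweight]
  refine hthree.trans ?_
  calc P3 * mm
      ≤ 4 * x ^ 2 / T2 * (19 * D ^ 4 * K ^ 2 *
          (N * (2 * Lam * M * (L * (T2 * x) + 1)))) * mm := by
        refine mul_le_mul_of_nonneg_right (hP3le.trans ?_) hmm0
        exact mul_le_mul_of_nonneg_left hsum (by positivity)
    _ ≤ 4 * x ^ 2 / T2 * (19 * D ^ 4 * K ^ 2 *
          (Cn * S ^ (3 * δ) * (2 * Lam * M * (L * (T2 * x) + 1)))) * mm := by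
        gcongr
    _ = 4 * 19 * 2 * Cn * (D ^ 4 * S ^ (3 * δ)) * K ^ 2 * Lam * M *
          (x ^ 2 / T2 * (L * (T2 * x) + 1)) * mm := by ring
    _ ≤ 4 * 19 * 2 * Cn * ((Cd * (16 : ℝ) ^ δ) ^ 4 * S ^ ε) * K ^ 2 * Lam * M *
          (x ^ 2 / T2 * (L * (T2 * x) + 1)) * mm := by
        gcongr
    _ = _ := by
        field_simp

end Vale.Agent.P028.Lift
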