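import Vale.Agent.P028.Lift.RowCount

/-!
Near points of a box outside the product part are equidistributed on every sublattice.
-/

noncomputable section

namespace Vale.Agent.P028.Lift

open Finset

theorem inProd_swap {β β' x W : ℝ} {p : ℕ × ℕ} (h : InProd β' β x W p.swap) :
    InProd β β' x W p := by
  obtain ⟨j, h1, h2, h3, h4⟩ := h
  exact ⟨j, h1, h2, h4, h3⟩

/-- The case of at most one point. -/
theorem sublattice_small {β β' x E1 E2 M : ℝ} {R : Finset (ℕ × ℕ)} {d1 d2 : ℕ}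
    (hx : 0 < x) (h1 : 0 < d1) (h2 : 0 < d2)
    (hA : E1 * E2 / (d1 * d2) ≤ M ^ 4)
    (hR : ∀ p ∈ R, InBox E1 E2 p ∧ Near β β' x p ∧ ¬ InProd β β' x (64 * M ^ 4) p) :
    (R.filter (fun p => d1 ∣ p.1 ∧ d2 ∣ p.2)).card ≤ 1 := by
  rw [card_le_one]
  intro p hp q hq
  simp only [mem_filter] at hp hq
  obtain ⟨⟨hp1, hp2, hp3, hp4, hpc⟩, hpn, hprod⟩ := hR p hp.1
  obtain ⟨⟨hq1, hq2, hq3, hq4, hqc⟩, hqn, -⟩ := hR q hq.1
  obtain ⟨⟨c1, hc1⟩, ⟨a1, ha1⟩⟩ := hp.2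
  obtain ⟨⟨c2, hc2⟩, ⟨a2, ha2⟩⟩ := hq.2
  by_contra hne
  obtain ⟨n1, hn1⟩ := hpn
  obtain ⟨n2, hn2⟩ := hqn
  have d1p : (0 : ℝ) < d1 := by exact_mod_cast h1
  have d2p : (0 : ℝ) < d2 := by exact_mod_cast h2
  set A : ℝ := E1 * E2 / (d1 * d2) with hAdef
  set jz : ℤ := (c1 : ℤ) * a2 - (c2 : ℤ) * a1 with hjz
  have hb1 : (c1 : ℝ) ≤ 2 * E2 / d1 := by
    rw [le_div_iff₀ d1p]
    have : (p.1 : ℝ) = (d1 : ℝ) * c1 := by exact_mod_cast hc1
    linarith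
  have hb2 : (c2 : ℝ) ≤ 2 * E2 / d1 := by
    rw [le_div_iff₀ d1p]
    have : (q.1 : ℝ) = (d1 : ℝ) * c2 := by exact_mod_cast hc2
    linarith
  have hb3 : (a1 : ℝ) ≤ 2 * E1 / d2 := by
    rw [le_div_iff₀ d2p]
    have : (p.2 : ℝ) = (d2 : ℝ) * a1 := by exact_mod_cast ha1
    linarith
  have hb4 : (a2 : ℝ) ≤ 2 * E1 / d2 := by
    rw [le_div_iff₀ d2p]
    have : (q.2 : ℝ) = (d2 : ℝ) * a2 := by exact_mod_cast ha2
    linarith
  have hj0 : jz ≠ 0 := by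
    intro h0
    apply hne
    refine eq_of_cross_eq hpc hqc ?_ ?_
    · have hE1 : 0 ≤ E1 := by linarith
      exact_mod_cast (lt_of_le_of_lt hE1 hp3)
    · rw [hc1, ha1, hc2, ha2]
      have h0' : c1 * a2 = c2 * a1 := by exact_mod_cast sub_eq_zero.1 h0
      linear_combination (d1 * d2) * h0'
  have hmul : ∀ c a : ℝ, 0 ≤ a → c ≤ 2 * E2 / d1 → a ≤ 2 * E1 / d2 → c * a ≤ 4 * A := by
    intro c a ha hc ha'
    have hE2 : 0 ≤ 2 * E2 / (d1 : ℝ) := (Nat.cast_nonneg c1).trans hb1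
    refine (mul_le_mul hc ha' ha hE2).trans_eq ?_
    rw [hAdef]; field_simp; ring
  have hjb : |(jz : ℝ)| ≤ 4 * A := by
    have b1 := hmul c1 a2 (Nat.cast_nonneg _) hb1 hb4
    have b2 := hmul c2 a1 (Nat.cast_nonneg _) hb2 hb3
    have z1 : (0 : ℝ) ≤ (c1 : ℝ) * a2 := by positivity
    have z2 : (0 : ℝ) ≤ (c2 : ℝ) * a1 := by positivity
    rw [abs_le, hjz]; push_cast
    constructor <;> linarith
  have hP1 : (p.1 : ℝ) = (d1 : ℝ) * c1 := by exact_mod_cast hc1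
  have hP2 : (p.2 : ℝ) = (d2 : ℝ) * a1 := by exact_mod_cast ha1
  have hQ1 : (q.1 : ℝ) = (d1 : ℝ) * c2 := by exact_mod_cast hc2
  have hQ2 : (q.2 : ℝ) = (d2 : ℝ) * a2 := by exact_mod_cast ha2
  have hm1 := mul_le_mul_of_nonneg_left hn1.le (show 0 ≤ (c1 : ℝ) * a2 by positivity)
  have hm2 := mul_le_mul_of_nonneg_left hn2.le (show 0 ≤ (c1 : ℝ) * a1 by positivity)
  have b1 := mul_le_mul_of_nonneg_right (hmul c1 a2 (Nat.cast_nonneg _) hb1 hb4)
    (show 0 ≤ 2 * x by linarith)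
  have b2 := mul_le_mul_of_nonneg_right (hmul c1 a1 (Nat.cast_nonneg _) hb1 hb3)
    (show 0 ≤ 2 * x by linarith)
  have hbβ : |(jz : ℝ) * p.1 * β - ((c1 : ℤ) * a2 * n1 - (c1 : ℤ) * a1 * n2 : ℤ)| ≤ 16 * A * x := by
    have e : (jz : ℝ) * p.1 * β - ((c1 : ℤ) * a2 * n1 - (c1 : ℤ) * a1 * n2 : ℤ)
        = (c1 : ℝ) * a2 * ((p.1 : ℝ) * β - (p.2 : ℝ) * β' - n1)
          - (c1 : ℝ) * a1 * ((q.1 : ℝ) * β - (q.2 : ℝ) * β' - n2) := by
      rw [hjz, hP1, hP2, hQ1, hQ2]; push_cast; ring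
    rw [e]
    refine (abs_sub _ _).trans ?_
    rw [abs_mul ((c1 : ℝ) * a2), abs_mul ((c1 : ℝ) * a1),
      abs_of_nonneg (show 0 ≤ (c1 : ℝ) * a2 by positivity),
      abs_of_nonneg (show 0 ≤ (c1 : ℝ) * a1 by positivity)]
    linarith
  have hbβ' : |(jz : ℝ) * p.2 * β' -
      ((c1 : ℤ) * a2 * n1 - (c1 : ℤ) * a1 * n2 - jz * n1 : ℤ)| ≤ 24 * A * x := by
    have e : (jz : ℝ) * p.2 * β' - ((c1 : ℤ) * a2 * n1 - (c1 : ℤ) * a1 * n2 - jz * n1 : ℤ)
        = ((jz : ℝ) * p.1 * β - ((c1 : ℤ) * a2 * n1 - (c1 : ℤ) * a1 * n2 : ℤ))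
          - (jz : ℝ) * ((p.1 : ℝ) * β - (p.2 : ℝ) * β' - n1) := by push_cast; ring
    rw [e]
    refine (abs_sub _ _).trans ?_
    have h3 : |(jz : ℝ) * ((p.1 : ℝ) * β - (p.2 : ℝ) * β' - n1)| ≤ 4 * A * (2 * x) := by
      rw [abs_mul]
      exact mul_le_mul hjb hn1.le (abs_nonneg _) ((abs_nonneg _).trans hjb)
    linarith
  have hpos : (0 : ℝ) < A := by
    have : (0 : ℝ) < |(jz : ℝ)| := abs_pos.2 (by exact_mod_cast hj0)
    linarith
  apply hprod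
  have hAM : A * x ≤ M ^ 4 * x := mul_le_mul_of_nonneg_right hA hx.le
  have hAx : 0 < A * x := mul_pos hpos hx
  rcases le_or_gt 0 jz with hs | hs
  · have ej : (jz.natAbs : ℝ) = (jz : ℝ) := by
      rw [Nat.cast_natAbs, abs_of_nonneg hs]
    refine ⟨jz.natAbs, Int.natAbs_pos.2 hj0, ?_, ⟨_, by rw [ej]; exact lt_of_le_of_lt hbβ (by linarith)⟩,
      ⟨_, by rw [ej]; exact lt_of_le_of_lt hbβ' (by linarith)⟩⟩
    rw [ej]; linarith [le_abs_self (jz : ℝ)]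
  · have ej : (jz.natAbs : ℝ) = -(jz : ℝ) := by
      rw [Nat.cast_natAbs, abs_of_nonpos hs.le, Int.cast_neg]
    refine ⟨jz.natAbs, Int.natAbs_pos.2 hj0, ?_,
      ⟨-((c1 : ℤ) * a2 * n1 - (c1 : ℤ) * a1 * n2), ?_⟩,
      ⟨-((c1 : ℤ) * a2 * n1 - (c1 : ℤ) * a1 * n2 - jz * n1), ?_⟩⟩
    · rw [ej]; linarith [neg_le_abs (jz : ℝ)]
    · rw [ej, Int.cast_neg, neg_mul, neg_mul, sub_neg_eq_add, neg_add_eq_sub, abs_sub_comm]
      exact lt_of_le_of_lt hbβ (by linarith)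
    · rw [ej, Int.cast_neg, neg_mul, neg_mul, sub_neg_eq_add, neg_add_eq_sub, abs_sub_comm]
      exact lt_of_le_of_lt hbβ' (by linarith)

/-- The case of many points, the first coordinate being the longer one. -/
theorem sublattice_large {C0 : ℝ} (hC0 : 0 < C0)
    (hrow : ∀ (α c x M N : ℝ) (s : Finset ℕ), 0 < x → 1 ≤ M → 1 ≤ N →
      (∀ n ∈ s, 0 < n ∧ (n : ℝ) ≤ N ∧ NearInt ((n : ℝ) * α - c) (2 * x)) →
      (s.card : ℝ) ≤ C0 * (N * x + N / M + M) ∨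
        ∃ q : ℕ, 0 < q ∧ (q : ℝ) ≤ M ∧ NearInt ((q : ℝ) * α) (M ^ 2 * x / N))
    {β β' x E1 E2 M : ℝ} {R : Finset (ℕ × ℕ)} {d1 d2 : ℕ}
    (hx : 0 < x) (hM : 1 ≤ M) (hxM : x * M ≤ 1) (hE1 : 1 / 2 ≤ E1) (hE2 : 1 / 2 ≤ E2)
    (h1 : 0 < d1) (h2 : 0 < d2) (hle : E1 / d2 ≤ E2 / d1)
    (hA : M ^ 4 < E1 * E2 / (d1 * d2))
    (hR : ∀ p ∈ R, InBox E1 E2 p ∧ Near β β' x p ∧ ¬ InProd β β' x (64 * M ^ 4) p) :
    ((R.filter (fun p => d1 ∣ p.1 ∧ d2 ∣ p.2)).card : ℝ) ≤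
      20 * C0 * (E1 * E2 / (d1 * d2) / M) := by
  have d1p : (0 : ℝ) < d1 := by exact_mod_cast h1
  have d2p : (0 : ℝ) < d2 := by exact_mod_cast h2
  have hE1' : 0 < E1 := by linarith
  have hE2' : 0 < E2 := by linarith
  set A' : ℝ := E1 / d2 with hA'
  set A'' : ℝ := E2 / d1 with hA''
  have hAA : E1 * E2 / (d1 * d2) = A' * A'' := by rw [hA', hA'']; field_simp
  rw [hAA] at hA ⊢
  have hA'0 : 0 < A' := by rw [hA']; positivity
  have hA''0 : 0 < A'' := by rw [hA'']; positivity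
  have hM4 : (M ^ 2) ^ 2 ≤ A'' ^ 2 := by
    have : A' * A'' ≤ A'' * A'' := mul_le_mul_of_nonneg_right hle hA''0.le
    nlinarith
  have hM2 : M ^ 2 ≤ A'' := (pow_le_pow_iff_left₀ (by positivity) hA''0.le (by norm_num)).1 hM4
  have hM1 : 1 ≤ M ^ 2 := one_le_pow₀ hM
  set N : ℝ := 2 * A'' with hN
  have hN1 : 1 ≤ N := by linarith
  set S := R.filter (fun p => d1 ∣ p.1 ∧ d2 ∣ p.2) with hS
  rcases Finset.eq_empty_or_nonempty S with h0 | ⟨p0, hp0⟩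
  · rw [h0]; simp; positivity
  have hrowbd : ∀ a, ((S.filter fun p => p.2 = a).card : ℝ) ≤ C0 * (N * x + N / M + M) := by
    intro a
    set T := S.filter fun p => p.2 = a with hT
    have hmemT : ∀ p ∈ T, p ∈ R ∧ (∃ c, p.1 = d1 * c) ∧ p.2 = a := fun p hp => by
      simp only [hT, hS, mem_filter] at hp
      exact ⟨hp.1.1, hp.1.2.1, hp.2⟩
    have hinj : Set.InjOn (fun p : ℕ × ℕ => p.1 / d1) ↑T := by
      intro p hp q hq h
      obtain ⟨-, ⟨c, hc⟩, hp2⟩ := hmemT p (mem_coe.1 hp)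
      obtain ⟨-, ⟨c', hc'⟩, hq2⟩ := hmemT q (mem_coe.1 hq)
      simp only [hc, hc', Nat.mul_div_cancel_left _ h1] at h
      exact Prod.ext (by rw [hc, hc', h]) (hp2.trans hq2.symm)
    have hside : ∀ z ∈ T.image (fun p => p.1 / d1), 0 < z ∧ (z : ℝ) ≤ N ∧
        NearInt ((z : ℝ) * ((d1 : ℝ) * β) - (a : ℝ) * β') (2 * x) := by
      intro z hz
      obtain ⟨p, hp, rfl⟩ := mem_image.1 hz
      obtain ⟨hpR, ⟨c, hc⟩, hpa⟩ := hmemT p hp
      obtain ⟨⟨hb1, hb2, -⟩, ⟨n, hn⟩, -⟩ := hR p hpR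
      rw [hc, Nat.mul_div_cancel_left _ h1]
      have hcr : (p.1 : ℝ) = (d1 : ℝ) * c := by exact_mod_cast hc
      refine ⟨?_, ?_, ⟨n, ?_⟩⟩
      · rcases Nat.eq_zero_or_pos c with h0 | h0
        · exfalso; rw [h0, Nat.cast_zero, mul_zero] at hcr; linarith
        · exact h0
      · rw [hN, hA'', mul_div_assoc', le_div_iff₀ d1p]; linarith
      · rw [← hpa]
        rw [show (c : ℝ) * ((d1 : ℝ) * β) = (p.1 : ℝ) * β by rw [hcr]; ring]
        exact hn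
    rw [← card_image_of_injOn hinj]
    rcases hrow ((d1 : ℝ) * β) ((a : ℝ) * β') x M N (T.image fun p => p.1 / d1) hx hM hN1 hside with
      hgood | ⟨q, hq0, hqM, hqn⟩
    · exact hgood
    · rcases Finset.eq_empty_or_nonempty T with hTe | ⟨p, hp⟩
      · rw [hTe]; simp; positivity
      exfalso
      obtain ⟨hpR, ⟨c, hc⟩, hpa⟩ := hmemT p hp
      obtain ⟨⟨hb1, hb2, -⟩, hnear, hnot⟩ := hR p hpR
      obtain ⟨n, hn⟩ := hnear
      obtain ⟨u, hu⟩ := hqn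
      have hcN : (c : ℝ) ≤ N := by
        rw [hN, hA'', mul_div_assoc', le_div_iff₀ d1p]
        have : (p.1 : ℝ) = (d1 : ℝ) * c := by exact_mod_cast hc
        linarith
      have hb : |(q : ℝ) * p.1 * β - ((c : ℤ) * u : ℤ)| ≤ M ^ 2 * x := by
        have e : (q : ℝ) * p.1 * β - ((c : ℤ) * u : ℤ) = (c : ℝ) * ((q : ℝ) * ((d1 : ℝ) * β) - u) := by
          rw [hc]; push_cast; ring
        rw [e, abs_mul, Nat.abs_cast]
        refine (mul_le_mul hcN hu.le (abs_nonneg _) (by linarith)).trans_eq ?_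
        field_simp
      have hb' : |(q : ℝ) * p.2 * β' - ((c : ℤ) * u - (q : ℤ) * n : ℤ)| ≤ M ^ 2 * x + M * (2 * x) := by
        have e : (q : ℝ) * p.2 * β' - ((c : ℤ) * u - (q : ℤ) * n : ℤ)
            = ((q : ℝ) * p.1 * β - ((c : ℤ) * u : ℤ)) - (q : ℝ) * ((p.1 : ℝ) * β - (p.2 : ℝ) * β' - n) := by
          push_cast; ring
        rw [e]
        refine (abs_sub _ _).trans (add_le_add hb ?_)
        rw [abs_mul, Nat.abs_cast]
        exact mul_le_mul hqM hn.le (abs_nonneg _) (by linarith)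
      have h4 : M ^ 2 ≤ M ^ 4 := pow_le_pow_right₀ hM (by norm_num)
      have h5 : M ≤ M ^ 4 := le_self_pow₀ hM (by norm_num)
      have h6 := mul_le_mul_of_nonneg_right h4 hx.le
      have h7 := mul_le_mul_of_nonneg_right h5 hx.le
      have h8 : 0 < M ^ 4 * x := by positivity
      refine hnot ⟨q, hq0, by linarith, ⟨_, lt_of_le_of_lt hb ?_⟩, ⟨_, lt_of_le_of_lt hb' ?_⟩⟩
      · linarith
      · linarith
  have himg : ((S.image fun p => p.2).card : ℝ) ≤ 2 * A' + 1 := by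
    have hc : (S.image fun p => p.2).card ≤ (range (⌊2 * A'⌋₊ + 1)).card := by
      refine card_le_card_of_injOn (fun a => a / d2) (fun a ha => ?_) ?_
      · obtain ⟨p, hp, rfl⟩ := mem_image.1 (mem_coe.1 ha)
        simp only [hS, mem_filter] at hp
        refine mem_coe.2 (mem_range.2 (Nat.lt_succ_of_le (Nat.le_floor (Nat.cast_div_le.trans ?_))))
        rw [hA', mul_div_assoc']
        exact div_le_div_of_nonneg_right (hR p hp.1).1.2.2.2.1 d2p.le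
      · intro a ha b hb h
        obtain ⟨p, hp, rfl⟩ := mem_image.1 (mem_coe.1 ha)
        obtain ⟨p', hp', rfl⟩ := mem_image.1 (mem_coe.1 hb)
        simp only [hS, mem_filter] at hp hp'
        rw [← Nat.div_mul_cancel hp.2.2, ← Nat.div_mul_cancel hp'.2.2]
        simp only at h
        rw [h]
    rw [card_range] at hc
    have : ((S.image fun p => p.2).card : ℝ) ≤ (⌊2 * A'⌋₊ : ℝ) + 1 := by exact_mod_cast hc
    linarith [Nat.floor_le (show 0 ≤ 2 * A' by linarith)]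
  have hA'1 : 1 ≤ 2 * A' := by
    simp only [hS, mem_filter] at hp0
    obtain ⟨⟨-, -, hb3, hb4, -⟩, -⟩ := hR p0 hp0.1
    rw [hA', mul_div_assoc', one_le_div d2p]
    rcases Nat.eq_zero_or_pos p0.2 with h0 | h0
    · rw [h0] at hb3; push_cast at hb3; linarith
    · have h9 : (d2 : ℝ) ≤ p0.2 := by exact_mod_cast Nat.le_of_dvd h0 hp0.2.2
      linarith
  have hsum : (S.card : ℝ) =
      ∑ a ∈ S.image (fun p => p.2), ((S.filter fun p => p.2 = a).card : ℝ) := by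
    exact_mod_cast card_eq_sum_card_image (fun p : ℕ × ℕ => p.2) S
  rw [hsum]
  refine (sum_le_card_nsmul _ _ _ fun a _ => hrowbd a).trans ?_
  rw [nsmul_eq_mul]
  have hnn : 0 ≤ C0 * (N * x + N / M + M) := by positivity
  refine (mul_le_mul_of_nonneg_right (show _ ≤ 4 * A' by linarith) hnn).trans ?_
  have k1 : N * x ≤ N / M := by
    rw [le_div_iff₀ (by linarith), mul_assoc]
    exact mul_le_of_le_one_right (by linarith) hxM
  have k2 : M ≤ A'' / M := by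
    rw [le_div_iff₀ (by linarith)]; linarith
  have k3 : N / M = 2 * (A'' / M) := by rw [hN]; ring
  calc 4 * A' * (C0 * (N * x + N / M + M)) ≤ 4 * A' * (C0 * (5 * (A'' / M) / 2 * 2)) := by
        gcongr
        linarith
    _ ≤ 10 * C0 * (A' * A'' / M) * 2 := by
        refine le_of_eq ?_; ring
    _ = _ := by ring

/-- Outside the product part a sublattice of index `d₁ d₂` has `≪ A / M + 1` near points, where
`A = E₁ E₂ / (d₁ d₂)`. -/
theorem exists_sublattice :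
    ∃ C : ℝ, 0 < C ∧ ∀ (β β' x E1 E2 M : ℝ) (R : Finset (ℕ × ℕ)) (d1 d2 : ℕ),
      0 < x → 1 ≤ M → x * M ≤ 1 → 1 / 2 ≤ E1 → 1 / 2 ≤ E2 → 0 < d1 → 0 < d2 →
      (∀ p ∈ R, InBox E1 E2 p ∧ Near β β' x p ∧ ¬ InProd β β' x (C * M ^ 4) p) →
      ((R.filter (fun p => d1 ∣ p.1 ∧ d2 ∣ p.2)).card : ℝ) ≤
        C * (E1 * E2 / (d1 * d2) / M + 1) := by
  obtain ⟨C0, hC0, hrow⟩ := exists_rowCount
  refine ⟨max 64 (20 * C0 + 1), lt_of_lt_of_le (by norm_num) (le_max_left _ _),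
    fun β β' x E1 E2 M R d1 d2 hx hM hxM hE1 hE2 h1 h2 hR => ?_⟩
  set C := max 64 (20 * C0 + 1) with hC
  have hC1 : 64 ≤ C := le_max_left _ _
  have hC2 : 20 * C0 + 1 ≤ C := le_max_right _ _
  have hR' : ∀ p ∈ R, InBox E1 E2 p ∧ Near β β' x p ∧ ¬ InProd β β' x (64 * M ^ 4) p := by
    intro p hp
    obtain ⟨a, b, c⟩ := hR p hp
    refine ⟨a, b, fun ⟨j, j0, j1, ⟨n, hn⟩, ⟨n', hn'⟩⟩ => c ⟨j, j0, ?_, ⟨n, ?_⟩, ⟨n', ?_⟩⟩⟩
    · exact j1.trans (by gcongr)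
    · exact lt_of_lt_of_le hn (by gcongr)
    · exact lt_of_lt_of_le hn' (by gcongr)
  have hA0 : 0 ≤ E1 * E2 / ((d1 : ℝ) * d2) := by
    have : 0 ≤ E1 := by linarith
    have : 0 ≤ E2 := by linarith
    positivity
  set A := E1 * E2 / ((d1 : ℝ) * d2) with hAdef
  have hAM : 0 ≤ A / M := div_nonneg hA0 (by linarith)
  rcases le_or_gt A (M ^ 4) with hA | hA
  · have h := sublattice_small hx h1 h2 hA hR'
    have h' : ((R.filter (fun p => d1 ∣ p.1 ∧ d2 ∣ p.2)).card : ℝ) ≤ 1 := by exact_mod_cast h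
    have : 0 ≤ C * (A / M) := by positivity
    linarith
  · have hfin : 20 * C0 * (A / M) ≤ C * (A / M + 1) := by
      have := mul_le_mul_of_nonneg_right (show 20 * C0 ≤ C by linarith) hAM
      linarith
    refine le_trans ?_ hfin
    rcases le_total (E1 / d2) (E2 / d1) with hle | hle
    · exact sublattice_large hC0 hrow hx hM hxM hE1 hE2 h1 h2 hle hA hR'
    · have e : E2 * E1 / ((d2 : ℝ) * d1) = A := by rw [hAdef]; ring
      have h := sublattice_large (R := R.map ⟨Prod.swap, Prod.swap_injective⟩) (β := β') (β' := β)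
        hC0 hrow hx hM hxM hE2 hE1 h2 h1 hle (e ▸ hA) ?_
      · rw [e, filter_map, card_map] at h
        refine le_of_eq_of_le ?_ h
        congr 2
        ext p
        simp [and_comm]
      · intro p hp
        obtain ⟨q, hq, rfl⟩ := mem_map.1 hp
        obtain ⟨⟨b1, b2, b3, b4, b5⟩, ⟨n, hn⟩, b7⟩ := hR' q hq
        refine ⟨⟨b3, b4, b1, b2, b5.symm⟩, ⟨-n, ?_⟩, fun h => b7 (inProd_swap h)⟩
        simp only [Function.Embedding.coeFn_mk, Prod.fst_swap, Prod.snd_swap]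
        push_cast
        rw [← abs_neg]
        convert hn using 2
        ring

end Vale.Agent.P028.Lift
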