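import Vale.Agent.P028.Lift.Sep

/-!
A set `{a ≍ E : ‖j a β‖ < W x}` lies in one progression or is thin.
-/

noncomputable section

namespace Vale.Agent.P028.Lift

open Finset

/-- Two different rationals differ by at least the inverse of the product of the denominators. -/
theorem rat_sep {r s : ℚ} (h : r ≠ s) : 1 / ((r.den : ℝ) * s.den) ≤ |(r : ℝ) - s| := by
  have hr : (0 : ℝ) < r.den := by exact_mod_cast r.pos
  have hs : (0 : ℝ) < s.den := by exact_mod_cast s.pos
  have hne : r.num * s.den - s.num * r.den ≠ 0 := by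
    rw [sub_ne_zero]
    exact fun e => h (Rat.eq_iff_mul_eq_mul.2 e)
  have h1 : (1 : ℝ) ≤ |((r.num * s.den - s.num * r.den : ℤ) : ℝ)| := by
    exact_mod_cast Int.one_le_abs hne
  rw [Rat.cast_def r, Rat.cast_def s, div_sub_div _ _ hr.ne' hs.ne', abs_div,
    abs_of_pos (mul_pos hr hs)]
  refine div_le_div_of_nonneg_right (h1.trans_eq ?_) (mul_pos hr hs).le
  push_cast
  ring_nf

/-- The elements are all multiples of one small modulus, or there are only about `j W x E` of them. -/
theorem exists_thin :
    ∃ C : ℝ, 0 < C ∧ ∀ (β x W E : ℝ) (j : ℕ) (B : Finset ℕ),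
      0 < x → 1 ≤ W → 1 / 2 ≤ E → 0 < j →
      (∀ a ∈ B, E < (a : ℝ) ∧ (a : ℝ) ≤ 2 * E ∧ NearInt ((j : ℝ) * a * β) (W * x)) →
      (∃ (P : ℕ) (u : ℤ), 0 < P ∧ (P : ℝ) * (4 * W * x) < 1 ∧ IsCoprime u (P : ℤ) ∧
        |β - u / P| ≤ W * x / (j * E) ∧
        ∀ a ∈ B, P ∣ j * a) ∨
      (B.card : ℝ) ≤ C * j * W * x * E * Real.log (2 + j * E) := by
  refine ⟨240, by norm_num, fun β x W E j B hx hW hE hj hB => ?_⟩
  have hE0 : 0 < E := by linarith
  have hW0 : 0 < W := by linarith
  have hjr : (1 : ℝ) ≤ j := by exact_mod_cast hj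
  have hjE : 0 < (j : ℝ) * E := by positivity
  choose! t ht using fun a ha => (hB a ha).2.2
  let r : ℕ → ℚ := fun a => (t a : ℚ) / ((j * a : ℕ) : ℚ)
  have hpos : ∀ a ∈ B, 0 < j * a := by
    intro a ha
    have : (0 : ℝ) < a := hE0.trans (hB a ha).1
    exact Nat.mul_pos hj (by exact_mod_cast this)
  have hdvd : ∀ a, (r a).den ∣ j * a := by
    intro a
    have h := Rat.den_dvd (t a) ((j * a : ℕ) : ℤ)
    rw [Rat.divInt_eq_div, Int.cast_natCast] at h
    exact Int.natCast_dvd_natCast.1 h
  have hden : ∀ a ∈ B, ((r a).den : ℝ) ≤ 2 * (j * E) := by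
    intro a ha
    have h : ((r a).den : ℝ) ≤ ((j * a : ℕ) : ℝ) := by
      exact_mod_cast Nat.le_of_dvd (hpos a ha) (hdvd a)
    push_cast at h
    have := mul_le_mul_of_nonneg_left (hB a ha).2.1 (show (0 : ℝ) ≤ j by linarith)
    linarith
  have hclose : ∀ a ∈ B, |β - (r a : ℝ)| < W * x / (j * E) := by
    intro a ha
    have ha0 : (0 : ℝ) < a := hE0.trans (hB a ha).1
    have e : β - (r a : ℝ) = ((j : ℝ) * a * β - t a) / ((j : ℝ) * a) := by
      simp only [r]; push_cast; field_simp
    rw [e, abs_div, abs_of_pos (show 0 < (j : ℝ) * a by positivity)]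
    refine lt_of_lt_of_le (div_lt_div_of_pos_right (ht a ha) (by positivity)) ?_
    exact div_le_div_of_nonneg_left (by positivity) hjE
      (mul_le_mul_of_nonneg_left (hB a ha).1.le (by linarith))
  have hdiff : ∀ a ∈ B, ∀ b ∈ B, |(r a : ℝ) - r b| ≤ 2 * (W * x / (j * E)) := by
    intro a ha b hb
    have h1 := abs_sub_le (r a : ℝ) β (r b : ℝ)
    rw [abs_sub_comm (r a : ℝ) β] at h1
    linarith [hclose a ha, hclose b hb]
  by_cases hsmall : ∃ a ∈ B, ((r a).den : ℝ) * (4 * W * x) < 1
  · left
    obtain ⟨a0, ha0, hs⟩ := hsmall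
    refine ⟨(r a0).den, (r a0).num, (r a0).pos, hs, ?_, ?_, fun a ha => ?_⟩
    · rw [Int.isCoprime_iff_gcd_eq_one]
      simpa [Int.gcd] using (r a0).reduced
    · rw [← Rat.cast_def]; exact (hclose a0 ha0).le
    · have heq : r a = r a0 := by
        by_contra hne
        have h1 := (rat_sep hne).trans (hdiff a ha a0 ha0)
        have d1 : (0 : ℝ) < (r a).den := by exact_mod_cast (r a).pos
        have d0 : (0 : ℝ) < (r a0).den := by exact_mod_cast (r a0).pos
        rw [mul_div_assoc', div_le_div_iff₀ (mul_pos d1 d0) hjE] at h1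
        have h2 := mul_le_mul_of_nonneg_left (hden a ha)
          (show 0 ≤ 2 * (W * x) * ((r a0).den : ℝ) by positivity)
        have h3 : ((r a0).den : ℝ) * (4 * W * x) * (j * E) < 1 * (j * E) :=
          mul_lt_mul_of_pos_right hs hjE
        linarith
      exact heq ▸ hdvd a
  · right
    push Not at hsmall
    let κ : ℕ → ℕ := fun a => Nat.log 2 (r a).den
    have hblock : ∀ k, ((B.filter fun a => κ a = k).card : ℝ) ≤ 48 * (j * W * x * E) := by
      intro k
      set Bk := B.filter fun a => κ a = k with hBk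
      rcases Finset.eq_empty_or_nonempty Bk with h0 | ⟨a0, ha0⟩
      · rw [h0]; simp; positivity
      have hk : ∀ a ∈ Bk, a ∈ B ∧ (2 : ℝ) ^ k ≤ (r a).den ∧ ((r a).den : ℝ) < 2 * 2 ^ k := by
        intro a ha
        simp only [hBk, mem_filter, κ] at ha
        refine ⟨ha.1, ?_, ?_⟩
        · have := Nat.pow_log_le_self 2 (r a).pos.ne'
          rw [ha.2] at this
          exact_mod_cast this
        · have := Nat.lt_pow_succ_log_self (show 1 < 2 by norm_num) (r a).den
          rw [ha.2, pow_succ'] at this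
          exact_mod_cast this
      set K : ℝ := 2 ^ k with hK
      have hK0 : 0 < K := by positivity
      have hval : ((Bk.image r).card : ℝ) ≤ 2 * (W * x / (j * E)) * (4 * K ^ 2) + 1 := by
        refine (card_le_of_separated _ (fun q : ℚ => (q : ℝ)) (lo := β - W * x / (j * E))
          (σ := 2 * (W * x / (j * E))) (g := 1 / (4 * K ^ 2)) (by positivity) (by positivity)
          ?_ ?_).trans_eq (by rw [div_div_eq_mul_div, div_one])
        · intro q hq
          obtain ⟨a, ha, rfl⟩ := mem_image.1 hq
          have := abs_lt.1 (hclose a (hk a ha).1)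
          constructor <;> linarith
        · intro q hq q' hq' hne
          obtain ⟨a, ha, rfl⟩ := mem_image.1 hq
          obtain ⟨b, hb, rfl⟩ := mem_image.1 hq'
          refine le_trans ?_ (rat_sep hne)
          obtain ⟨-, -, h1⟩ := hk a ha
          obtain ⟨-, -, h2⟩ := hk b hb
          have d1 : (0 : ℝ) < (r a).den := by exact_mod_cast (r a).pos
          have d2 : (0 : ℝ) < (r b).den := by exact_mod_cast (r b).pos
          refine one_div_le_one_div_of_le (mul_pos d1 d2) ?_
          calc ((r a).den : ℝ) * (r b).den ≤ (2 * K) * (2 * K) :=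
                mul_le_mul h1.le h2.le d2.le (by positivity)
            _ = 4 * K ^ 2 := by ring
      have hfib : ∀ q ∈ Bk.image r,
          ((Bk.filter fun a => r a = q).card : ℝ) ≤ 2 * (j * E) / K := by
        intro q hq
        obtain ⟨a1, ha1, rfl⟩ := mem_image.1 hq
        set P := (r a1).den with hP
        have hP0 : 0 < P := (r a1).pos
        have hc : (Bk.filter fun a => r a = r a1).card ≤ (Icc 1 ⌊2 * (j * E) / P⌋₊).card := by
          refine card_le_card_of_injOn (fun a => j * a / P) (fun a ha => ?_) ?_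
          · simp only [mem_coe, mem_filter] at ha
            have haB := (hk a ha.1).1
            have hd : P ∣ j * a := by rw [hP, ← ha.2]; exact hdvd a
            refine mem_coe.2 (mem_Icc.2 ⟨Nat.div_pos (Nat.le_of_dvd (hpos a haB) hd) hP0, ?_⟩)
            refine Nat.le_floor (Nat.cast_div_le.trans (div_le_div_of_nonneg_right ?_ (by positivity)))
            push_cast
            have := mul_le_mul_of_nonneg_left (hB a haB).2.1 (show (0 : ℝ) ≤ j by linarith)
            linarith
          · intro a ha b hb h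
            simp only [mem_coe, mem_filter] at ha hb
            have hd : P ∣ j * a := by rw [hP, ← ha.2]; exact hdvd a
            have hd' : P ∣ j * b := by rw [hP, ← hb.2]; exact hdvd b
            have h' : j * a = j * b := by
              rw [← Nat.div_mul_cancel hd, ← Nat.div_mul_cancel hd']
              exact congrArg (· * P) h
            exact Nat.eq_of_mul_eq_mul_left hj h'
        rw [Nat.card_Icc] at hc
        have hc' : ((Bk.filter fun a => r a = r a1).card : ℝ) ≤ (⌊2 * (j * E) / P⌋₊ : ℝ) := by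
          exact_mod_cast (by omega : (Bk.filter fun a => r a = r a1).card ≤ ⌊2 * (j * E) / (P : ℝ)⌋₊)
        refine hc'.trans ((Nat.floor_le (by positivity)).trans ?_)
        exact div_le_div_of_nonneg_left (by positivity) hK0 (hk a1 ha1).2.1
      have hsum : (Bk.card : ℝ) = ∑ q ∈ Bk.image r, ((Bk.filter fun a => r a = q).card : ℝ) := by
        exact_mod_cast card_eq_sum_card_image r Bk
      rw [hsum]
      refine (sum_le_card_nsmul _ _ _ hfib).trans ?_
      rw [nsmul_eq_mul]
      refine (mul_le_mul_of_nonneg_right hval (by positivity)).trans ?_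
      have e : (2 * (W * x / (j * E)) * (4 * K ^ 2) + 1) * (2 * (j * E) / K)
          = 16 * (W * x) * K + 2 * (j * E) / K := by field_simp; ring
      obtain ⟨ha0B, hlo, hhi⟩ := hk a0 ha0
      have k1 : 16 * (W * x) * K ≤ 32 * (j * W * x * E) :=
        (mul_le_mul_of_nonneg_left (hlo.trans (hden a0 ha0B)) (by positivity)).trans_eq (by ring)
      have k2 : 2 * (j * E) / K ≤ 16 * (j * W * x * E) := by
        rw [div_le_iff₀ hK0]
        have h1 : 1 ≤ 2 * K * (4 * W * x) :=
          (hsmall a0 ha0B).trans (mul_le_mul_of_nonneg_right hhi.le (by positivity))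
        have h2 := mul_le_mul_of_nonneg_left h1 (show 0 ≤ 2 * ((j : ℝ) * E) by positivity)
        linarith
      rw [e]; linarith
    set L := Real.log (2 + j * E) with hL
    have himg : ((B.image κ).card : ℝ) ≤ 5 * L := by
      set m := Nat.log 2 ⌊2 * ((j : ℝ) * E)⌋₊ with hm
      have hc : (B.image κ).card ≤ (range (m + 1)).card := card_le_card fun k hk => by
        obtain ⟨a, ha, rfl⟩ := mem_image.1 hk
        exact mem_range.2 (Nat.lt_succ_of_le (Nat.log_mono_right (Nat.le_floor (hden a ha))))
      rw [card_range] at hc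
      have hfl : 1 ≤ ⌊2 * ((j : ℝ) * E)⌋₊ := by
        apply Nat.le_floor
        have := mul_le_mul hjr hE (by norm_num) (by linarith)
        push_cast
        linarith
      have h2m : (2 : ℝ) ^ m ≤ (2 + j * E) ^ 2 := by
        have h1 : ((2 ^ m : ℕ) : ℝ) ≤ ⌊2 * ((j : ℝ) * E)⌋₊ := by
          exact_mod_cast Nat.pow_log_le_self 2 (by omega : ⌊2 * ((j : ℝ) * E)⌋₊ ≠ 0)
        push_cast at h1
        have h2 := Nat.floor_le (show 0 ≤ 2 * ((j : ℝ) * E) by positivity)
        nlinarith
      have h3 := Real.log_le_log (by positivity) h2m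
      rw [Real.log_pow, Real.log_pow, ← hL] at h3
      have h4 : Real.log 2 ≤ L := Real.log_le_log (by norm_num) (by linarith)
      have h5 := Real.log_two_gt_d9
      have hc' : ((B.image κ).card : ℝ) ≤ (m : ℝ) + 1 := by exact_mod_cast hc
      push_cast at h3
      have h6 : (m : ℝ) * 0.69 ≤ (m : ℝ) * Real.log 2 :=
        mul_le_mul_of_nonneg_left (by linarith) (Nat.cast_nonneg _)
      linarith
    have hsum : (B.card : ℝ) = ∑ k ∈ B.image κ, ((B.filter fun a => κ a = k).card : ℝ) := by
      exact_mod_cast card_eq_sum_card_image κ B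
    rw [hsum]
    refine (sum_le_card_nsmul _ _ _ fun k _ => hblock k).trans ?_
    rw [nsmul_eq_mul]
    refine (mul_le_mul_of_nonneg_right himg (by positivity)).trans_eq ?_
    ring

end Vale.Agent.P028.Lift
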