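import Vale.Agent.P028.Lift.Matching
import Vale.Agent.P028.Lift.Sublattice
import Vale.Agent.P028.Lift.Count
import Vale.Agent.P028.Lift.Thin
import Vale.Agent.P028.Lift.Ratio

/-!
The theorem of the lifted module for one box.

All exponents are powers of a base `U`, the level being `x = U ^ (-1000)`: the weight of the near
pairs of a box with `E₁ E₂ ≤ U ^ 2020`, apart from those tied by an exact relation with admissible
nodes, saves the power `U ^ (-1/8)`.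
-/

noncomputable section

namespace Vale.Agent.P028.Lift

open Finset

/-- An exact relation whose two fractions are short enough to be the nodes of the two sides. -/
def NodeExact (β β' x E1 E2 : ℝ) (p : ℕ × ℕ) : Prop :=
  ∃ (P : ℕ) (u u' n : ℤ), 0 < P ∧ (P : ℝ) ^ 2 * x ≤ x ^ (1 / 4 : ℝ) * min E1 E2 ∧
    |(P : ℝ) * β - u| ^ 2 * E2 ≤ x ^ (1 / 4 : ℝ) * x ∧
    |(P : ℝ) * β' - u'| ^ 2 * E1 ≤ x ^ (1 / 4 : ℝ) * x ∧
    |(p.1 : ℝ) * β - (p.2 : ℝ) * β' - n| < 2 * x ∧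
    (P : ℤ) * n = (p.1 : ℤ) * u - (p.2 : ℤ) * u'

theorem ratioWeight_eq_sum {F F' : ℕ → ℝ} {V W : Finset ℕ} (R : Finset (ℕ × ℕ)) :
    ratioWeight F F' V W R = ∑ p ∈ R, ∑ v ∈ V,
      ∑ w ∈ W.filter (fun w => (qd w v, qd v w) = p), F v * F' w := by
  rw [ratioWeight, Finset.sum_comm (s := R)]
  refine Finset.sum_congr rfl fun v _ => ?_
  simp only [Finset.sum_filter]
  rw [Finset.sum_comm (s := R)]
  refine Finset.sum_congr rfl fun w _ => ?_
  rw [Finset.sum_ite_eq]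

theorem ratioWeight_nonneg {F F' : ℕ → ℝ} {V W : Finset ℕ} (hF : ∀ v, 0 ≤ F v)
    (hF' : ∀ w, 0 ≤ F' w) (R : Finset (ℕ × ℕ)) : 0 ≤ ratioWeight F F' V W R :=
  Finset.sum_nonneg fun v _ => Finset.sum_nonneg fun w _ => mul_nonneg (hF v) (hF' w)

theorem ratioWeight_mono {F F' : ℕ → ℝ} {V W : Finset ℕ} (hF : ∀ v, 0 ≤ F v)
    (hF' : ∀ w, 0 ≤ F' w) {R R' : Finset (ℕ × ℕ)} (h : R ⊆ R') :
    ratioWeight F F' V W R ≤ ratioWeight F F' V W R' := by
  rw [ratioWeight_eq_sum, ratioWeight_eq_sum]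
  exact Finset.sum_le_sum_of_subset_of_nonneg h fun p _ _ =>
    Finset.sum_nonneg fun v _ => Finset.sum_nonneg fun w _ => mul_nonneg (hF v) (hF' w)

theorem ratioWeight_union_le {F F' : ℕ → ℝ} {V W : Finset ℕ} (hF : ∀ v, 0 ≤ F v)
    (hF' : ∀ w, 0 ≤ F' w) (R R' : Finset (ℕ × ℕ)) :
    ratioWeight F F' V W (R ∪ R') ≤ ratioWeight F F' V W R + ratioWeight F F' V W R' := by
  simp only [ratioWeight_eq_sum]
  rw [← Finset.sum_union_inter]
  exact le_add_of_nonneg_right (Finset.sum_nonneg fun p _ =>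
    Finset.sum_nonneg fun v _ => Finset.sum_nonneg fun w _ => mul_nonneg (hF v) (hF' w))

theorem ratioWeight_biUnion_le {F F' : ℕ → ℝ} {V W : Finset ℕ} (hF : ∀ v, 0 ≤ F v)
    (hF' : ∀ w, 0 ≤ F' w) {ι : Type*} [DecidableEq ι] (J : Finset ι)
    (R : ι → Finset (ℕ × ℕ)) :
    ratioWeight F F' V W (J.biUnion R) ≤ ∑ j ∈ J, ratioWeight F F' V W (R j) := by
  induction J using Finset.induction_on with
  | empty => simp [ratioWeight]
  | insert j J hj ih =>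
    rw [Finset.biUnion_insert, Finset.sum_insert hj]
    exact (ratioWeight_union_le hF hF' _ _).trans (by linarith)

theorem rpow_quarter {U : ℝ} (hU : 0 < U) :
    ((U ^ 1000)⁻¹) ^ (1 / 4 : ℝ) = (U ^ 250)⁻¹ := by
  rw [Real.inv_rpow (by positivity), ← Real.rpow_natCast U 1000, ← Real.rpow_mul hU.le,
    show ((1000 : ℕ) : ℝ) * (1 / 4) = ((250 : ℕ) : ℝ) by norm_num, Real.rpow_natCast]

/-- Logarithms of polynomially bounded quantities are at most the base. -/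
theorem log_le_base {U t : ℝ} (hU : 10 ^ 8 ≤ U) (ht : 0 < t) (h : t ≤ U ^ 3000) :
    Real.log t ≤ U := by
  have hU0 : 0 < U := lt_of_lt_of_le (by norm_num) hU
  refine (Real.log_le_log ht h).trans ?_
  rw [Real.log_pow]
  have hs : Real.sqrt U * Real.sqrt U = U := Real.mul_self_sqrt hU0.le
  have hs0 : (10 : ℝ) ^ 4 ≤ Real.sqrt U := by
    rw [show (10 : ℝ) ^ 4 = Real.sqrt (10 ^ 8) by
      rw [show (10 : ℝ) ^ 8 = (10 ^ 4) ^ 2 by norm_num, Real.sqrt_sq (by norm_num)]]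
    exact Real.sqrt_le_sqrt hU
  have h2 : Real.log U ≤ 2 * (Real.sqrt U) := by
    have := Real.log_le_sub_one_of_pos (Real.sqrt_pos.2 hU0)
    rw [Real.log_sqrt hU0.le] at this
    linarith
  push_cast
  nlinarith

/-- The shape of the linear bounds: both exponents stay below one. -/
def prodShape (m m' : ℝ) : ℝ :=
  m ^ (1 - 1 / 10000 : ℝ) * m' ^ (1 / 10000 : ℝ) + m ^ (1 / 10000 : ℝ) * m' ^ (1 - 1 / 10000 : ℝ)

theorem prodShape_nonneg {m m' : ℝ} (hm : 0 ≤ m) (hm' : 0 ≤ m') : 0 ≤ prodShape m m' := by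
  unfold prodShape; positivity

/-- The matching bound of a box with sides up to a power of the base. -/
theorem matching_le {U E1 E2 x : ℝ} {F F' : ℕ → ℝ} {V W : Finset ℕ} (hfam : Fams F F' V W E1 E2 x)
    (R : Finset (ℕ × ℕ)) (hU : 2 ≤ U) (hA : E1 ≤ U ^ 2021) (hB : E2 ≤ U ^ 2021) :
    ratioWeight F F' V W R ≤ R.card * (2 * x * U ^ (1 / 4 : ℝ) / max E1 E2) *
      prodShape (∑ v ∈ V, F v) (∑ w ∈ W, F' w) := by
  have hE1 : 0 < E1 := by linarith [hfam.half_le_E1]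
  have hE2 : 0 < E2 := by linarith [hfam.half_le_E2]
  have hx := hfam.x_pos
  have hm : 0 ≤ ∑ v ∈ V, F v := Finset.sum_nonneg fun v _ => hfam.F_nonneg v
  have hm' : 0 ≤ ∑ w ∈ W, F' w := Finset.sum_nonneg fun w _ => hfam.F'_nonneg w
  have hU0 : 0 < U := by linarith
  have hpow : ∀ A B : ℝ, A ≤ U ^ 2021 → 1 / 2 ≤ B → 0 < A →
      (A / B) ^ (1 / 10000 : ℝ) ≤ U ^ (1 / 4 : ℝ) := by
    intro A B hA hB hA0
    have hB0 : 0 < B := by linarith
    have h1 : A / B ≤ U ^ 2022 := by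
      rw [div_le_iff₀ hB0]
      calc A ≤ U ^ 2021 := hA
        _ ≤ U ^ 2021 * (U * B) := le_mul_of_one_le_right (pow_nonneg hU0.le _) (by nlinarith)
        _ = U ^ 2022 * B := by ring
    refine (Real.rpow_le_rpow (div_nonneg hA0.le hB0.le) h1 (by norm_num)).trans ?_
    rw [← Real.rpow_natCast U 2022, ← Real.rpow_mul hU0.le]
    exact Real.rpow_le_rpow_of_exponent_le (by linarith) (by norm_num)
  have key : ∀ (A B a b : ℝ), 0 < A → 0 < B → 0 ≤ a → 0 ≤ b →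
      (a / A) ^ (1 - 1 / 10000 : ℝ) * (b / B) ^ (1 / 10000 : ℝ) =
        (A / B) ^ (1 / 10000 : ℝ) / A * (a ^ (1 - 1 / 10000 : ℝ) * b ^ (1 / 10000 : ℝ)) := by
    intro A B a b hA hB ha hb
    rw [Real.div_rpow ha hA.le, Real.div_rpow hb hB.le, Real.div_rpow hA.le hB.le,
      Real.rpow_sub hA, Real.rpow_one]
    have : (0 : ℝ) < A ^ (1 / 10000 : ℝ) := by positivity
    have : (0 : ℝ) < B ^ (1 / 10000 : ℝ) := by positivity
    field_simp
  generalize hmd : ∑ v ∈ V, F v = m at hm ⊢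
  generalize hmd' : ∑ w ∈ W, F' w = m' at hm' ⊢
  rcases le_total E2 E1 with hle | hle
  · refine (ratioWeight_le_card_prod hfam R (t := 1 / 10000) (by norm_num) (by norm_num)).trans ?_
    rw [hmd, hmd', mul_assoc, key E1 E2 m m' hE1 hE2 hm hm', max_eq_left hle]
    have h2 := hpow E1 E2 hA hfam.half_le_E2 hE1
    calc (R.card : ℝ) * (2 * x) * ((E1 / E2) ^ (1 / 10000 : ℝ) / E1 *
          (m ^ (1 - 1 / 10000 : ℝ) * m' ^ (1 / 10000 : ℝ)))
        ≤ (R.card : ℝ) * (2 * x) * (U ^ (1 / 4 : ℝ) / E1 * prodShape m m') := by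
          gcongr
          exact le_add_of_nonneg_right (by positivity)
      _ = _ := by ring
  · refine (ratioWeight_le_card_prod hfam R (t := 1 - 1 / 10000) (by norm_num) (by norm_num)).trans ?_
    rw [hmd, hmd', mul_assoc, sub_sub_cancel, mul_comm ((m / E1) ^ _),
      key E2 E1 m' m hE2 hE1 hm' hm, max_eq_right hle]
    have h2 := hpow E2 E1 hB hfam.half_le_E1 hE2
    calc (R.card : ℝ) * (2 * x) * ((E2 / E1) ^ (1 / 10000 : ℝ) / E2 *
          (m' ^ (1 - 1 / 10000 : ℝ) * m ^ (1 / 10000 : ℝ)))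
        ≤ (R.card : ℝ) * (2 * x) * (U ^ (1 / 4 : ℝ) / E2 * prodShape m m') := by
          gcongr
          rw [mul_comm]
          exact le_add_of_nonneg_left (by positivity)
      _ = _ := by ring

/-- A box of small area: few near points lack an exact relation between nodes. -/
theorem exists_count_case :
    ∃ C : ℝ, 0 < C ∧ ∀ (U β β' E1 E2 : ℝ) (R : Finset (ℕ × ℕ)),
      C ≤ U → 1 / 2 ≤ E1 → 1 / 2 ≤ E2 → E1 * E2 ≤ U ^ 1001 →
      (∀ p ∈ R, InBox E1 E2 p ∧ Near β β' (U ^ 1000)⁻¹ p ∧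
        ¬ NodeExact β β' (U ^ 1000)⁻¹ E1 E2 p) →
      (max E1 E2 < U ^ 8 → R.card ≤ 1) ∧
        (U ^ 8 ≤ max E1 E2 → (R.card : ℝ) ≤ C * max E1 E2 / U ^ 3) := by
  obtain ⟨C1, hC1, hcount⟩ := exists_count
  refine ⟨4 * C1 ^ 2 + 4 * C1 + 10, by positivity, ?_⟩
  intro U β β' E1 E2 R hU hE1 hE2 hT2 hR
  set x : ℝ := (U ^ 1000)⁻¹ with hx
  have hU10 : (10 : ℝ) ≤ U := le_trans (by nlinarith [sq_nonneg C1]) hU
  have hU1 : (1 : ℝ) ≤ U := by linarith
  have hU0 : 0 < U := by linarith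
  have hx0 : 0 < x := by positivity
  have hC1U : C1 ≤ U := le_trans (by nlinarith [sq_nonneg C1]) hU
  have hC1U2 : 4 * C1 ^ 2 ≤ U := le_trans (by nlinarith) hU
  set T := max E1 E2 with hT
  set m := min E1 E2 with hm
  have hm2 : 1 / 2 ≤ m := le_min hE1 hE2
  have hT0 : 0 < T := lt_max_of_lt_left (by linarith)
  have hmT : m * T = E1 * E2 := min_mul_max E1 E2
  -- an exact relation with short denominator is one between nodes
  have hnode : ∀ (Q : ℝ) (p : ℕ × ℕ), 0 ≤ Q → Q ≤ U ^ 8 →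
      ExactRel β β' x (C1 * (m * Q)) (C1 * x * Q * (E1 / T)) (C1 * x * Q * (E2 / T)) p →
      NodeExact β β' x E1 E2 p := by
    rintro Q p hQ0 hQ ⟨P, u, u', n, hP, hPQ, h1, h2, h3, h4⟩
    have hmb : m ≤ U ^ 501 := by
      by_contra hc
      push Not at hc
      have h5 : U ^ 501 * U ^ 501 < m * T := mul_lt_mul'' hc
        (lt_of_lt_of_le hc (min_le_max)) (by positivity) (by positivity)
      rw [hmT, ← pow_add] at h5
      exact absurd (le_trans hT2 (pow_le_pow_right₀ hU1 (by norm_num))) (not_le.2 h5)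
    have hkey : C1 ^ 2 * Q ^ 2 * m * x ≤ (U ^ 250)⁻¹ := by
      calc C1 ^ 2 * Q ^ 2 * m * x ≤ U * (U ^ 8) ^ 2 * U ^ 501 * x := by
            gcongr
            nlinarith
        _ ≤ U ^ 750 * x := by
            refine mul_le_mul_of_nonneg_right ?_ hx0.le
            calc U * (U ^ 8) ^ 2 * U ^ 501 = U ^ 518 := by ring
              _ ≤ U ^ 750 := pow_le_pow_right₀ hU1 (by norm_num)
        _ = (U ^ 250)⁻¹ := by rw [hx]; field_simp
    have hratio : ∀ A B : ℝ, 0 ≤ A → 0 ≤ B → A * B = E1 * E2 → A ≤ T → B ≤ T →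
        (A / T) ^ 2 * B ≤ m := by
      intro A B hA hB hAB hAT hBT
      rw [div_pow, div_mul_eq_mul_div, div_le_iff₀ (by positivity)]
      calc A ^ 2 * B = (A * B) * A := by ring
        _ ≤ (m * T) * T := by rw [hAB, ← hmT]; gcongr
        _ = m * T ^ 2 := by ring
    have herr : ∀ (A B e : ℝ), 0 ≤ A → 0 ≤ B → A * B = E1 * E2 → A ≤ T → B ≤ T →
        |e| ≤ C1 * x * Q * (A / T) → |e| ^ 2 * B ≤ x ^ (1 / 4 : ℝ) * x := by
      intro A B e hA hB hAB hAT hBT he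
      rw [hx, rpow_quarter hU0, ← hx]
      calc |e| ^ 2 * B ≤ (C1 * x * Q * (A / T)) ^ 2 * B := by gcongr
        _ = C1 ^ 2 * x ^ 2 * Q ^ 2 * ((A / T) ^ 2 * B) := by ring
        _ ≤ C1 ^ 2 * x ^ 2 * Q ^ 2 * m := by
            gcongr
            exact hratio A B hA hB hAB hAT hBT
        _ = (C1 ^ 2 * Q ^ 2 * m * x) * x := by ring
        _ ≤ _ := mul_le_mul_of_nonneg_right hkey hx0.le
    refine ⟨P, u, u', n, hP, ?_, ?_, ?_, h3, h4⟩
    · rw [hx, rpow_quarter hU0, ← hx]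
      calc (P : ℝ) ^ 2 * x ≤ (C1 * (m * Q)) ^ 2 * x := by gcongr
        _ = (C1 ^ 2 * Q ^ 2 * m * x) * m := by ring
        _ ≤ _ := mul_le_mul_of_nonneg_right hkey (by positivity)
    · exact herr E1 E2 _ (by positivity) (by positivity) rfl (le_max_left _ _) (le_max_right _ _) h1
    · exact herr E2 E1 _ (by positivity) (by positivity) (mul_comm _ _) (le_max_right _ _)
        (le_max_left _ _) h2
  constructor
  · intro hsmall
    have hk : C1 * x * (E1 * E2) < ((1 : ℕ) : ℝ) := by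
      calc C1 * x * (E1 * E2) ≤ U * x * (U ^ 8 * U ^ 8) := by
            gcongr
            · exact (lt_of_le_of_lt (le_max_left _ _) hsmall).le
            · exact (lt_of_le_of_lt (le_max_right _ _) hsmall).le
        _ = U ^ 17 / U ^ 1000 := by rw [hx]; ring
        _ < ((1 : ℕ) : ℝ) := by
            rw [Nat.cast_one, div_lt_one (by positivity)]
            exact pow_lt_pow_right₀ (by linarith) (by norm_num)
    obtain ⟨R', hsub, hcard, hex⟩ := hcount β β' x E1 E2 1 1 R hx0 hE1 hE2 one_pos one_pos hk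
      (fun p hp => ⟨(hR p hp).1, (hR p hp).2.1⟩)
    have hRR : R ⊆ R' := by
      intro p hp
      by_contra hc
      refine (hR p hp).2.2 (hnode T p hT0.le hsmall.le ?_)
      have := hex p (Finset.mem_sdiff.2 ⟨hp, hc⟩)
      have hTne : T ≠ 0 := hT0.ne'
      convert this using 2
      · rw [hmT]; simp
      · field_simp; simp
      · field_simp; simp
    simpa using (Finset.card_le_card hRR).trans hcard
  · intro hbig
    set k : ℕ := ⌊C1 * x * (E1 * E2)⌋₊ + 1 with hk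
    set N : ℕ := ⌈T / U ^ 4⌉₊ with hN
    have hNpos : 0 < N := Nat.ceil_pos.2 (by positivity)
    obtain ⟨R', hsub, hcard, hex⟩ := hcount β β' x E1 E2 k N R hx0 hE1 hE2 (Nat.succ_pos _) hNpos
      (by rw [hk]; exact_mod_cast Nat.lt_floor_add_one _)
      (fun p hp => ⟨(hR p hp).1, (hR p hp).2.1⟩)
    have hkR : (k : ℝ) ≤ (C1 + 1) * U := by
      rw [hk]; push_cast
      have h1 : C1 * x * (E1 * E2) ≤ C1 * U := by
        calc C1 * x * (E1 * E2) ≤ C1 * x * U ^ 1001 := by gcongr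
          _ = C1 * U := by rw [hx]; field_simp
      have h2 := Nat.floor_le (show (0:ℝ) ≤ C1 * x * (E1 * E2) by positivity)
      nlinarith
    have hN2 : (N : ℝ) ≤ 2 * (T / U ^ 4) := by
      have h1 : 1 ≤ T / U ^ 4 := by
        rw [le_div_iff₀ (by positivity), one_mul]
        exact le_trans (pow_le_pow_right₀ hU1 (by norm_num)) hbig
      have := Nat.ceil_lt_add_one (show 0 ≤ T / U ^ 4 by positivity)
      rw [hN]; linarith
    have hkN : T / U ^ 4 ≤ (k : ℝ) * N := by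
      calc T / U ^ 4 ≤ (N : ℝ) := Nat.le_ceil _
        _ ≤ (k : ℝ) * N := le_mul_of_one_le_left (Nat.cast_nonneg N)
            (by exact_mod_cast Nat.succ_pos _)
    have hRR : R ⊆ R' := by
      intro p hp
      by_contra hc
      obtain ⟨P, u, u', n, hP, hPQ, h1, h2, h3, h4⟩ := hex p (Finset.mem_sdiff.2 ⟨hp, hc⟩)
      have hNle : T / U ^ 4 ≤ (N : ℝ) := Nat.le_ceil _
      have hTU : 0 < T / U ^ 4 := by positivity
      refine (hR p hp).2.2 (hnode (U ^ 4) p (by positivity)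
        (pow_le_pow_right₀ hU1 (by norm_num)) ⟨P, u, u', n, hP, hPQ.trans ?_, h1.trans ?_,
          h2.trans ?_, h3, h4⟩)
      · calc C1 * (E1 * E2) / ((k : ℝ) * N) ≤ C1 * (E1 * E2) / (T / U ^ 4) :=
              div_le_div_of_nonneg_left (by positivity) hTU hkN
          _ = C1 * (m * U ^ 4) := by rw [← hmT]; field_simp
      · calc C1 * x * E1 / (N : ℝ) ≤ C1 * x * E1 / (T / U ^ 4) :=
              div_le_div_of_nonneg_left (by positivity) hTU hNle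
          _ = C1 * x * U ^ 4 * (E1 / T) := by field_simp
      · calc C1 * x * E2 / (N : ℝ) ≤ C1 * x * E2 / (T / U ^ 4) :=
              div_le_div_of_nonneg_left (by positivity) hTU hNle
          _ = C1 * x * U ^ 4 * (E2 / T) := by field_simp
    calc (R.card : ℝ) ≤ ((k * N : ℕ) : ℝ) := by
          exact_mod_cast (Finset.card_le_card hRR).trans hcard
      _ ≤ (C1 + 1) * U * (2 * (T / U ^ 4)) := by
          push_cast; gcongr
      _ = 2 * (C1 + 1) * T / U ^ 3 := by field_simp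
      _ ≤ _ := by
          gcongr
          nlinarith

/-- One side of a product part: its quadratic form is small, or it is a thin set at a huge scale,
or the shift is close to a fraction of small denominator. -/
theorem exists_side :
    ∃ C : ℝ, 0 < C ∧ ∀ (U β E Eo : ℝ) (F : ℕ → ℝ) (V : Finset ℕ) (Lam m Wp : ℝ) (j : ℕ)
      (B : Finset ℕ),
      C ≤ U → 1 / 2 ≤ E → 1 / 2 ≤ Eo → E ≤ U ^ 2021 → 0 < j → (j : ℝ) ≤ Wp → Wp ≤ U ^ 9 →
      (∀ v ∈ V, 0 < v) → (∀ v, 0 ≤ F v) → (∀ v ∈ V, F v ≤ 2 * (U ^ 1000)⁻¹ / Eo) →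
      ∑ v ∈ V, F v ≤ m → 0 ≤ Lam → SelfBound F V (2 * (U ^ 1000)⁻¹ / Eo) (4 * E) Lam m →
      (∀ a ∈ B, E < (a : ℝ) ∧ (a : ℝ) ≤ 2 * E ∧
        NearInt ((j : ℝ) * a * β) (Wp * (U ^ 1000)⁻¹)) →
      qForm F V B ≤ U ^ 2 * ((1 + Lam) * ((U ^ 1000)⁻¹ * E / Eo) * m) ∧
      (qForm F V B ≤ (U ^ 60)⁻¹ * ((1 + Lam) * ((U ^ 1000)⁻¹ * E / Eo) * m) ∨
        (U ^ 1898 < E ∧ (B.card : ℝ) ≤ U ^ 20 * (U ^ 1000)⁻¹ * E) ∨
        ∃ (P : ℕ) (u : ℤ), 0 < P ∧ (P : ℝ) ≤ U ^ 90 ∧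
          |β - u / P| ≤ Wp * (U ^ 1000)⁻¹ / (j * E)) := by
  obtain ⟨Cs, hCs, hscaled⟩ := exists_qForm_le_scaled
  obtain ⟨Ct, hCt, hthin⟩ := exists_thin
  refine ⟨2 * Cs + Ct + 10 ^ 8, by positivity, ?_⟩
  intro U β E Eo F V Lam m Wp j B hU hE hEo hEU hj hjW hW hpos hF hle hm hLam hself hB
  set x : ℝ := (U ^ 1000)⁻¹ with hx
  have hU8 : (10 : ℝ) ^ 8 ≤ U := by linarith
  have hU1 : (1 : ℝ) ≤ U := by linarith
  have hU0 : 0 < U := by linarith
  have hx0 : 0 < x := by positivity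
  have hjr : (1 : ℝ) ≤ j := by exact_mod_cast hj
  have hW1 : 1 ≤ Wp := hjr.trans hjW
  have hE0 : 0 < E := by linarith
  have hEo0 : 0 < Eo := by linarith
  have hm0 : 0 ≤ m := (Finset.sum_nonneg fun v _ => hF v).trans hm
  have hCsU : 2 * Cs ≤ U := by linarith
  have hCtU : Ct ≤ U := by linarith
  have hlogE : Real.log (2 + E) ≤ U := by
    refine log_le_base hU8 (by linarith) ?_
    calc 2 + E ≤ U * U ^ 2021 := by
          have h1 : 1 ≤ U ^ 2021 := one_le_pow₀ hU1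
          nlinarith
      _ = U ^ 2022 := by ring
      _ ≤ U ^ 3000 := pow_le_pow_right₀ hU1 (by norm_num)
  set D : ℝ := (1 + Lam) * (x * E / Eo) * m with hD
  have hD0 : 0 ≤ D := by positivity
  have hq : ∀ s : ℕ, 0 < s → (∀ a ∈ B, s ∣ a) → qForm F V B ≤ U ^ 2 / s * D := by
    intro s hs hdiv
    refine (hscaled F V B (2 * x / Eo) Lam m E s hpos hF (by positivity) hLam hm0 hE hs hself
      fun a ha => ⟨(hB a ha).1, (hB a ha).2.1, hdiv a ha⟩).trans ?_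
    calc Cs * Lam * Real.log (2 + E) * (2 * x / Eo * E / s) * m
        ≤ Cs * (1 + Lam) * U * (2 * x / Eo * E / s) * m := by
          gcongr
          · exact Real.log_nonneg (by linarith)
          · linarith
      _ = 2 * Cs * (U / s) * D := by rw [hD]; ring
      _ ≤ U * (U / s) * D := by gcongr
      _ = U ^ 2 / s * D := by ring
  refine ⟨by simpa using hq 1 one_pos fun a _ => one_dvd a, ?_⟩
  rcases hthin β x Wp E j B hx0 hW1 hE hj hB with ⟨P, u, hP, -, -, happ, hdiv⟩ | hcard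
  · rcases le_or_gt (P : ℝ) (U ^ 90) with hPU | hPU
    · exact Or.inr (Or.inr ⟨P, u, hP, hPU, happ⟩)
    · left
      obtain ⟨hg0, hgj⟩ : 0 < Nat.gcd P j ∧ (Nat.gcd P j : ℝ) ≤ U ^ 9 :=
        ⟨Nat.gcd_pos_of_pos_left j hP, le_trans (by exact_mod_cast Nat.gcd_le_right P hj)
          (hjW.trans hW)⟩
      have hP'0 : 0 < P / Nat.gcd P j := Nat.div_pos (Nat.gcd_le_left j hP) hg0
      have hdiv' : ∀ a ∈ B, P / Nat.gcd P j ∣ a := by
        intro a ha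
        have h1 : P / Nat.gcd P j ∣ j / Nat.gcd P j * a := by
          rw [← Nat.mul_dvd_mul_iff_left hg0, Nat.mul_div_cancel' (Nat.gcd_dvd_left P j),
            ← mul_assoc, Nat.mul_div_cancel' (Nat.gcd_dvd_right P j)]
          exact hdiv a ha
        exact (Nat.coprime_div_gcd_div_gcd hg0).dvd_of_dvd_mul_left h1
      refine (hq _ hP'0 hdiv').trans (mul_le_mul_of_nonneg_right ?_ hD0)
      have hbig : U ^ 81 ≤ ((P / Nat.gcd P j : ℕ) : ℝ) := by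
        have h2 : (P : ℝ) = (Nat.gcd P j : ℝ) * ((P / Nat.gcd P j : ℕ) : ℝ) := by
          exact_mod_cast (Nat.mul_div_cancel' (Nat.gcd_dvd_left P j)).symm
        have h3 : U ^ 9 * U ^ 81 ≤ U ^ 9 * ((P / Nat.gcd P j : ℕ) : ℝ) := by
          calc U ^ 9 * U ^ 81 = U ^ 90 := by ring
            _ ≤ (P : ℝ) := hPU.le
            _ ≤ _ := by rw [h2]; gcongr
        exact le_of_mul_le_mul_left h3 (by positivity)
      calc U ^ 2 / ((P / Nat.gcd P j : ℕ) : ℝ) ≤ U ^ 2 / U ^ 81 :=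
            div_le_div_of_nonneg_left (by positivity) (by positivity) hbig
        _ = (U ^ 79)⁻¹ := by field_simp
        _ ≤ (U ^ 60)⁻¹ := inv_anti₀ (by positivity) (pow_le_pow_right₀ hU1 (by norm_num))
  · have hlogj : Real.log (2 + j * E) ≤ U := by
      refine log_le_base hU8 (by positivity) ?_
      calc 2 + (j : ℝ) * E ≤ 2 + U ^ 9 * U ^ 2021 := by
            gcongr
            exact hjW.trans hW
        _ ≤ U * U ^ 2030 := by
            have h1 : 1 ≤ U ^ 2030 := one_le_pow₀ hU1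
            have h2 := mul_le_mul_of_nonneg_right (show (3 : ℝ) ≤ U by linarith)
              (show 0 ≤ U ^ 2030 by linarith)
            rw [show U ^ 9 * U ^ 2021 = U ^ 2030 by rw [← pow_add]]
            linarith
        _ = U ^ 2031 := by ring
        _ ≤ U ^ 3000 := pow_le_pow_right₀ hU1 (by norm_num)
    have hcard' : (B.card : ℝ) ≤ U ^ 20 * x * E := by
      refine hcard.trans ?_
      calc Ct * j * Wp * x * E * Real.log (2 + j * E) ≤ U * U ^ 9 * U ^ 9 * x * E * U := by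
            gcongr
            · exact Real.log_nonneg (by nlinarith)
            · exact hjW.trans hW
        _ = _ := by ring
    rcases le_or_gt E (U ^ 1898) with hEs | hEs
    · left
      refine (qForm_le_card hF (by positivity) hle B).trans ?_
      calc (B.card : ℝ) ^ 2 * (2 * x / Eo) * ∑ v ∈ V, F v
          ≤ (U ^ 20 * x * E) ^ 2 * (2 * x / Eo) * m := by
            have : 0 ≤ ∑ v ∈ V, F v := Finset.sum_nonneg fun v _ => hF v
            gcongr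
        _ = (2 * U ^ 40 * x ^ 2 * E) * ((x * E / Eo) * m) := by ring
        _ ≤ (2 * U ^ 40 * x ^ 2 * U ^ 1898) * D := by
            refine mul_le_mul (by gcongr) ?_ (by positivity) (by positivity)
            rw [hD]
            refine mul_le_mul_of_nonneg_right ?_ hm0
            exact le_mul_of_one_le_left (by positivity) (by linarith)
        _ = 2 / U ^ 62 * D := by rw [hx]; field_simp
        _ ≤ _ := by
            refine mul_le_mul_of_nonneg_right ?_ hD0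
            rw [div_le_iff₀ (by positivity)]
            field_simp
            nlinarith
    · exact Or.inr (Or.inl ⟨hEs, hcard'⟩)

/-- Few integers lie in a dyadic range. -/
theorem card_dyadic_le {E : ℝ} (hE : 1 / 2 ≤ E) (B : Finset ℕ)
    (hB : ∀ a ∈ B, (a : ℝ) ≤ 2 * E) : (B.card : ℝ) ≤ 4 * E := by
  have hsub : B ⊆ Finset.range (⌊2 * E⌋₊ + 1) := fun a ha =>
    Finset.mem_range.2 (Nat.lt_succ_of_le (Nat.le_floor (hB a ha)))
  have h1 : (B.card : ℝ) ≤ (⌊2 * E⌋₊ : ℝ) + 1 := by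
    exact_mod_cast (Finset.card_le_card hsub).trans_eq (Finset.card_range _)
  linarith [Nat.floor_le (show (0 : ℝ) ≤ 2 * E by linarith)]

/-- A thin side at a huge scale leaves very few pairs. -/
theorem thin_big_le {U A B E1 E2 : ℝ} {F F' : ℕ → ℝ} {V W : Finset ℕ}
    (hfam : Fams F F' V W E1 E2 (U ^ 1000)⁻¹) (hU : 100 ≤ U) (hA1 : E1 ≤ U ^ 2021)
    (hA2 : E2 ≤ U ^ 2021) (hAB : A * B ≤ U ^ 2020)
    (hB : 1 / 2 ≤ B) (hA : U ^ 1898 < A) (hAmax : A ≤ max E1 E2) (R : Finset (ℕ × ℕ))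
    (SA SB : Finset ℕ) (hR : (R.card : ℝ) ≤ SA.card * SB.card)
    (hSA : (SA.card : ℝ) ≤ U ^ 20 * (U ^ 1000)⁻¹ * A) (hSB : ∀ b ∈ SB, (b : ℝ) ≤ 2 * B) :
    ratioWeight F F' V W R ≤
      (U ^ 20)⁻¹ * (U ^ 1000)⁻¹ * prodShape (∑ v ∈ V, F v) (∑ w ∈ W, F' w) := by
  have hU1 : (1 : ℝ) ≤ U := by linarith
  have hU0 : 0 < U := by linarith
  have hA0 : 0 < A := lt_trans (by positivity) hA
  have hx := hfam.x_pos
  have hP := prodShape_nonneg (Finset.sum_nonneg fun v (_ : v ∈ V) => hfam.F_nonneg v)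
    (Finset.sum_nonneg fun v (_ : v ∈ W) => hfam.F'_nonneg v)
  have hB' : B ≤ U ^ 122 := by
    by_contra hc
    push Not at hc
    have h := mul_lt_mul'' hA hc (by positivity) (by positivity)
    rw [← pow_add, show (1898 + 122 : ℕ) = 2020 from rfl] at h
    linarith
  refine (matching_le hfam R (by linarith) hA1 hA2).trans ?_
  have hq : U ^ (1 / 4 : ℝ) ≤ U :=
    (Real.rpow_le_rpow_of_exponent_le hU1 (by norm_num)).trans_eq (Real.rpow_one U)
  have h2 : 8 * U ^ 143 * (U ^ 1000)⁻¹ ≤ (U ^ 20)⁻¹ := by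
    rw [← div_eq_mul_inv, div_le_iff₀ (pow_pos hU0 _), ← div_eq_inv_mul,
      le_div_iff₀ (pow_pos hU0 _)]
    calc 8 * U ^ 143 * U ^ 20 = 8 * U ^ 163 := by ring
      _ ≤ U * U ^ 163 := by gcongr; linarith
      _ = U ^ 164 := by ring
      _ ≤ U ^ 1000 := pow_le_pow_right₀ hU1 (by norm_num)
  generalize (U ^ 1000)⁻¹ = x at *
  generalize prodShape _ _ = P at hP ⊢
  calc (R.card : ℝ) * (2 * x * U ^ (1 / 4 : ℝ) / max E1 E2) * P
      ≤ (U ^ 20 * x * A * (4 * U ^ 122)) * (2 * x * U / A) * P := by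
        have hc : (R.card : ℝ) ≤ U ^ 20 * x * A * (4 * U ^ 122) := by
          refine hR.trans (mul_le_mul hSA ((card_dyadic_le hB SB hSB).trans ?_)
            (Nat.cast_nonneg _) (by positivity))
          linarith
        have hmax : 0 ≤ 2 * x * U ^ (1 / 4 : ℝ) / max E1 E2 :=
          div_nonneg (mul_nonneg (by linarith) (Real.rpow_nonneg hU0.le _)) (hA0.le.trans hAmax)
        gcongr
    _ = 8 * U ^ 143 * x * x * P := by field_simp; ring
    _ ≤ _ := by gcongr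

/-- The error of a fraction, scaled to a common denominator. -/
theorem scaled_error {U γ E Wp j x : ℝ} {P Q Q' : ℕ} {u : ℤ} (hU : 0 ≤ U) (hE : 1 / 2 ≤ E)
    (hx : 0 ≤ x) (hj : 1 ≤ j) (hW : Wp ≤ U ^ 9) (hQ : 0 < Q)
    (hPU : (P : ℝ) ≤ U ^ 180)
    (h : |γ - u / Q| ≤ Wp * x / (j * E)) (hQQ : Q * Q' = P) :
    |(P : ℝ) * γ - ((u * Q' : ℤ) : ℝ)| ≤ U ^ 189 * x / E := by
  have hE0 : 0 < E := by linarith
  have hQr : (0 : ℝ) < Q := by exact_mod_cast hQ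
  have e : (P : ℝ) * γ - ((u * Q' : ℤ) : ℝ) = (P : ℝ) * (γ - u / Q) := by
    rw [← hQQ]; push_cast; field_simp
  rw [e, abs_mul, Nat.abs_cast]
  calc (P : ℝ) * |γ - u / Q| ≤ U ^ 180 * (U ^ 9 * x / (1 * E)) := by
        refine mul_le_mul hPU (h.trans ?_) (abs_nonneg _) (by positivity)
        gcongr
    _ = _ := by ring

/-- A short error gives the node condition. -/
theorem node_error {U E e : ℝ} (hU : 2 ≤ U) (hE : 1 / 2 ≤ E)
    (he : |e| ≤ U ^ 189 * (U ^ 1000)⁻¹ / E) :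
    |e| ^ 2 * E ≤ (U ^ 250)⁻¹ * (U ^ 1000)⁻¹ := by
  have hU1 : (1 : ℝ) ≤ U := by linarith
  have hU0 : 0 < U := by linarith
  have hE0 : 0 < E := by linarith
  have hx : (0 : ℝ) < (U ^ 1000)⁻¹ := inv_pos.2 (pow_pos hU0 _)
  have hkey : U ^ 379 * (U ^ 1000)⁻¹ ≤ (U ^ 250)⁻¹ := by
    rw [← div_eq_mul_inv, div_le_iff₀ (pow_pos hU0 _), ← div_eq_inv_mul,
      le_div_iff₀ (pow_pos hU0 _), ← pow_add]
    exact pow_le_pow_right₀ hU1 (by norm_num)
  generalize (U ^ 1000)⁻¹ = x at *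
  calc |e| ^ 2 * E ≤ (U ^ 189 * x / E) ^ 2 * E := by gcongr
    _ = U ^ 378 * x ^ 2 * (1 / E) := by field_simp
    _ ≤ U ^ 378 * x ^ 2 * U := by
        gcongr
        rw [div_le_iff₀ hE0]; nlinarith
    _ = U ^ 379 * x * x := by ring
    _ ≤ _ := mul_le_mul_of_nonneg_right hkey hx.le

/-- Two fractions of small denominator make every near point exact. -/
theorem node_of_fractions {U β β' E1 E2 Wp j : ℝ} {P1 P2 : ℕ} {u1 u2 : ℤ} {p : ℕ × ℕ}
    (hU : 100 ≤ U) (hE1 : 1 / 2 ≤ E1) (hE2 : 1 / 2 ≤ E2) (hj : 1 ≤ j) (hWp : 0 ≤ Wp)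
    (hW : Wp ≤ U ^ 9) (hP1 : 0 < P1) (hP1U : (P1 : ℝ) ≤ U ^ 90)
    (happ1 : |β' - u1 / P1| ≤ Wp * (U ^ 1000)⁻¹ / (j * E1))
    (hP2 : 0 < P2) (hP2U : (P2 : ℝ) ≤ U ^ 90)
    (happ2 : |β - u2 / P2| ≤ Wp * (U ^ 1000)⁻¹ / (j * E2))
    (hbox : InBox E1 E2 p) (hnear : Near β β' (U ^ 1000)⁻¹ p) :
    NodeExact β β' (U ^ 1000)⁻¹ E1 E2 p := by
  have hU1 : (1 : ℝ) ≤ U := by linarith
  have hU0 : 0 < U := by linarith
  have hx0 : (0 : ℝ) ≤ (U ^ 1000)⁻¹ := (inv_pos.2 (pow_pos hU0 _)).le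
  obtain ⟨-, hc2, -, ha2, -⟩ := hbox
  obtain ⟨n, hn⟩ := hnear
  set P := P2 * P1 with hP
  have hPU : (P : ℝ) ≤ U ^ 180 := by
    rw [hP]; push_cast
    calc (P2 : ℝ) * P1 ≤ U ^ 90 * U ^ 90 := by gcongr
      _ = _ := by ring
  have hb := scaled_error hU0.le hE2 hx0 hj hW hP2 hPU happ2 rfl
  have hb' := scaled_error (Q' := P2) hU0.le hE1 hx0 hj hW hP1 hPU happ1 (by rw [hP, mul_comm])
  have hkey : U ^ 190 * (U ^ 1000)⁻¹ < 1 := by
    rw [← div_eq_mul_inv, div_lt_one (pow_pos hU0 _)]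
    exact pow_lt_pow_right₀ (by linarith) (by norm_num)
  have hkey2 : U ^ 360 * (U ^ 1000)⁻¹ * U ≤ (U ^ 250)⁻¹ := by
    rw [mul_right_comm, ← div_eq_mul_inv, div_le_iff₀ (pow_pos hU0 _), ← div_eq_inv_mul,
      le_div_iff₀ (pow_pos hU0 _), ← pow_succ, ← pow_add]
    exact pow_le_pow_right₀ hU1 (by norm_num)
  refine ⟨P, u2 * P1, u1 * P2, n, Nat.mul_pos hP2 hP1, ?_, ?_, ?_, hn, ?_⟩
  · rw [rpow_quarter hU0]
    have hmin : 1 / U ≤ min E1 E2 := le_trans (by rw [div_le_iff₀ hU0]; linarith) (le_min hE1 hE2)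
    generalize (U ^ 1000)⁻¹ = x at *
    calc (P : ℝ) ^ 2 * x ≤ (U ^ 180) ^ 2 * x := by gcongr
      _ = U ^ 360 * x * U * (1 / U) := by field_simp
      _ ≤ _ := mul_le_mul hkey2 hmin (by positivity) (by positivity)
  · rw [rpow_quarter hU0]; exact node_error (by linarith) hE2 hb
  · rw [rpow_quarter hU0]; exact node_error (by linarith) hE1 hb'
  · -- the defect is an integer of absolute value below one
    generalize (U ^ 1000)⁻¹ = x at *
    set k : ℤ := (P : ℤ) * n - ((p.1 : ℤ) * (u2 * P1) - (p.2 : ℤ) * (u1 * P2)) with hk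
    have hprod : ∀ (c E e : ℝ), 0 ≤ c → c ≤ 2 * E → 1 / 2 ≤ E → |e| ≤ U ^ 189 * x / E →
        |c * e| ≤ 2 * (U ^ 189 * x) := by
      intro c E e hc hcE hE he
      rw [abs_mul, abs_of_nonneg hc]
      calc c * |e| ≤ (2 * E) * (U ^ 189 * x / E) :=
            mul_le_mul hcE he (abs_nonneg _) (by linarith)
        _ = _ := by
            have : E ≠ 0 := by linarith
            field_simp
    have h1 := hprod (p.1 : ℝ) E2 _ (Nat.cast_nonneg _) hc2 hE2 hb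
    have h2 := hprod (p.2 : ℝ) E1 _ (Nat.cast_nonneg _) ha2 hE1 hb'
    have h3 : |(P : ℝ) * ((p.1 : ℝ) * β - (p.2 : ℝ) * β' - n)| ≤ 2 * (U ^ 189 * x) := by
      rw [abs_mul, Nat.abs_cast]
      calc (P : ℝ) * |(p.1 : ℝ) * β - (p.2 : ℝ) * β' - n| ≤ U ^ 180 * (2 * x) :=
            mul_le_mul hPU hn.le (abs_nonneg _) (by positivity)
        _ ≤ U ^ 189 * (2 * x) := by
            gcongr
            norm_num
        _ = _ := by ring
    have ek : (k : ℝ) = (p.1 : ℝ) * ((P : ℝ) * β - ((u2 * P1 : ℤ) : ℝ))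
        - (p.2 : ℝ) * ((P : ℝ) * β' - ((u1 * P2 : ℤ) : ℝ))
        - (P : ℝ) * ((p.1 : ℝ) * β - (p.2 : ℝ) * β' - n) := by
      rw [hk]; push_cast; ring
    have hsmall : |(k : ℝ)| < 1 := by
      rw [ek]
      refine lt_of_le_of_lt ((abs_sub _ _).trans (add_le_add
        ((abs_sub _ _).trans (add_le_add h1 h2)) h3)) ?_
      calc 2 * (U ^ 189 * x) + 2 * (U ^ 189 * x) + 2 * (U ^ 189 * x)
          = 6 * (U ^ 189 * x) := by ring
        _ ≤ U * (U ^ 189 * x) :=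
            mul_le_mul_of_nonneg_right (by linarith) (mul_nonneg (pow_nonneg hU0.le _) hx0)
        _ = U ^ 190 * x := by ring
        _ < 1 := hkey
    have hk0 : k = 0 := Int.abs_lt_one_iff.1 (by exact_mod_cast hsmall)
    rw [hk] at hk0
    linarith

/-- The part of one multiplier. -/
theorem exists_prod_le :
    ∃ C : ℝ, 0 < C ∧ ∀ (U β β' E1 E2 : ℝ) (F F' : ℕ → ℝ) (V W : Finset ℕ)
      (Lam mV mW Wp : ℝ) (j : ℕ) (R : Finset (ℕ × ℕ)),
      C ≤ U → E1 * E2 ≤ U ^ 2020 → Fams F F' V W E1 E2 (U ^ 1000)⁻¹ →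
      0 < j → (j : ℝ) ≤ Wp → Wp ≤ U ^ 9 →
      ∑ v ∈ V, F v ≤ mV → ∑ w ∈ W, F' w ≤ mW → 0 ≤ Lam →
      SelfBound F V (2 * (U ^ 1000)⁻¹ / E2) (4 * E1) Lam mV →
      SelfBound F' W (2 * (U ^ 1000)⁻¹ / E1) (4 * E2) Lam mW →
      (∀ p ∈ R, InBox E1 E2 p ∧ Near β β' (U ^ 1000)⁻¹ p ∧
        ¬ NodeExact β β' (U ^ 1000)⁻¹ E1 E2 p ∧
        NearInt ((j : ℝ) * p.1 * β) (Wp * (U ^ 1000)⁻¹) ∧
        NearInt ((j : ℝ) * p.2 * β') (Wp * (U ^ 1000)⁻¹)) →
      ratioWeight F F' V W R ≤ (U ^ 20)⁻¹ * (U ^ 1000)⁻¹ * ((1 + Lam) *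
        (Real.sqrt (mV * mW) + prodShape (∑ v ∈ V, F v) (∑ w ∈ W, F' w))) := by
  obtain ⟨C, hC, hside⟩ := exists_side
  refine ⟨C + 100, by positivity, ?_⟩
  intro U β β' E1 E2 F F' V W Lam mV mW Wp j R hU hT2 hfam hj hjW hW hmV hmW hLam hsV hsW hR
  set x : ℝ := (U ^ 1000)⁻¹ with hx
  have hCU : C ≤ U := by linarith
  have hU10 : (100 : ℝ) ≤ U := by linarith
  have hU1 : (1 : ℝ) ≤ U := by linarith
  have hU0 : 0 < U := by linarith
  have hx0 : 0 < x := by positivity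
  have hE1 := hfam.half_le_E1
  have hE2 := hfam.half_le_E2
  have hE10 : 0 < E1 := by linarith
  have hE20 : 0 < E2 := by linarith
  have hV0 : 0 ≤ ∑ v ∈ V, F v := Finset.sum_nonneg fun v _ => hfam.F_nonneg v
  have hW0 : 0 ≤ ∑ w ∈ W, F' w := Finset.sum_nonneg fun w _ => hfam.F'_nonneg w
  have hmV0 : 0 ≤ mV := hV0.trans hmV
  have hmW0 : 0 ≤ mW := hW0.trans hmW
  have hjr : (1 : ℝ) ≤ j := by exact_mod_cast hj
  have hWp0 : 0 ≤ Wp := by linarith
  have hEU : ∀ A B : ℝ, 1 / 2 ≤ A → 1 / 2 ≤ B → A * B ≤ U ^ 2020 → A ≤ U ^ 2021 := by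
    intro A B hA hB hAB
    calc A ≤ 2 * (A * B) := by nlinarith
      _ ≤ U * U ^ 2020 := by gcongr; linarith
      _ = U ^ 2021 := by ring
  set B2 := R.image Prod.fst with hB2
  set B1 := R.image Prod.snd with hB1
  have hmem2 : ∀ c ∈ B2, E2 < (c : ℝ) ∧ (c : ℝ) ≤ 2 * E2 ∧
      NearInt ((j : ℝ) * c * β) (Wp * x) := by
    intro c hc
    obtain ⟨p, hp, rfl⟩ := Finset.mem_image.1 hc
    obtain ⟨⟨a1, a2, -, -, -⟩, -, -, h, -⟩ := hR p hp
    exact ⟨a1, a2, h⟩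
  have hmem1 : ∀ a ∈ B1, E1 < (a : ℝ) ∧ (a : ℝ) ≤ 2 * E1 ∧
      NearInt ((j : ℝ) * a * β') (Wp * x) := by
    intro c hc
    obtain ⟨p, hp, rfl⟩ := Finset.mem_image.1 hc
    obtain ⟨⟨-, -, a1, a2, -⟩, -, -, -, h⟩ := hR p hp
    exact ⟨a1, a2, h⟩
  have hRsub : ∀ p ∈ R, p.1 ∈ B2 ∧ p.2 ∈ B1 := fun p hp =>
    ⟨Finset.mem_image_of_mem _ hp, Finset.mem_image_of_mem _ hp⟩
  obtain ⟨hq1, hc1⟩ := hside U β' E1 E2 F V Lam mV Wp j B1 hCU hE1 hE2
    (hEU E1 E2 hE1 hE2 hT2) hj hjW hW hfam.pos_V hfam.F_nonneg hfam.F_le hmV hLam hsV hmem1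
  obtain ⟨hq2, hc2⟩ := hside U β E2 E1 F' W Lam mW Wp j B2 hCU hE2 hE1
    (hEU E2 E1 hE2 hE1 ((mul_comm E2 E1).trans_le hT2)) hj hjW hW hfam.pos_W hfam.F'_nonneg hfam.F'_le
    hmW hLam hsW hmem2
  have hP0 := prodShape_nonneg hV0 hW0
  set P0 : ℝ := prodShape (∑ v ∈ V, F v) (∑ w ∈ W, F' w) with hP0d
  set S : ℝ := (1 + Lam) * (Real.sqrt (mV * mW) + P0) with hS
  have hS0 : 0 ≤ S := by positivity
  -- one of the forms gains
  have hgain : qForm F V B1 * qForm F' W B2 ≤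
      (U ^ 58)⁻¹ * ((1 + Lam) ^ 2 * x ^ 2 * (mV * mW)) →
      ratioWeight F F' V W R ≤ (U ^ 20)⁻¹ * x * S := by
    intro h
    refine (ratioWeight_le_qForm hfam R B2 B1 hRsub).trans (Real.sqrt_le_iff.2 ⟨by positivity, ?_⟩)
    refine h.trans ?_
    calc (U ^ 58)⁻¹ * ((1 + Lam) ^ 2 * x ^ 2 * (mV * mW))
        ≤ (U ^ 40)⁻¹ * ((1 + Lam) ^ 2 * x ^ 2 * (Real.sqrt (mV * mW) + P0) ^ 2) := by
          gcongr
          · norm_num
          · calc mV * mW = Real.sqrt (mV * mW) ^ 2 := (Real.sq_sqrt (by positivity)).symm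
              _ ≤ _ := by
                  gcongr
                  linarith
      _ = _ := by rw [hS]; ring
  have hlin : ∀ c : ℝ, 0 ≤ c → c * P0 ≤ c * S := by
    intro c hc
    refine mul_le_mul_of_nonneg_left ?_ hc
    rw [hS]
    nlinarith [Real.sqrt_nonneg (mV * mW), mul_nonneg hLam (add_nonneg (Real.sqrt_nonneg (mV * mW)) hP0)]
  have hRB : R.card ≤ (B2 ×ˢ B1).card :=
    Finset.card_le_card fun p hp => Finset.mem_product.2 (hRsub p hp)
  rw [Finset.card_product] at hRB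
  have hRB' : (R.card : ℝ) ≤ B2.card * B1.card := by exact_mod_cast hRB
  have hq1n : 0 ≤ qForm F V B1 := Finset.sum_nonneg fun _ _ => Finset.sum_nonneg fun _ _ =>
    Finset.sum_nonneg fun _ _ => mul_nonneg (hfam.F_nonneg _) (hfam.F_nonneg _)
  have hq2n : 0 ≤ qForm F' W B2 := Finset.sum_nonneg fun _ _ => Finset.sum_nonneg fun _ _ =>
    Finset.sum_nonneg fun _ _ => mul_nonneg (hfam.F'_nonneg _) (hfam.F'_nonneg _)
  rcases hc1 with hg1 | ⟨hbig, hthin1⟩ | ⟨P1, u1, hP1, hP1U, happ1⟩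
  · refine hgain ?_
    calc qForm F V B1 * qForm F' W B2
        ≤ ((U ^ 60)⁻¹ * ((1 + Lam) * (x * E1 / E2) * mV)) *
            (U ^ 2 * ((1 + Lam) * (x * E2 / E1) * mW)) :=
          mul_le_mul hg1 hq2 hq2n (by positivity)
      _ = _ := by field_simp
  · exact (thin_big_le hfam hU10 (hEU E1 E2 hE1 hE2 hT2) (hEU E2 E1 hE2 hE1 ((mul_comm E2 E1).trans_le hT2))
      hT2 hE2 hbig (le_max_left _ _) R B1 B2 (by rwa [mul_comm] at hRB')
      hthin1 (fun b hb => (hmem2 b hb).2.1)).trans (hlin _ (by positivity))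
  rcases hc2 with hg2 | ⟨hbig, hthin2⟩ | ⟨P2, u2, hP2, hP2U, happ2⟩
  · refine hgain ?_
    calc qForm F V B1 * qForm F' W B2
        ≤ (U ^ 2 * ((1 + Lam) * (x * E1 / E2) * mV)) *
            ((U ^ 60)⁻¹ * ((1 + Lam) * (x * E2 / E1) * mW)) :=
          mul_le_mul hq1 hg2 hq2n (by positivity)
      _ = _ := by field_simp
  · exact (thin_big_le hfam hU10 (hEU E1 E2 hE1 hE2 hT2) (hEU E2 E1 hE2 hE1 ((mul_comm E2 E1).trans_le hT2))
      ((mul_comm E2 E1).trans_le hT2) hE1 hbig (le_max_right _ _) R B2 B1 hRB'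
      hthin2 (fun b hb => (hmem1 b hb).2.1)).trans (hlin _ (by positivity))
  -- two fractions: every point has an exact relation
  have hempty : R = ∅ := by
    refine Finset.eq_empty_of_forall_notMem fun p hp => ?_
    obtain ⟨hbox, hnear, hnot, -, -⟩ := hR p hp
    exact hnot (node_of_fractions hU10 hE1 hE2 hjr (by linarith) hW hP1 hP1U happ1 hP2 hP2U happ2
      hbox hnear)
  rw [hempty]
  simp only [ratioWeight, Finset.notMem_empty, Finset.filter_false, Finset.sum_empty,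
    Finset.sum_const_zero]
  positivity

/-- The cube-root step of the generic part. -/
theorem cube_root_step {U A x C K2 T : ℝ} (hU : 1 ≤ U) (hA : 0 ≤ A) (hx : 0 ≤ x) (hC : 0 ≤ C)
    (hK : 0 ≤ K2) (hT : 0 ≤ T)
    (h : A ^ 3 ≤ (C * K2) * (x ^ 3 * ((U ^ (1 / 4 : ℝ) * U⁻¹) * T))) :
    A ≤ (C * K2) ^ (1 / 3 : ℝ) * x * U ^ (-(1 / 8 : ℝ)) * T ^ (1 / 3 : ℝ) := by
  have hU0 : 0 < U := by linarith
  have hu : 0 ≤ U ^ (1 / 4 : ℝ) * U⁻¹ := by positivity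
  calc A = (A ^ 3) ^ (1 / 3 : ℝ) := by
        rw [← Real.rpow_natCast A 3, ← Real.rpow_mul hA]; norm_num
    _ ≤ ((C * K2) * (x ^ 3 * ((U ^ (1 / 4 : ℝ) * U⁻¹) * T))) ^ (1 / 3 : ℝ) :=
        Real.rpow_le_rpow (by positivity) h (by norm_num)
    _ = (C * K2) ^ (1 / 3 : ℝ) * x * (U ^ (1 / 4 : ℝ) * U⁻¹) ^ (1 / 3 : ℝ) * T ^ (1 / 3 : ℝ) := by
        rw [Real.mul_rpow (mul_nonneg hC hK) (by positivity),
          Real.mul_rpow (pow_nonneg hx 3) (mul_nonneg hu hT), Real.mul_rpow hu hT,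
          ← Real.rpow_natCast x 3, ← Real.rpow_mul hx]
        norm_num
        ring
    _ ≤ _ := by
        gcongr
        rw [← Real.rpow_neg_one U, ← Real.rpow_add hU0, ← Real.rpow_mul hU0.le]
        exact Real.rpow_le_rpow_of_exponent_le hU (by norm_num)

/-- A large box outside the product part. -/
theorem exists_generic_le :
    ∃ C Cs : ℝ, 0 < C ∧ 0 < Cs ∧ ∀ (U β β' E1 E2 : ℝ) (F F' : ℕ → ℝ) (V W : Finset ℕ)
      (Lam M mV mW : ℝ) (R : Finset (ℕ × ℕ)),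
      C ≤ U → U ^ 1001 < E1 * E2 → E1 * E2 ≤ U ^ 2020 →
      Fams F F' V W E1 E2 (U ^ 1000)⁻¹ →
      ∑ v ∈ V, F v ≤ mV → ∑ w ∈ W, F' w ≤ mW → 0 ≤ Lam → 0 ≤ M →
      HeightBound F F' V W E1 E2 (U ^ 1000)⁻¹ Lam M →
      (∀ p ∈ R, InBox E1 E2 p ∧ Near β β' (U ^ 1000)⁻¹ p ∧
        ¬ InProd β β' (U ^ 1000)⁻¹ (Cs * (U ^ 2) ^ 4) p) →
      ratioWeight F F' V W R ≤ C * (U ^ 1000)⁻¹ * U ^ (-(1 / 8 : ℝ)) *
        (Lam * M * (mV * mW)) ^ (1 / 3 : ℝ) := by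
  obtain ⟨Cs, hCs, hsub⟩ := exists_sublattice
  obtain ⟨Cr, hCr, hratio⟩ := exists_ratio_le (1 / 10000) (by norm_num)
  set K : ℝ := Cs + 1 with hK
  set C3 : ℝ := (2 * Cr * K ^ 2) ^ (1 / 3 : ℝ) with hC3
  have hC30 : 0 ≤ C3 := by positivity
  refine ⟨C3 + 10, Cs, by positivity, hCs, ?_⟩
  intro U β β' E1 E2 F F' V W Lam M mV mW R hU hlarge hT2 hfam hmV hmW hLam hM hH hR
  have hU10 : (10 : ℝ) ≤ U := by linarith
  have hU1 : (1 : ℝ) ≤ U := by linarith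
  have hU0 : 0 < U := by linarith
  have hE1 := hfam.half_le_E1
  have hE2 := hfam.half_le_E2
  have hx0 := hfam.x_pos
  have hV0 : 0 ≤ ∑ v ∈ V, F v := Finset.sum_nonneg fun v _ => hfam.F_nonneg v
  have hW0 : 0 ≤ ∑ w ∈ W, F' w := Finset.sum_nonneg fun w _ => hfam.F'_nonneg w
  have hmV0 : 0 ≤ mV := hV0.trans hmV
  have hmW0 : 0 ≤ mW := hW0.trans hmW
  have hM1 : (1 : ℝ) ≤ U ^ 2 := one_le_pow₀ hU1
  have hxM : (U ^ 1000)⁻¹ * U ^ 2 ≤ 1 := by
    rw [inv_mul_le_one₀ (pow_pos hU0 _)]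
    exact pow_le_pow_right₀ hU1 (by norm_num)
  have hxT : U ≤ (U ^ 1000)⁻¹ * (E1 * E2) := by
    rw [← div_eq_inv_mul, le_div_iff₀ (pow_pos hU0 _), ← pow_succ']
    exact hlarge.le
  generalize (U ^ 1000)⁻¹ = x at *
  have hlat : ∀ d1 d2 : ℕ, 0 < d1 → 0 < d2 →
      ((R.filter (fun p => d1 ∣ p.1 ∧ d2 ∣ p.2)).card : ℝ) ≤
        K * ((U ^ 2)⁻¹ * (E1 * E2 / (d1 * d2)) + 1) := by
    intro d1 d2 h1 h2
    refine (hsub β β' x E1 E2 (U ^ 2) R d1 d2 hx0 hM1 hxM hE1 hE2 h1 h2 hR).trans ?_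
    rw [hK, div_eq_mul_inv (E1 * E2 / ((d1 : ℝ) * d2)) (U ^ 2), mul_comm _ (U ^ 2)⁻¹]
    gcongr
    linarith
  have h3 := hratio F F' V W E1 E2 x K (U ^ 2)⁻¹ Lam M R hfam (by linarith) (by positivity)
    (inv_le_one_of_one_le₀ hM1) hLam hM (fun p hp => (hR p hp).1) hlat hH
  have hA0 : 0 ≤ ratioWeight F F' V W R := ratioWeight_nonneg hfam.F_nonneg hfam.F'_nonneg _
  have hT : (2 + E1 + E2) ^ (1 / 10000 : ℝ) ≤ U ^ (1 / 4 : ℝ) := by
    have hE12 : 2 + E1 + E2 ≤ U ^ 2022 := by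
      have h1 : E1 ≤ 2 * (E1 * E2) := by nlinarith
      have h2 : E2 ≤ 2 * (E1 * E2) := by nlinarith
      calc 2 + E1 + E2 ≤ 2 + 4 * U ^ 2020 := by linarith
        _ ≤ 10 * U ^ 2020 := by linarith [one_le_pow₀ hU1 (n := 2020)]
        _ ≤ U ^ 2 * U ^ 2020 := by
            gcongr
            nlinarith
        _ = _ := by ring
    refine (Real.rpow_le_rpow (by linarith) hE12 (by norm_num)).trans ?_
    rw [← Real.rpow_natCast U 2022, ← Real.rpow_mul hU0.le]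
    exact Real.rpow_le_rpow_of_exponent_le hU1 (by norm_num)
  have hL : (U ^ 2)⁻¹ + 1 / (x * (E1 * E2)) ≤ 2 * U⁻¹ := by
    have h1 : (U ^ 2)⁻¹ ≤ U⁻¹ := inv_anti₀ hU0 (le_self_pow₀ hU1 (by norm_num))
    have h2 : 1 / (x * (E1 * E2)) ≤ U⁻¹ := by
      rw [one_div]
      exact inv_anti₀ hU0 hxT
    linarith
  have hT0 : 0 ≤ Lam * M * (mV * mW) := by positivity
  refine (cube_root_step (C := 2 * Cr) (K2 := K ^ 2) hU1 hA0 hx0.le (by positivity) (by positivity)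
    hT0 ?_).trans ?_
  · refine h3.trans ?_
    calc Cr * (2 + E1 + E2) ^ (1 / 10000 : ℝ) * K ^ 2 * Lam * x ^ 3 *
          ((U ^ 2)⁻¹ + 1 / (x * (E1 * E2))) * M * ((∑ v ∈ V, F v) * ∑ w ∈ W, F' w)
        ≤ Cr * U ^ (1 / 4 : ℝ) * K ^ 2 * Lam * x ^ 3 * (2 * U⁻¹) * M * (mV * mW) := by gcongr
      _ = _ := by ring
  · rw [← hC3]
    gcongr
    linarith

open Classical in
/-- The product part of a box. -/
theorem exists_prodPart_le :
    ∃ C : ℝ, 0 < C ∧ ∀ (U β β' E1 E2 : ℝ) (F F' : ℕ → ℝ) (V W : Finset ℕ)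
      (Lam mV mW Wp : ℝ) (R : Finset (ℕ × ℕ)),
      C ≤ U → E1 * E2 ≤ U ^ 2020 → Fams F F' V W E1 E2 (U ^ 1000)⁻¹ →
      0 ≤ Wp → Wp ≤ U ^ 9 →
      ∑ v ∈ V, F v ≤ mV → ∑ w ∈ W, F' w ≤ mW → 0 ≤ Lam →
      SelfBound F V (2 * (U ^ 1000)⁻¹ / E2) (4 * E1) Lam mV →
      SelfBound F' W (2 * (U ^ 1000)⁻¹ / E1) (4 * E2) Lam mW →
      (∀ p ∈ R, InBox E1 E2 p ∧ Near β β' (U ^ 1000)⁻¹ p ∧
        ¬ NodeExact β β' (U ^ 1000)⁻¹ E1 E2 p ∧ InProd β β' (U ^ 1000)⁻¹ Wp p) →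
      ratioWeight F F' V W R ≤
        (U ^ 1000)⁻¹ * U ^ (-(1 / 8 : ℝ)) * ((1 + Lam) *
          (Real.sqrt (mV * mW) + prodShape (∑ v ∈ V, F v) (∑ w ∈ W, F' w))) := by
  obtain ⟨Cp, hCp, hprod⟩ := exists_prod_le
  refine ⟨Cp + 10, by positivity, ?_⟩
  intro U β β' E1 E2 F F' V W Lam mV mW Wp R hU hT2 hfam hWp0 hWpU hmV hmW hLam hsV hsW hR
  have hU1 : (1 : ℝ) ≤ U := by linarith
  have hU0 : 0 < U := by linarith
  have hx0 := hfam.x_pos
  have hP0 := prodShape_nonneg (Finset.sum_nonneg fun v (_ : v ∈ V) => hfam.F_nonneg v)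
    (Finset.sum_nonneg fun v (_ : v ∈ W) => hfam.F'_nonneg v)
  have hS0 : 0 ≤ (1 + Lam) *
      (Real.sqrt (mV * mW) + prodShape (∑ v ∈ V, F v) (∑ w ∈ W, F' w)) := by positivity
  have hp := hprod U β β' E1 E2 F F' V W Lam mV mW Wp
  generalize (U ^ 1000)⁻¹ = x at *
  generalize (1 + Lam) * (Real.sqrt (mV * mW) + prodShape (∑ v ∈ V, F v) (∑ w ∈ W, F' w)) = S at *
  set Rj : ℕ → Finset (ℕ × ℕ) := fun j => R.filter (fun p =>
    NearInt ((j : ℝ) * p.1 * β) (Wp * x) ∧ NearInt ((j : ℝ) * p.2 * β') (Wp * x)) with hRj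
  set J := Finset.Icc 1 ⌊Wp⌋₊ with hJ
  have hcover : R ⊆ J.biUnion Rj := by
    intro p hp
    obtain ⟨j, hj0, hjW, h1, h2⟩ := (hR p hp).2.2.2
    exact Finset.mem_biUnion.2
      ⟨j, Finset.mem_Icc.2 ⟨hj0, Nat.le_floor hjW⟩, Finset.mem_filter.2 ⟨hp, h1, h2⟩⟩
  refine (ratioWeight_mono hfam.F_nonneg hfam.F'_nonneg hcover).trans ?_
  refine (ratioWeight_biUnion_le hfam.F_nonneg hfam.F'_nonneg J Rj).trans ?_
  refine (Finset.sum_le_card_nsmul J _ ((U ^ 20)⁻¹ * x * S)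
    fun j hj => ?_).trans ?_
  · obtain ⟨hj1, hj2⟩ := Finset.mem_Icc.1 hj
    refine hp j (Rj j) (by linarith) hT2 hfam hj1 ((Nat.le_floor_iff hWp0).1 hj2) hWpU hmV hmW hLam
      hsV hsW fun p hp => ?_
    obtain ⟨hp, h1, h2⟩ := Finset.mem_filter.1 hp
    exact ⟨(hR p hp).1, (hR p hp).2.1, (hR p hp).2.2.1, h1, h2⟩
  · rw [nsmul_eq_mul]
    have hJc : (J.card : ℝ) ≤ U ^ 9 := by
      rw [hJ, Nat.card_Icc, Nat.add_sub_cancel]
      exact (Nat.floor_le hWp0).trans hWpU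
    calc (J.card : ℝ) * ((U ^ 20)⁻¹ * x * S)
        ≤ U ^ 9 * ((U ^ 20)⁻¹ * x * S) := by gcongr
      _ = x * (U ^ 11)⁻¹ * S := by field_simp
      _ ≤ _ := by
          gcongr
          rw [← Real.rpow_natCast U 11, ← Real.rpow_neg hU0.le]
          exact Real.rpow_le_rpow_of_exponent_le hU1 (by norm_num)

open Classical in
/-- The theorem of the lifted module for one box. -/
theorem exists_box_le :
    ∃ C : ℝ, 0 < C ∧ ∀ (U β β' E1 E2 : ℝ) (F F' : ℕ → ℝ) (V W : Finset ℕ)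
      (Lam M mV mW : ℝ) (R : Finset (ℕ × ℕ)),
      C ≤ U → E1 * E2 ≤ U ^ 2020 → U ^ 8 ≤ max E1 E2 →
      Fams F F' V W E1 E2 (U ^ 1000)⁻¹ →
      ∑ v ∈ V, F v ≤ mV → ∑ w ∈ W, F' w ≤ mW → 0 ≤ Lam → 0 ≤ M →
      HeightBound F F' V W E1 E2 (U ^ 1000)⁻¹ Lam M →
      SelfBound F V (2 * (U ^ 1000)⁻¹ / E2) (4 * E1) Lam mV →
      SelfBound F' W (2 * (U ^ 1000)⁻¹ / E1) (4 * E2) Lam mW →
      (∀ p ∈ R, InBox E1 E2 p ∧ Near β β' (U ^ 1000)⁻¹ p ∧
        ¬ NodeExact β β' (U ^ 1000)⁻¹ E1 E2 p) →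
      ratioWeight F F' V W R ≤ C * (U ^ 1000)⁻¹ * U ^ (-(1 / 8 : ℝ)) *
        ((Lam * M * (mV * mW)) ^ (1 / 3 : ℝ) + (1 + Lam) *
          (Real.sqrt (mV * mW) + prodShape (∑ v ∈ V, F v) (∑ w ∈ W, F' w))) := by
  obtain ⟨Cc, hCc, hcount⟩ := exists_count_case
  obtain ⟨Cg, Cs, hCg, hCs, hgen⟩ := exists_generic_le
  obtain ⟨Cp, hCp, hprod⟩ := exists_prodPart_le
  refine ⟨2 * Cc + Cs + Cg + Cp + 10, by positivity, ?_⟩
  intro U β β' E1 E2 F F' V W Lam M mV mW R hU hT2 hbig hfam hmV hmW hLam hM hH hsV hsW hR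
  have hU1 : (1 : ℝ) ≤ U := by linarith
  have hU0 : 0 < U := by linarith
  have hx0 := hfam.x_pos
  have hV0 : 0 ≤ ∑ v ∈ V, F v := Finset.sum_nonneg fun v _ => hfam.F_nonneg v
  have hW0 : 0 ≤ ∑ w ∈ W, F' w := Finset.sum_nonneg fun w _ => hfam.F'_nonneg w
  have hmV0 : 0 ≤ mV := hV0.trans hmV
  have hmW0 : 0 ≤ mW := hW0.trans hmW
  rcases le_or_gt (E1 * E2) (U ^ 1001) with hsmall | hlarge
  · -- few points
    have hc := (hcount U β β' E1 E2 R (by linarith) hfam.half_le_E1 hfam.half_le_E2 hsmall hR).2 hbig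
    have hT0 : 0 < max E1 E2 := lt_max_of_lt_left (by linarith [hfam.half_le_E1])
    have hEU : ∀ A B : ℝ, 1 / 2 ≤ A → 1 / 2 ≤ B → A * B ≤ U ^ 2020 → A ≤ U ^ 2021 := by
      intro A B hA hB hAB
      calc A ≤ 2 * (A * B) := by nlinarith
        _ ≤ U * U ^ 2020 := by gcongr; linarith
        _ = U ^ 2021 := by ring
    have hU2 : (2 : ℝ) ≤ U := by linarith only [hU, hCc, hCs, hCg, hCp]
    refine (matching_le hfam R hU2 (hEU _ _ hfam.half_le_E1 hfam.half_le_E2 hT2)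
      (hEU _ _ hfam.half_le_E2 hfam.half_le_E1 ((mul_comm E2 E1).trans_le hT2))).trans ?_
    have hP0 := prodShape_nonneg hV0 hW0
    have hpw : U ^ (1 / 4 : ℝ) * (U ^ 3)⁻¹ ≤ U ^ (-(1 / 8 : ℝ)) := by
      rw [← Real.rpow_natCast U 3, ← Real.rpow_neg hU0.le, ← Real.rpow_add hU0]
      exact Real.rpow_le_rpow_of_exponent_le hU1 (by norm_num)
    generalize (U ^ 1000)⁻¹ = x at *
    generalize prodShape (∑ v ∈ V, F v) (∑ w ∈ W, F' w) = P0 at *
    calc (R.card : ℝ) * (2 * x * U ^ (1 / 4 : ℝ) / max E1 E2) * P0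
        ≤ (Cc * max E1 E2 / U ^ 3) * (2 * x * U ^ (1 / 4 : ℝ) / max E1 E2) * P0 := by gcongr
      _ = 2 * Cc * x * (U ^ (1 / 4 : ℝ) * (U ^ 3)⁻¹) * P0 := by field_simp
      _ ≤ _ := by
          have h1 : 0 ≤ (Lam * M * (mV * mW)) ^ (1 / 3 : ℝ) := by positivity
          have h2 := Real.sqrt_nonneg (mV * mW)
          have h3 := mul_nonneg hLam (add_nonneg h2 hP0)
          refine mul_le_mul ?_ (by linarith) hP0 (by positivity)
          gcongr
          linarith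
  · set Wp : ℝ := Cs * (U ^ 2) ^ 4 with hWp
    have hWp0 : 0 ≤ Wp := by positivity
    have hWpU : Wp ≤ U ^ 9 := by
      calc Wp ≤ U * (U ^ 2) ^ 4 := by rw [hWp]; gcongr; linarith
        _ = _ := by ring
    have hg := hgen U β β' E1 E2 F F' V W Lam M mV mW
    have hp := hprod U β β' E1 E2 F F' V W Lam mV mW Wp
    generalize (U ^ 1000)⁻¹ = x at *
    have hcover : R ⊆ R.filter (fun p => ¬ InProd β β' x Wp p) ∪
        R.filter (fun p => InProd β β' x Wp p) := by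
      rw [Finset.union_comm, Finset.filter_union_filter_not_eq]
    refine (ratioWeight_mono hfam.F_nonneg hfam.F'_nonneg hcover).trans ?_
    refine (ratioWeight_union_le hfam.F_nonneg hfam.F'_nonneg _ _).trans ?_
    refine (add_le_add
      (hg _ (by linarith) hlarge hT2 hfam hmV hmW hLam hM hH fun p h => ?_)
      (hp _ (by linarith) hT2 hfam hWp0 hWpU hmV hmW hLam hsV hsW fun p h => ?_)).trans ?_
    · obtain ⟨h1, h2⟩ := Finset.mem_filter.1 h
      exact ⟨(hR p h1).1, (hR p h1).2.1, h2⟩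
    · obtain ⟨h1, h2⟩ := Finset.mem_filter.1 h
      exact ⟨(hR p h1).1, (hR p h1).2.1, (hR p h1).2.2, h2⟩
    · generalize hg : U ^ (-(1 / 8 : ℝ)) = g
      have hg0 : 0 ≤ g := hg ▸ Real.rpow_nonneg hU0.le _
      generalize hT : (Lam * M * (mV * mW)) ^ (1 / 3 : ℝ) = T
      have hT0 : 0 ≤ T := hT ▸ by positivity
      have hP0 := prodShape_nonneg hV0 hW0
      generalize hS : (1 + Lam) *
        (Real.sqrt (mV * mW) + prodShape (∑ v ∈ V, F v) (∑ w ∈ W, F' w)) = S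
      have hS0 : 0 ≤ S := hS ▸ by positivity
      set C := 2 * Cc + Cs + Cg + Cp + 10 with hC
      calc Cg * x * g * T + x * g * S ≤ C * x * g * T + C * x * g * S := by
            refine add_le_add (by gcongr; linarith) ?_
            have h : 0 ≤ x * g * S := by positivity
            nlinarith
        _ = _ := by ring

/-- A box with both sides short carries at most one point. -/
theorem exists_box_small :
    ∃ C : ℝ, 0 < C ∧ ∀ (U β β' E1 E2 : ℝ) (R : Finset (ℕ × ℕ)),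
      C ≤ U → 1 / 2 ≤ E1 → 1 / 2 ≤ E2 → max E1 E2 < U ^ 8 →
      (∀ p ∈ R, InBox E1 E2 p ∧ Near β β' (U ^ 1000)⁻¹ p ∧
        ¬ NodeExact β β' (U ^ 1000)⁻¹ E1 E2 p) →
      R.card ≤ 1 := by
  obtain ⟨C, hC, hcount⟩ := exists_count_case
  refine ⟨C + 1, by positivity, fun U β β' E1 E2 R hU hE1 hE2 hmax hR => ?_⟩
  have hU1 : (1 : ℝ) ≤ U := by linarith
  refine (hcount U β β' E1 E2 R (by linarith) hE1 hE2 ?_ hR).1 hmax
  calc E1 * E2 ≤ U ^ 8 * U ^ 8 :=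
        mul_le_mul ((le_max_left _ _).trans hmax.le) ((le_max_right _ _).trans hmax.le)
          (by linarith) (by positivity)
    _ = U ^ 16 := by ring
    _ ≤ U ^ 1001 := pow_le_pow_right₀ hU1 (by norm_num)

end Vale.Agent.P028.Lift
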