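import Vale.Agent.P028.Lift.BilPool
import Vale.Agent.P028.Lift.Module
import Vale.Agent.P028.Lift.Shape

/-!
The boxes of moderate area.

Pairs with a slack radius gain from the bilinear bound.  For the others an exact relation with
short denominators is one between nodes of the two members, so it is excluded; what remains is
bounded by the module of one box, or by matching if the box carries at most one ratio.
-/

noncomputable section

namespace Vale.Agent.P028.Lift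

open Finset

/-! ### Elementary facts about pools -/

private theorem rpw_mul {x : ℝ} (hx : 0 < x) (a b : ℝ) : x ^ a * x ^ b = x ^ (a + b) :=
  (Real.rpow_add hx a b).symm

private theorem rpw_le {x a b : ℝ} (hx : 0 < x) (hx1 : x ≤ 1) (h : b ≤ a) : x ^ a ≤ x ^ b :=
  Real.rpow_le_rpow_of_exponent_ge hx hx1 h

private theorem phiY_le_one (Y n : ℕ) : phiY Y n ≤ 1 := by
  refine Finset.prod_le_one (fun p hp => ?_) (fun p hp => ?_)
  all_goals
    have h2 : (2 : ℝ) ≤ (p : ℝ) := by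
      exact_mod_cast (Nat.prime_of_mem_primeFactors (mem_filter.1 hp).1).two_le
    have h3 : 1 / (p : ℝ) ≤ 1 / 2 := one_div_le_one_div_of_le (by norm_num) h2
    have h4 : 0 ≤ 1 / (p : ℝ) := by positivity
  · linarith
  · linarith

private theorem pool_F_le {F f : ℕ → ℝ} {V : Finset ℕ} {k : ℕ → ℕ} {Y : ℕ} (h : Pool F f V k Y)
    {v : ℕ} (hv : v ∈ V) : F v ≤ f v :=
  (h.F_le v hv).trans (mul_le_of_le_one_right (h.f_nonneg v) (phiY_le_one Y v))

private theorem pool_mono {F f : ℕ → ℝ} {V V' : Finset ℕ} {k : ℕ → ℕ} {Y : ℕ} (h : Pool F f V k Y)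
    (hs : V' ⊆ V) : Pool F f V' k Y :=
  ⟨fun v hv => h.pos v (hs hv), h.F_nonneg, h.f_nonneg, fun v hv => h.F_le v (hs hv),
    fun v hv => h.centre_le v (hs hv)⟩

private theorem bilShape_nonneg {m m' : ℝ} (hm : 0 ≤ m) (hm' : 0 ≤ m') : 0 ≤ bilShape m m' := by
  unfold bilShape; positivity

private theorem bilShape_mono {a b a' b' : ℝ} (ha : 0 ≤ a) (hb : 0 ≤ b) (hab : a ≤ a')
    (hbb : b ≤ b') : bilShape a b ≤ bilShape a' b' := by
  have hth : (0 : ℝ) ≤ thL := by norm_num [thL, alL1, omL, delL]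
  have hom : (0 : ℝ) ≤ omL := by norm_num [omL]
  have h1 := ha.trans hab
  have h2 := hb.trans hbb
  unfold bilShape
  gcongr

private theorem bilShape_self {m : ℝ} (hm : 0 ≤ m) : bilShape m m = 2 * (m ^ delL * m) := by
  have hth : (0 : ℝ) ≤ thL := by norm_num [thL, alL1, omL, delL]
  have h1 : delL + 1 = omL + (thL + thL) := by norm_num [thL, alL1, omL, delL]
  have h2 : delL + (1 : ℝ) ≠ 0 := by norm_num [delL]
  rw [bilShape, Real.mul_rpow hm hm]
  conv_rhs => rw [← Real.rpow_add_one' hm h2, h1,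
    Real.rpow_add' hm (by rw [← h1]; exact h2),
    Real.rpow_add' hm (by norm_num [thL, alL1, omL, delL])]
  ring

/-- The loss `x ^ (-4 delL)` of the bilinear bound at a radius at least `x ^ 4`. -/
private theorem rad_le {x r : ℝ} (hx : 0 < x) (hr : x ^ (4 : ℝ) ≤ r) :
    r ^ alL1 * r ^ alL2 + r ^ alL1 * r ^ alL2 ≤ 2 * (r * x ^ (-(4 * delL))) := by
  have hx4 : 0 < x ^ (4 : ℝ) := Real.rpow_pos_of_pos hx _
  have hr0 : 0 < r := hx4.trans_le hr
  have e : alL1 + alL2 = 1 + -delL := by unfold alL1 alL2; ring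
  rw [rpw_mul hr0, e, ← rpw_mul hr0, Real.rpow_one, ← two_mul]
  gcongr
  refine (Real.rpow_le_rpow_of_nonpos hx4 hr (by norm_num [delL])).trans (le_of_eq ?_)
  rw [← Real.rpow_mul hx.le]
  congr 1
  ring

/-! ### The bilinear inputs of the box -/

/-- The bilinear loss of a box. -/
private def lamB (C x m m' : ℝ) : ℝ := C * x ^ (-(4 * delL)) * (1 + m ^ delL + m' ^ delL)

private theorem exists_inputs :
    ∃ C : ℝ, 0 < C ∧ ∀ (F F' f f' : ℕ → ℝ) (V W : Finset ℕ) (k : ℕ → ℕ) (Y : ℕ) (x E1 E2 : ℝ),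
      0 < x → x ≤ 1 / 16 → x ^ (-(20 : ℝ)) ≤ (Y : ℝ) → Pool F f V k Y → Pool F' f' W k Y →
      1 / 2 ≤ E1 → 1 / 2 ≤ E2 → E1 ≤ x ^ (-(3 : ℝ)) → E2 ≤ x ^ (-(3 : ℝ)) →
      (∀ v ∈ V, f v * E2 ≤ x) → (∀ w ∈ W, f' w * E1 ≤ x) →
      HeightBound F F' V W E1 E2 x (lamB C x (∑ v ∈ V, F v) (∑ w ∈ W, F' w))
          (bilShape (∑ v ∈ V, F v) (∑ w ∈ W, F' w) + (∑ v ∈ V, F v) * ∑ w ∈ W, F' w) ∧
        SelfBound F V (2 * x / E2) (4 * E1) (lamB C x (∑ v ∈ V, F v) (∑ w ∈ W, F' w))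
          (∑ v ∈ V, F v) ∧
        SelfBound F' W (2 * x / E1) (4 * E2) (lamB C x (∑ v ∈ V, F v) (∑ w ∈ W, F' w))
          (∑ w ∈ W, F' w) := by
  classical
  obtain ⟨Cb, hCb, hbil⟩ := exists_bilPool_le
  refine ⟨2 * Cb + 1, by positivity, ?_⟩
  intro F F' f f' V W k Y x E1 E2 hx hx16 hY hV hW hE1 hE2 hE1x hE2x hfV hfW
  set C := 2 * Cb + 1 with hC
  set m := ∑ v ∈ V, F v with hm
  set m' := ∑ w ∈ W, F' w with hm'
  have hm0 : 0 ≤ m := sum_nonneg fun v _ => hV.F_nonneg v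
  have hm0' : 0 ≤ m' := sum_nonneg fun v _ => hW.F_nonneg v
  have hx1 : x ≤ 1 := by linarith
  set G := x ^ (-(4 * delL)) with hG
  have hG1 : 1 ≤ G := Real.one_le_rpow_of_pos_of_le_one_of_nonpos hx hx1 (by norm_num [delL])
  have hd0 : 0 ≤ m ^ delL := Real.rpow_nonneg hm0 _
  have hd0' : 0 ≤ m' ^ delL := Real.rpow_nonneg hm0' _
  have hY4 : x ^ (-(4 : ℝ)) ≤ (Y : ℝ) := (rpw_le hx hx1 (by norm_num)).trans hY
  have hY2 : 2 ≤ Y := by
    have h16 : (2 : ℝ) ≤ x ^ (-(1 : ℝ)) := by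
      rw [Real.rpow_neg_one]
      exact (show (2 : ℝ) ≤ 16 by norm_num).trans (by rw [le_inv_comm₀ (by norm_num) hx]; linarith)
    have : (2 : ℝ) ≤ (Y : ℝ) := h16.trans ((rpw_le hx hx1 (by norm_num)).trans hY)
    exact_mod_cast this
  have hE4 : ∀ E : ℝ, E ≤ x ^ (-(3 : ℝ)) → E * x ^ (4 : ℝ) ≤ x := by
    intro E hE
    calc E * x ^ (4 : ℝ) ≤ x ^ (-(3 : ℝ)) * x ^ (4 : ℝ) := by gcongr
      _ = x := by rw [rpw_mul hx]; norm_num
  have hqY : ∀ E : ℝ, E ≤ x ^ (-(3 : ℝ)) → 4 * E ≤ (Y : ℝ) := by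
    intro E hE
    have h4 : (4 : ℝ) ≤ x ^ (-(1 : ℝ)) := by
      rw [Real.rpow_neg_one, le_inv_comm₀ (by norm_num) hx]; linarith
    calc 4 * E ≤ x ^ (-(1 : ℝ)) * x ^ (-(3 : ℝ)) :=
          (mul_le_mul_of_nonneg_left hE (by norm_num)).trans (by gcongr)
      _ = x ^ (-(4 : ℝ)) := by rw [rpw_mul hx]; norm_num
      _ ≤ _ := hY4
  -- the bound of one family
  have hself : ∀ (F f : ℕ → ℝ) (V : Finset ℕ) (A E : ℝ), Pool F f V k Y → 1 / 2 ≤ E →
      E ≤ x ^ (-(3 : ℝ)) → A ≤ x ^ (-(3 : ℝ)) → (∀ v ∈ V, f v * E ≤ x) →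
      SelfBound F V (2 * x / E) (4 * A) (C * G * (∑ v ∈ V, F v) ^ delL) (∑ v ∈ V, F v) := by
    intro F f V A E hP hE hEx hAx hfE H hH hHA
    set s := ∑ v ∈ V, F v with hs
    have hs0 : 0 ≤ s := sum_nonneg fun v _ => hP.F_nonneg v
    have hE0 : 0 < E := by linarith
    rcases lt_or_ge H 1 with hH1 | hH1
    · refine le_trans (le_of_eq (sum_eq_zero fun v hv => sum_eq_zero fun w hw => ?_)) (by positivity)
      obtain ⟨hwV, h1, -⟩ := mem_filter.1 hw
      have : (1 : ℝ) ≤ (qd w v : ℝ) := by exact_mod_cast BilinearAux.qd_pos (hP.pos w hwV)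
      linarith
    set r := x * H / E with hr
    have hrx : x ^ (4 : ℝ) ≤ r := by
      rw [hr, le_div_iff₀ hE0, mul_comm]
      exact (hE4 E hEx).trans (le_mul_of_one_le_right hx.le hH1)
    have h := hbil F F f f V V k Y r r ((Real.rpow_pos_of_pos hx _).trans_le hrx)
      ((Real.rpow_pos_of_pos hx _).trans_le hrx) hY2 hP hP
    refine le_trans ?_ (h.trans ?_)
    · refine sum_le_sum fun v hv => sum_le_sum_of_subset_of_nonneg ?_
        fun w _ _ => mul_nonneg (hP.F_nonneg v) (hP.F_nonneg w)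
      intro w hw
      obtain ⟨hwV, h1, h2⟩ := mem_filter.1 hw
      have hHY : H ≤ (Y : ℝ) := hHA.trans (hqY A hAx)
      refine mem_filter.2 ⟨hwV, ?_, ?_,
        .inr ⟨by exact_mod_cast h1.trans hHY, by exact_mod_cast h2.trans hHY⟩⟩
      · rw [hr, le_div_iff₀ hE0, mul_right_comm]
        exact mul_le_mul (hfE v hv) h1 (Nat.cast_nonneg _) hx.le
      · rw [hr, le_div_iff₀ hE0, mul_right_comm]
        exact mul_le_mul (hfE w hwV) h2 (Nat.cast_nonneg _) hx.le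
    · have hr0 : 0 ≤ r := by positivity
      calc Cb * (r ^ alL1 * r ^ alL2 + r ^ alL1 * r ^ alL2) * bilShape s s
          ≤ Cb * (2 * (r * G)) * (2 * (s ^ delL * s)) := by
            rw [bilShape_self hs0]
            gcongr
            exact rad_le hx hrx
        _ = 2 * Cb * G * s ^ delL * (2 * r) * s := by ring
        _ ≤ C * G * s ^ delL * (2 * r) * s := by gcongr; rw [hC]; linarith
        _ = _ := by rw [hr]; ring
  have hlam : ∀ t, 0 ≤ t → t ≤ 1 + m ^ delL + m' ^ delL →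
      C * G * t ≤ lamB C x m m' := fun t _ ht => by
    rw [lamB, ← hG]; exact mul_le_mul_of_nonneg_left ht (by positivity)
  refine ⟨?_, ?_, ?_⟩
  · intro Z hZ
    have hL : C * G ≤ lamB C x m m' := by
      simpa using hlam 1 zero_le_one (by linarith)
    have hC1 : 1 ≤ C := by rw [hC]; linarith
    have hB0 := bilShape_nonneg hm0 hm0'
    have hlam0 : 0 ≤ lamB C x m m' := le_trans (by positivity) hL
    rcases le_or_gt 1 (x * Z) with h1 | h1
    · rw [min_eq_right h1, mul_one]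
      calc ∑ v ∈ V, ∑ w ∈ W.filter (fun w => (qd w v : ℝ) ≤ E2 * Z ∧ (qd v w : ℝ) ≤ E1 * Z),
            F v * F' w ≤ ∑ v ∈ V, ∑ w ∈ W, F v * F' w :=
            sum_le_sum fun v _ => sum_le_sum_of_subset_of_nonneg (filter_subset _ _)
              fun w _ _ => mul_nonneg (hV.F_nonneg v) (hW.F_nonneg w)
        _ = 1 * (m * m') := by rw [one_mul, hm, hm', sum_mul_sum]
        _ ≤ _ := mul_le_mul (le_trans (one_le_mul_of_one_le_of_one_le hC1 hG1) hL) (by linarith)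
            (by positivity) hlam0
    rw [min_eq_left h1.le]
    rcases lt_or_ge (E2 * Z) 1 with h2 | h2
    · refine le_trans (le_of_eq (sum_eq_zero fun v hv => sum_eq_zero fun w hw => ?_))
        (mul_nonneg (mul_nonneg hlam0 (by positivity)) (by positivity))
      obtain ⟨hwW, h3, -⟩ := mem_filter.1 hw
      have : (1 : ℝ) ≤ (qd w v : ℝ) := by exact_mod_cast BilinearAux.qd_pos (hW.pos w hwW)
      linarith
    set r := x * Z with hr
    have hE20 : 0 < E2 := by linarith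
    have hrx : x ^ (4 : ℝ) ≤ r := by
      refine le_of_mul_le_mul_left ?_ hE20
      calc E2 * x ^ (4 : ℝ) ≤ x * 1 := by rw [mul_one]; exact hE4 E2 hE2x
        _ ≤ x * (E2 * Z) := mul_le_mul_of_nonneg_left h2 hx.le
        _ = E2 * r := by rw [hr]; ring
    have h := hbil F F' f f' V W k Y r r (by positivity) (by positivity) hY2 hV hW
    refine le_trans ?_ (h.trans ?_)
    · refine sum_le_sum fun v hv => sum_le_sum_of_subset_of_nonneg ?_
        fun w _ _ => mul_nonneg (hV.F_nonneg v) (hW.F_nonneg w)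
      intro w hw
      obtain ⟨hwW, h3, h4⟩ := mem_filter.1 hw
      have hZ1 : Z ≤ x ^ (-(1 : ℝ)) := by
        rw [Real.rpow_neg_one, ← one_div, le_div_iff₀ hx]; linarith [mul_comm x Z]
      have hEY : ∀ E : ℝ, 0 ≤ E → E ≤ x ^ (-(3 : ℝ)) → E * Z ≤ (Y : ℝ) := by
        intro E hE0 hE
        calc E * Z ≤ x ^ (-(3 : ℝ)) * x ^ (-(1 : ℝ)) :=
              mul_le_mul hE hZ1 hZ.le (by positivity)
          _ = x ^ (-(4 : ℝ)) := by rw [rpw_mul hx]; norm_num
          _ ≤ _ := hY4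
      refine mem_filter.2 ⟨hwW, ?_, ?_, .inr ⟨by exact_mod_cast h3.trans (hEY E2 hE20.le hE2x),
        by exact_mod_cast h4.trans (hEY E1 (by linarith) hE1x)⟩⟩
      · calc f v * (qd w v : ℝ) ≤ f v * (E2 * Z) :=
              mul_le_mul_of_nonneg_left h3 (hV.f_nonneg v)
          _ = f v * E2 * Z := by ring
          _ ≤ x * Z := mul_le_mul_of_nonneg_right (hfV v hv) hZ.le
      · calc f' w * (qd v w : ℝ) ≤ f' w * (E1 * Z) :=
              mul_le_mul_of_nonneg_left h4 (hW.f_nonneg w)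
          _ = f' w * E1 * Z := by ring
          _ ≤ x * Z := mul_le_mul_of_nonneg_right (hfW w hwW) hZ.le
    · have hr0 : 0 ≤ r := by positivity
      calc Cb * (r ^ alL1 * r ^ alL2 + r ^ alL1 * r ^ alL2) * bilShape m m'
          ≤ Cb * (2 * (r * G)) * (bilShape m m' + m * m') := by
            gcongr
            · exact rad_le hx hrx
            · linarith [mul_nonneg hm0 hm0']
        _ = 2 * Cb * G * r * (bilShape m m' + m * m') := by ring
        _ ≤ _ := by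
            gcongr
            refine le_trans ?_ hL
            gcongr
            rw [hC]; linarith
  · intro H hH hHA
    refine (hself F f V E1 E2 hV hE2 hE2x hE1x hfV H hH hHA).trans ?_
    gcongr
    exact hlam _ hd0 (by linarith)
  · intro H hH hHA
    refine (hself F' f' W E2 E1 hW hE1 hE1x hE2x hfW H hH hHA).trans ?_
    gcongr
    exact hlam _ hd0' (by linarith)

/-! ### The shape of the box bound -/

private theorem box_shape_le {L m m' : ℝ} (hL : 1 ≤ L) (hm : 0 ≤ m) (hm' : 0 ≤ m') :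
    (L * (1 + m ^ delL + m' ^ delL) * (bilShape m m' + m * m') * (m * m')) ^ (1 / 3 : ℝ) +
        (1 + L * (1 + m ^ delL + m' ^ delL)) * (Real.sqrt (m * m') + prodShape m m') ≤
      21 * L * gainShape m m' := by
  set g := gainShape m m' with hg
  have hg0 : 0 ≤ g := gainShape_nonneg hm hm'
  have hth : thL = 1 / 2 + delL / 2 - omL / 2 := by unfold thL alL1; ring
  have hd : (0 : ℝ) ≤ delL := by norm_num [delL]
  -- the cubes
  have h3 : ∀ a b : ℝ, 0 ≤ a → 0 ≤ b → a ≤ 3 - 3 / 10 ^ 6 → b ≤ 3 - 3 / 10 ^ 6 → 3 ≤ a + b →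
      m ^ a * m' ^ b ≤ g ^ 3 := by
    intro a b ha0 hb0 ha hb hab
    have e : m ^ a * m' ^ b = (m ^ (a / 3) * m' ^ (b / 3)) ^ 3 := by
      rw [mul_pow, ← Real.rpow_mul_natCast hm, ← Real.rpow_mul_natCast hm']
      norm_num
    rw [e]
    exact pow_le_pow_left₀ (by positivity)
      (mono_le_gainShape hm hm' (by linarith) (by linarith) (by linarith)) 3
  have key : ∀ da db : ℝ, 0 ≤ da → 0 ≤ db → da ≤ delL → db ≤ delL →
      m ^ da * m' ^ db * (bilShape m m' + m * m') * (m * m') ≤ 3 * g ^ 3 := by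
    intro da db ha hb ha' hb'
    have e : m ^ da * m' ^ db * (bilShape m m' + m * m') * (m * m') =
        m ^ (da + omL + thL + 1) * m' ^ (db + thL + 1) +
          m ^ (da + thL + 1) * m' ^ (db + omL + thL + 1) + m ^ (da + 2) * m' ^ (db + 2) := by
      have hth0 : (0 : ℝ) < thL := by norm_num [thL, alL1, omL, delL]
      have ho : (0 : ℝ) < omL := by norm_num [omL]
      rw [bilShape, Real.mul_rpow hm hm',
        Real.rpow_add' hm (by positivity), Real.rpow_add' hm (by positivity),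
        Real.rpow_add' hm (by positivity), Real.rpow_add' hm' (by positivity),
        Real.rpow_add' hm' (by positivity), Real.rpow_add' hm (by positivity),
        Real.rpow_add' hm (by positivity), Real.rpow_add' hm' (by positivity),
        Real.rpow_add' hm' (by positivity), Real.rpow_add' hm' (by positivity),
        Real.rpow_add' hm (by positivity), Real.rpow_add' hm' (by positivity),
        Real.rpow_one, Real.rpow_one, Real.rpow_two, Real.rpow_two]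
      ring
    rw [e]
    have ho : omL = 1 / 10 ^ 16 := rfl
    have hd' : delL = 1 / 10 ^ 10 := rfl
    refine le_trans (add_le_add (add_le_add (h3 _ _ ?_ ?_ ?_ ?_ ?_) (h3 _ _ ?_ ?_ ?_ ?_ ?_))
      (h3 _ _ ?_ ?_ ?_ ?_ ?_)) (le_of_eq (by ring))
    all_goals rw [hd'] at ha' hb'
    all_goals (try rw [hth]); (try rw [ho]); (try rw [hd'])
    all_goals norm_num at ha' hb' ⊢
    all_goals linarith
  have hT : (L * (1 + m ^ delL + m' ^ delL) * (bilShape m m' + m * m') * (m * m')) ^ (1 / 3 : ℝ) ≤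
      3 * L * g := by
    have k0 := key 0 0 le_rfl le_rfl hd hd
    have k1 := key delL 0 hd le_rfl le_rfl hd
    have k2 := key 0 delL le_rfl hd hd le_rfl
    simp only [Real.rpow_zero, one_mul, mul_one] at k0 k1 k2
    have hle : L * (1 + m ^ delL + m' ^ delL) * (bilShape m m' + m * m') * (m * m') ≤
        (3 * L * g) ^ 3 := by
      calc L * (1 + m ^ delL + m' ^ delL) * (bilShape m m' + m * m') * (m * m')
          = L * ((bilShape m m' + m * m') * (m * m') +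
              m ^ delL * (bilShape m m' + m * m') * (m * m') +
              m' ^ delL * (bilShape m m' + m * m') * (m * m')) := by ring
        _ ≤ L * (9 * g ^ 3) := mul_le_mul_of_nonneg_left (by linarith) (by linarith)
        _ ≤ L ^ 3 * (27 * g ^ 3) := by
            gcongr
            · exact le_self_pow₀ hL (by norm_num)
            · norm_num
        _ = _ := by ring
    refine (Real.rpow_le_rpow ?_ hle (by norm_num)).trans (le_of_eq ?_)
    · have := bilShape_nonneg hm hm'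
      positivity
    · rw [← Real.rpow_natCast (3 * L * g) 3, ← Real.rpow_mul (by positivity)]
      norm_num
  -- the linear part
  have hlin : ∀ da db : ℝ, 0 ≤ da → 0 ≤ db → da ≤ delL → db ≤ delL →
      m ^ da * m' ^ db * (Real.sqrt (m * m') + prodShape m m') ≤ 3 * g := by
    intro da db ha hb ha' hb'
    have e : m ^ da * m' ^ db * (Real.sqrt (m * m') + prodShape m m') =
        m ^ (da + 1 / 2) * m' ^ (db + 1 / 2) +
          m ^ (da + (1 - 1 / 10000)) * m' ^ (db + 1 / 10000) +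
          m ^ (da + 1 / 10000) * m' ^ (db + (1 - 1 / 10000)) := by
      rw [prodShape, Real.sqrt_eq_rpow, Real.mul_rpow hm hm',
        Real.rpow_add' hm (by positivity), Real.rpow_add' hm' (by positivity),
        Real.rpow_add' hm (by linarith), Real.rpow_add' hm' (by positivity),
        Real.rpow_add' hm (by positivity), Real.rpow_add' hm' (by linarith)]
      ring
    rw [e]
    have hd' : delL = 1 / 10 ^ 10 := rfl
    refine le_trans (add_le_add (add_le_add (mono_le_gainShape hm hm' ?_ ?_ ?_)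
      (mono_le_gainShape hm hm' ?_ ?_ ?_)) (mono_le_gainShape hm hm' ?_ ?_ ?_))
      (le_of_eq (by ring))
    all_goals rw [hd'] at ha' hb'
    all_goals norm_num at ha' hb' ⊢
    all_goals linarith
  have l0 := hlin 0 0 le_rfl le_rfl hd hd
  have l1 := hlin delL 0 hd le_rfl le_rfl hd
  have l2 := hlin 0 delL le_rfl hd hd le_rfl
  simp only [Real.rpow_zero, one_mul, mul_one] at l0 l1 l2
  have hS : (1 + L * (1 + m ^ delL + m' ^ delL)) * (Real.sqrt (m * m') + prodShape m m') ≤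
      3 * g + L * (9 * g) := by
    calc _ = (Real.sqrt (m * m') + prodShape m m') +
          L * ((Real.sqrt (m * m') + prodShape m m') +
            m ^ delL * (Real.sqrt (m * m') + prodShape m m') +
            m' ^ delL * (Real.sqrt (m * m') + prodShape m m')) := by ring
      _ ≤ _ := add_le_add l0 (mul_le_mul_of_nonneg_left (by linarith) (by linarith))
  have : 3 * g ≤ 3 * L * g := by nlinarith
  nlinarith

/-! ### Nodes of exact relations -/

/-- The reduced form of a fraction. -/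
private theorem exists_reduced {P : ℕ} (hP : 0 < P) (u : ℤ) :
    ∃ (g P1 : ℕ) (u1 : ℤ), 0 < g ∧ 0 < P1 ∧ P1 ≤ P ∧ IsCoprime u1 (P1 : ℤ) ∧
      P = g * P1 ∧ u = g * u1 ∧ ∀ β : ℝ, |(P1 : ℝ) * β - u1| ≤ |(P : ℝ) * β - u| := by
  obtain ⟨g, u1, q1, hg, hcop, hu, hq⟩ :=
    Int.exists_gcd_one' (Int.gcd_pos_of_ne_zero_right u (show (P : ℤ) ≠ 0 by omega))
  have hg' : (1 : ℤ) ≤ g := by exact_mod_cast hg
  have hq1 : 0 < q1 := by nlinarith
  obtain ⟨P1, rfl⟩ : ∃ P1 : ℕ, q1 = P1 := ⟨q1.toNat, (Int.toNat_of_nonneg hq1.le).symm⟩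
  have hPe : P = g * P1 := by
    have : (P : ℤ) = ((g * P1 : ℕ) : ℤ) := by rw [hq]; push_cast; ring
    exact_mod_cast this
  refine ⟨g, P1, u1, hg, by exact_mod_cast hq1, ?_, Int.isCoprime_iff_gcd_eq_one.2 hcop, hPe,
    by rw [hu]; ring, fun β => ?_⟩
  · rw [hPe]; exact Nat.le_mul_of_pos_left _ hg
  · have e : (P : ℝ) * β - u = (g : ℝ) * ((P1 : ℝ) * β - u1) := by
      rw [hPe, hu]; push_cast; ring
    rw [e, abs_mul, Nat.abs_cast]
    exact le_mul_of_one_le_left (abs_nonneg _) (by exact_mod_cast hg)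

/-- A short reduced fraction is a node at every radius of the range of the box. -/
private theorem isNode_of_short {x β f E : ℝ} {P : ℕ} {u : ℤ} (hx : 0 < x) (hx1 : x ≤ 1 / 2 ^ 32)
    (hE : 1 / 2 ≤ E) (hP : 0 < P) (hu : IsCoprime u (P : ℤ))
    (hPb : (P : ℝ) ^ 2 * x ≤ x ^ (1 / 4 : ℝ) * E)
    (he : |(P : ℝ) * β - u| ^ 2 * E ≤ x ^ (1 / 4 : ℝ) * x)
    (hf1 : x ^ (1 + sig0) ≤ f * E) (hf2 : f * E ≤ x) : IsNode β f P u := by
  have hx1' : x ≤ 1 := hx1.trans (by norm_num)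
  have hE0 : 0 < E := by linarith
  have hsig : sig0 = 1 / 10 ^ 6 := rfl
  have hf : 0 < f := by
    have : (0 : ℝ) < x ^ (1 + sig0) := Real.rpow_pos_of_pos hx _
    exact pos_of_mul_pos_left (this.trans_le hf1) hE0.le
  have hroot : ∀ (n : ℕ) (r : ℝ), 0 ≤ r → (1 / 2 ^ 32 : ℝ) = r ^ n → n ≠ 0 →
      x ^ ((n : ℝ)⁻¹) ≤ r := by
    intro n r hr e hn
    calc x ^ ((n : ℝ)⁻¹) ≤ (1 / 2 ^ 32 : ℝ) ^ ((n : ℝ)⁻¹) :=
          Real.rpow_le_rpow hx.le hx1 (by positivity)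
      _ = r := by rw [e, Real.pow_rpow_inv_natCast hr hn]
  have h4 : x ^ (1 / 4 : ℝ) < 1 / 64 := by
    refine lt_of_le_of_lt (le_of_eq_of_le ?_ (hroot 4 (1 / 256) (by norm_num) (by norm_num)
      (by norm_num))) (by norm_num)
    norm_num
  have h8 : x ^ (1 / 8 : ℝ) < 1 / 8 := by
    refine lt_of_le_of_lt (le_of_eq_of_le ?_ (hroot 8 (1 / 16) (by norm_num) (by norm_num)
      (by norm_num))) (by norm_num)
    norm_num
  refine ⟨hP, hu, ?_, ?_⟩
  · have h1 : f * (P : ℝ) ^ 2 * x ≤ x ^ (1 / 4 : ℝ) * x := by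
      calc f * (P : ℝ) ^ 2 * x = f * ((P : ℝ) ^ 2 * x) := by ring
        _ ≤ f * (x ^ (1 / 4 : ℝ) * E) := mul_le_mul_of_nonneg_left hPb hf.le
        _ = x ^ (1 / 4 : ℝ) * (f * E) := by ring
        _ ≤ _ := mul_le_mul_of_nonneg_left hf2 (by positivity)
    have h2 : f * (P : ℝ) ^ 2 < 1 / 64 := lt_of_le_of_lt (le_of_mul_le_mul_right h1 hx) h4
    calc (f * (P : ℝ)) ^ 2 = f * (f * (P : ℝ) ^ 2) := by ring
      _ < f * (1 / 64) := mul_lt_mul_of_pos_left h2 hf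
      _ = _ := by ring
  · rw [sq_abs] at he
    refine lt_of_mul_lt_mul_right ?_ hE0.le
    calc ((P : ℝ) * β - u) ^ 2 * E ≤ x ^ (1 / 4 : ℝ) * x := he
      _ = x ^ (1 / 4 - sig0) * x ^ (1 + sig0) := by
          rw [rpw_mul hx, show (1 / 4 - sig0) + (1 + sig0) = 1 / 4 + (1 : ℝ) by ring, ← rpw_mul hx,
            Real.rpow_one]
      _ < (1 / 64) * x ^ (1 + sig0) := by
          refine mul_lt_mul_of_pos_right ?_ (show (0 : ℝ) < x ^ (1 + sig0) by positivity)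
          refine lt_of_le_of_lt (rpw_le hx hx1' (show (1 / 8 : ℝ) + 1 / 9 ≤ 1 / 4 - sig0 by
            rw [hsig]; norm_num)) ?_
          rw [← rpw_mul hx]
          have h9 : x ^ (1 / 9 : ℝ) ≤ 1 / 8 := by
            refine le_trans ((Real.rpow_le_rpow hx.le hx1 (by norm_num)).trans (le_of_eq_of_le ?_
              (Real.rpow_le_rpow_of_exponent_ge (x := (1 / 2 ^ 32 : ℝ)) (by norm_num) (by norm_num)
                (show (3 / 32 : ℝ) ≤ 1 / 9 by norm_num)))) (le_of_eq ?_)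
            · rfl
            · rw [show (1 / 2 ^ 32 : ℝ) = (1 / 2 : ℝ) ^ (32 : ℕ) by norm_num,
                ← Real.rpow_natCast_mul (by norm_num)]
              norm_num
          calc x ^ (1 / 8 : ℝ) * x ^ (1 / 9 : ℝ) < 1 / 8 * (1 / 8) :=
                mul_lt_mul h8 h9 (by positivity) (by norm_num)
            _ = 1 / 64 := by norm_num
      _ ≤ f / 64 * E := by linarith

/-- Out of the slack range an exact relation with short fractions is one between nodes. -/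
private theorem not_nodeExact {β β' x E1 E2 fv fw : ℝ} {p : ℕ × ℕ} {n : ℤ} (hx : 0 < x)
    (hx1 : x ≤ 1 / 2 ^ 32) (hE1 : 1 / 2 ≤ E1) (hE2 : 1 / 2 ≤ E2)
    (hv1 : x ^ (1 + sig0) ≤ fv * E2) (hv2 : fv * E2 ≤ x)
    (hw1 : x ^ (1 + sig0) ≤ fw * E1) (hw2 : fw * E1 ≤ x)
    (hn : |(p.1 : ℝ) * β - (p.2 : ℝ) * β' - n| < 2 * x)
    (hbad : ¬NodesExact β β' fv fw p n) : ¬NodeExact β β' x E1 E2 p := by
  rintro ⟨P, u, u', n', hP, hPb, he1, he2, hn', hrel⟩
  have hnn : n' = n := by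
    have h4 : |((n' - n : ℤ) : ℝ)| < 1 := by
      have e : ((n' - n : ℤ) : ℝ) = ((p.1 : ℝ) * β - (p.2 : ℝ) * β' - n) -
          ((p.1 : ℝ) * β - (p.2 : ℝ) * β' - n') := by push_cast; ring
      rw [e]
      have : x * 4 < 1 := by linarith
      exact lt_of_le_of_lt (abs_sub _ _) (by linarith)
    have : |n' - n| < 1 := by exact_mod_cast h4
    linarith [Int.abs_lt_one_iff.1 this]
  subst hnn
  obtain ⟨g, P1, u1, hg, hP1, hP1le, hc1, hPe1, hu1, hsm1⟩ := exists_reduced hP u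
  obtain ⟨g', P2, u2, -, hP2, hP2le, hc2, hPe2, hu2, hsm2⟩ := exists_reduced hP u'
  have hx4 : (0 : ℝ) ≤ x ^ (1 / 4 : ℝ) := by positivity
  have hb1 : (P1 : ℝ) ^ 2 * x ≤ x ^ (1 / 4 : ℝ) * E2 :=
    (mul_le_mul_of_nonneg_right (pow_le_pow_left₀ (Nat.cast_nonneg _) (Nat.cast_le.2 hP1le) 2)
      hx.le).trans (hPb.trans (mul_le_mul_of_nonneg_left (min_le_right _ _) hx4))
  have hb2 : (P2 : ℝ) ^ 2 * x ≤ x ^ (1 / 4 : ℝ) * E1 :=
    (mul_le_mul_of_nonneg_right (pow_le_pow_left₀ (Nat.cast_nonneg _) (Nat.cast_le.2 hP2le) 2)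
      hx.le).trans (hPb.trans (mul_le_mul_of_nonneg_left (min_le_left _ _) hx4))
  have hr1 : |(P1 : ℝ) * β - u1| ^ 2 * E2 ≤ x ^ (1 / 4 : ℝ) * x :=
    le_trans (mul_le_mul_of_nonneg_right (pow_le_pow_left₀ (abs_nonneg _) (hsm1 β) 2)
      (by linarith)) he1
  have hr2 : |(P2 : ℝ) * β' - u2| ^ 2 * E1 ≤ x ^ (1 / 4 : ℝ) * x :=
    le_trans (mul_le_mul_of_nonneg_right (pow_le_pow_left₀ (abs_nonneg _) (hsm2 β') 2)
      (by linarith)) he2
  refine hbad ⟨P1, P2, u1, u2, isNode_of_short hx hx1 hE2 hP1 hc1 hb1 hr1 hv1 hv2,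
    isNode_of_short hx hx1 hE1 hP2 hc2 hb2 hr2 hw1 hw2, ?_⟩
  have hPP : (g : ℤ) * P1 = (g' : ℤ) * P2 := by
    have h := hPe1.symm.trans hPe2
    exact_mod_cast h
  have hrel' : ((g : ℤ) * P1) * n' = (p.1 : ℤ) * (g * u1) - (p.2 : ℤ) * (g' * u2) := by
    have h : (P : ℤ) = (g : ℤ) * P1 := by rw [hPe1]; push_cast; rfl
    rw [← h, ← hu1, ← hu2]; exact hrel
  refine mul_left_cancel₀ (show (g : ℤ) ≠ 0 by omega) ?_
  linear_combination (P2 : ℤ) * hrel' + ((p.2 : ℤ) * u2) * hPP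

/-! ### The theorem -/

/-- The small levels and the base of the box theorem. -/
private theorem base_facts {x : ℝ} (hx : 0 < x) :
    0 < x ^ (-(1 / 1000 : ℝ)) ∧ ((x ^ (-(1 / 1000 : ℝ))) ^ 1000)⁻¹ = x := by
  refine ⟨Real.rpow_pos_of_pos hx _, ?_⟩
  rw [← Real.rpow_mul_natCast hx.le]
  norm_num [Real.rpow_neg_one]

open Classical in
/-- Pairs with a slack radius. -/
private theorem exists_slack_le :
    ∃ C : ℝ, 0 < C ∧ ∀ (F F' f f' : ℕ → ℝ) (V W : Finset ℕ) (k : ℕ → ℕ) (Y : ℕ)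
      (x r r' : ℝ) (T : Finset (ℕ × ℕ)), 0 < x → x ≤ 1 → 2 ≤ Y →
      Pool F f V k Y → Pool F' f' W k Y →
      (r = 2 * x ^ (1 + sig0) ∧ r' = x ∨ r = x ∧ r' = 2 * x ^ (1 + sig0)) → T ⊆ V ×ˢ W →
      (∀ z ∈ T, Linked k Y z.1 z.2 ∧ f z.1 * (qd z.2 z.1 : ℝ) ≤ r ∧
        f' z.2 * (qd z.1 z.2 : ℝ) ≤ r') →
      ∑ z ∈ T, F z.1 * F' z.2 ≤
        C * x ^ (1 + 4 * gainL) * gainShape (∑ v ∈ V, F v) (∑ w ∈ W, F' w) := by
  obtain ⟨Cb, hCb, hbil⟩ := exists_bilPool_le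
  refine ⟨8 * Cb, by positivity, ?_⟩
  intro F F' f f' V W k Y x r r' T hx hx1 hY2 hV hW hr hTs hT
  set σ := x ^ (1 + sig0) with hσ
  have hσ0 : 0 < σ := Real.rpow_pos_of_pos hx _
  have hr0 : 0 < r ∧ 0 < r' := by
    rcases hr with ⟨h1, h2⟩ | ⟨h1, h2⟩ <;> subst h1 h2 <;> exact ⟨by positivity, by positivity⟩
  set m := ∑ v ∈ V, F v with hm
  set m' := ∑ w ∈ W, F' w with hm'
  have hm0 : 0 ≤ m := sum_nonneg fun v _ => hV.F_nonneg v
  have hm0' : 0 ≤ m' := sum_nonneg fun v _ => hW.F_nonneg v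
  refine le_trans ?_ ((hbil F F' f f' V W k Y r r' hr0.1 hr0.2 hY2 hV hW).trans ?_)
  · simp only [sum_filter (s := W)]
    rw [← sum_product', ← sum_filter]
    refine sum_le_sum_of_subset_of_nonneg ?_
      fun z _ _ => mul_nonneg (hV.F_nonneg _) (hW.F_nonneg _)
    intro z hz
    exact mem_filter.2 ⟨hTs hz, (hT z hz).2.1, (hT z hz).2.2, .inl (hT z hz).1⟩
  have key : ∀ a b : ℝ, a + b = 1 - delL → 1 / 2 - delL ≤ a → a ≤ 1 →
      (2 * σ) ^ a * x ^ b ≤ 2 * x ^ (1 + 4 * gainL) := by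
    intro a b hab ha ha1
    have hd : delL = 1 / 10 ^ 10 := rfl
    have ha0 : 0 ≤ a := le_trans (by rw [hd]; norm_num) ha
    rw [Real.mul_rpow (by norm_num) hσ0.le, hσ, ← Real.rpow_mul hx.le, mul_assoc, rpw_mul hx]
    refine mul_le_mul ?_ (rpw_le hx hx1 ?_) (by positivity) (by norm_num)
    · calc (2 : ℝ) ^ a ≤ 2 ^ (1 : ℝ) := Real.rpow_le_rpow_of_exponent_le (by norm_num) ha1
        _ = 2 := Real.rpow_one 2
    · have hs : sig0 = 1 / 10 ^ 6 := rfl
      have hgl : gainL = 1 / 10 ^ 16 := rfl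
      rw [show (1 + sig0) * a + b = 1 - delL + sig0 * a by rw [← hab]; ring, hs, hgl]
      rw [hd] at ha ⊢
      norm_num at ha ⊢
      linarith
  have e1 := key alL1 alL2 (by unfold alL1 alL2; ring) (by norm_num [alL1, delL, omL])
    (by norm_num [alL1, delL, omL])
  have e2 := key alL2 alL1 (by unfold alL1 alL2; ring) (by norm_num [alL2, delL, omL])
    (by norm_num [alL2, delL, omL])
  have hsum : r' ^ alL1 * r ^ alL2 + r ^ alL1 * r' ^ alL2 ≤ 4 * x ^ (1 + 4 * gainL) := by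
    rcases hr with ⟨h1, h2⟩ | ⟨h1, h2⟩ <;> rw [h1, h2] <;>
      linarith [mul_comm ((2 * σ) ^ alL1) (x ^ alL2), mul_comm ((2 * σ) ^ alL2) (x ^ alL1)]
  calc Cb * (r' ^ alL1 * r ^ alL2 + r ^ alL1 * r' ^ alL2) * bilShape m m'
      ≤ Cb * (4 * x ^ (1 + 4 * gainL)) * (2 * gainShape m m') :=
        mul_le_mul (mul_le_mul_of_nonneg_left hsum hCb.le) (bilShape_le_gainShape hm0 hm0')
          (bilShape_nonneg hm0 hm0') (by positivity)
    _ = _ := by ring

/-- The ratios which are not exact relations between nodes. -/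
private theorem exists_general_le :
    ∃ C : ℝ, 0 < C ∧ ∀ (β β' x E1 E2 : ℝ) (F F' f f' : ℕ → ℝ) (V W : Finset ℕ) (k : ℕ → ℕ)
      (Y : ℕ) (R : Finset (ℕ × ℕ)),
      0 < x → C * x ≤ 1 → x ^ (-(20 : ℝ)) ≤ (Y : ℝ) → Pool F f V k Y → Pool F' f' W k Y →
      Fams F F' V W E1 E2 x → E1 ≤ x ^ (-(3 : ℝ)) → E2 ≤ x ^ (-(3 : ℝ)) →
      (∀ v ∈ V, f v * E2 ≤ x) → (∀ w ∈ W, f' w * E1 ≤ x) →
      E1 * E2 ≤ x ^ (-(202 / 100 : ℝ)) →
      (∀ p ∈ R, InBox E1 E2 p ∧ Near β β' x p ∧ ¬NodeExact β β' x E1 E2 p ∧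
        x ^ (-(1 / 200 : ℝ)) < max (p.1 : ℝ) p.2) →
      ratioWeight F F' V W R ≤
        C * x ^ (1 + 4 * gainL) * gainShape (∑ v ∈ V, F v) (∑ w ∈ W, F' w) := by
  obtain ⟨Ci, hCi, hinputs⟩ := exists_inputs
  obtain ⟨Cl, hCl, hone⟩ := exists_box_small
  obtain ⟨Cm, hCm, hbox⟩ := exists_box_le
  set N : ℝ := max (max Cm Cl) 100 with hN
  have hN100 : (100 : ℝ) ≤ N := le_max_right _ _
  refine ⟨21 * Cm * (Ci + 1) + N ^ 1000 + 16,
    by have := pow_nonneg (show 0 ≤ N by linarith) 1000; positivity, ?_⟩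
  intro β β' x E1 E2 F F' f f' V W k Y R hx hCx hY hV hW hfam hE1x hE2x hfV hfW hT hR
  set C := 21 * Cm * (Ci + 1) + N ^ 1000 + 16 with hC
  have hN0 : (0 : ℝ) ≤ N ^ 1000 := pow_nonneg (by linarith) _
  have hCm0 : (0 : ℝ) ≤ 21 * Cm * (Ci + 1) := by positivity
  have hxN : N ^ 1000 * x ≤ 1 := le_trans (by gcongr; rw [hC]; linarith) hCx
  have hx16 : x ≤ 1 / 16 := by
    have : (16 : ℝ) * x ≤ 1 := le_trans (by gcongr; rw [hC]; linarith) hCx
    linarith
  have hC21 : 21 * Cm * (Ci + 1) ≤ C := by rw [hC]; linarith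
  have h8C : (8 : ℝ) ≤ C := by rw [hC]; linarith
  clear_value C
  have hx1 : x ≤ 1 := by linarith
  set m := ∑ v ∈ V, F v with hm
  set m' := ∑ w ∈ W, F' w with hm'
  have hm0 : 0 ≤ m := sum_nonneg fun v _ => hV.F_nonneg v
  have hm0' : 0 ≤ m' := sum_nonneg fun v _ => hW.F_nonneg v
  have hg0 := gainShape_nonneg hm0 hm0'
  rcases R.eq_empty_or_nonempty with rfl | ⟨p0, hp0⟩
  · have : ratioWeight F F' V W ∅ = 0 := by simp [ratioWeight]
    rw [this]
    have : 0 ≤ C := le_trans hCm0 hC21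
    positivity
  obtain ⟨hU0, hUx⟩ := base_facts hx
  set U := x ^ (-(1 / 1000 : ℝ)) with hUdef
  have hUN : N ≤ U := by
    refine le_of_pow_le_pow_left₀ (n := 1000) (by norm_num) hU0.le ?_
    rw [← inv_inv (U ^ 1000), hUx, ← one_div, le_div_iff₀ hx]
    exact hxN
  have hT2021 : ∀ A B : ℝ, 1 / 2 ≤ B → 0 ≤ A → A * B ≤ U ^ 2020 → A ≤ U ^ 2021 := by
    intro A B hB hA hAB
    calc A ≤ 2 * (A * B) := by nlinarith
      _ ≤ U * U ^ 2020 := by gcongr; linarith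
      _ = U ^ 2021 := by ring
  have hE10 : 0 < E1 := by linarith [hfam.half_le_E1]
  have hE20 : 0 < E2 := by linarith [hfam.half_le_E2]
  have hT2020 : E1 * E2 ≤ U ^ 2020 := by
    refine hT.trans (le_of_eq ?_)
    rw [hUdef, ← Real.rpow_mul_natCast hx.le]
    norm_num
  rcases lt_or_ge (max E1 E2) (U ^ 8) with hsmall | hbig
  · -- at most one ratio
    have hcard : (R.card : ℝ) ≤ 1 := by
      exact_mod_cast hone U β β' E1 E2 R (le_trans ((le_max_right _ _).trans (le_max_left _ _)) hUN)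
        hfam.half_le_E1 hfam.half_le_E2 hsmall
        (fun p hp => by rw [hUx]; exact ⟨(hR p hp).1, (hR p hp).2.1, (hR p hp).2.2.1⟩)
    refine (matching_le hfam R (by linarith) (hT2021 E1 E2 hfam.half_le_E2 hE10.le hT2020)
      (hT2021 E2 E1 hfam.half_le_E1 hE20.le ((mul_comm E2 E1).trans_le hT2020))).trans ?_
    have hps : prodShape m m' ≤ 2 * gainShape m m' := by
      rw [prodShape, two_mul]
      exact add_le_add (mono_le_gainShape hm0 hm0' (by norm_num) (by norm_num) (by norm_num))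
        (mono_le_gainShape hm0 hm0' (by norm_num) (by norm_num) (by norm_num))
    have hmax0 : 0 < max E1 E2 := lt_max_of_lt_left hE10
    have hinv : 1 / max E1 E2 ≤ 2 * x ^ (1 / 200 : ℝ) := by
      obtain ⟨⟨-, hc, -, ha, -⟩, -, -, hmax⟩ := hR p0 hp0
      have h2 : x ^ (-(1 / 200 : ℝ)) ≤ 2 * max E1 E2 := hmax.le.trans
        (max_le (hc.trans (by gcongr; exact le_max_right _ _))
          (ha.trans (by gcongr; exact le_max_left _ _)))
      rw [Real.rpow_neg hx.le, ← one_div, div_le_iff₀ (by positivity)] at h2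
      rw [div_le_iff₀ hmax0]
      linarith
    have hUq : U ^ (1 / 4 : ℝ) = x ^ (-(1 / 4000 : ℝ)) := by
      rw [hUdef, ← Real.rpow_mul hx.le]; norm_num
    calc (R.card : ℝ) * (2 * x * U ^ (1 / 4 : ℝ) / max E1 E2) * prodShape m m'
        ≤ 1 * (2 * x * U ^ (1 / 4 : ℝ) * (2 * x ^ (1 / 200 : ℝ))) * (2 * gainShape m m') := by
          have := prodShape_nonneg hm0 hm0'
          rw [div_eq_mul_one_div]
          gcongr
      _ = 8 * (x ^ (1 : ℝ) * x ^ (-(1 / 4000 : ℝ)) * x ^ (1 / 200 : ℝ)) * gainShape m m' := by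
          rw [hUq, Real.rpow_one]; ring
      _ ≤ _ := by
          rw [rpw_mul hx, rpw_mul hx]
          exact mul_le_mul_of_nonneg_right (mul_le_mul h8C (rpw_le hx hx1 (by norm_num [gainL]))
            (Real.rpow_nonneg hx.le _) (hCm0.trans hC21)) hg0
  obtain ⟨hH, hsV, hsW⟩ := hinputs F F' f f' V W k Y x E1 E2 hx hx16 hY hV hW hfam.half_le_E1
    hfam.half_le_E2 hE1x hE2x hfV hfW
  set L := (Ci + 1) * x ^ (-(4 * delL)) with hL
  have hG1 : 1 ≤ x ^ (-(4 * delL)) :=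
    Real.one_le_rpow_of_pos_of_le_one_of_nonpos hx hx1 (by norm_num [delL])
  have hL1 : 1 ≤ L := by rw [hL]; exact one_le_mul_of_one_le_of_one_le (by linarith) hG1
  have hlamle : lamB Ci x m m' ≤ L * (1 + m ^ delL + m' ^ delL) := by
    rw [lamB, hL]; gcongr; linarith
  have hlam0 : 0 ≤ lamB Ci x m m' := by rw [lamB]; positivity
  have hM0 : 0 ≤ bilShape m m' + m * m' := by
    have := bilShape_nonneg hm0 hm0'; positivity
  have h := hbox U β β' E1 E2 F F' V W (lamB Ci x m m') (bilShape m m' + m * m') m m' R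
    (le_trans ((le_max_left _ _).trans (le_max_left _ _)) hUN) hT2020 hbig (hUx.symm ▸ hfam) le_rfl le_rfl hlam0 hM0
    (hUx.symm ▸ hH) (hUx.symm ▸ hsV) (hUx.symm ▸ hsW) (fun p hp => by
      rw [hUx]
      exact ⟨(hR p hp).1, (hR p hp).2.1, (hR p hp).2.2.1⟩)
  rw [hUx] at h
  refine h.trans ?_
  have hUg : U ^ (-(1 / 8 : ℝ)) = x ^ (1 / 8000 : ℝ) := by
    rw [hUdef, ← Real.rpow_mul hx.le]; norm_num
  calc Cm * x * U ^ (-(1 / 8 : ℝ)) *
        ((lamB Ci x m m' * (bilShape m m' + m * m') * (m * m')) ^ (1 / 3 : ℝ) +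
          (1 + lamB Ci x m m') * (Real.sqrt (m * m') + prodShape m m'))
      ≤ Cm * x * U ^ (-(1 / 8 : ℝ)) * (21 * L * gainShape m m') := by
        have := prodShape_nonneg hm0 hm0'
        refine mul_le_mul_of_nonneg_left (le_trans ?_ (box_shape_le hL1 hm0 hm0')) (by positivity)
        gcongr
    _ = 21 * Cm * (Ci + 1) * (x ^ (1 : ℝ) * x ^ (1 / 8000 : ℝ) * x ^ (-(4 * delL))) *
          gainShape m m' := by
        rw [hUg, hL, Real.rpow_one]; ring
    _ ≤ _ := by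
        rw [rpw_mul hx, rpw_mul hx]
        exact mul_le_mul_of_nonneg_right (mul_le_mul hC21 (rpw_le hx hx1 (by norm_num [delL, gainL]))
          (Real.rpow_nonneg hx.le _) (hCm0.trans hC21)) hg0

open Classical in
/-- The bad pairs of one box of area at most `X ^ 2.02`. -/
theorem exists_boxPart_le :
    ∃ C : ℝ, 0 < C ∧ ∀ (β β' x E1 E2 : ℝ) (F F' f f' : ℕ → ℝ) (V W : Finset ℕ) (k : ℕ → ℕ) (Y : ℕ),
      0 < x → C * x ≤ 1 → x ^ (-(20 : ℝ)) ≤ (Y : ℝ) → 1 / 2 ≤ E1 → 1 / 2 ≤ E2 →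
      E1 * E2 ≤ x ^ (-(202 / 100 : ℝ)) →
      Pool F f V k Y → Pool F' f' W k Y →
      ∑ v ∈ V, ∑ w ∈ W.filter (fun w => InBox E1 E2 (qd w v, qd v w) ∧
          BadPair β β' x f f' k Y v w), F v * F' w ≤
        C * x ^ (1 + 4 * gainL) * gainShape (∑ v ∈ V, F v) (∑ w ∈ W, F' w) := by
  obtain ⟨Cs, hCs, hslack⟩ := exists_slack_le
  obtain ⟨Cg, hCg, hgen⟩ := exists_general_le
  refine ⟨2 * Cs + Cg + 2 ^ 40, by positivity, ?_⟩
  intro β β' x E1 E2 F F' f f' V W k Y hx hCx hY hE1 hE2 hT hV hW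
  set C := 2 * Cs + Cg + 2 ^ 40 with hC
  have hp40 : (0 : ℝ) ≤ (2 : ℝ) ^ 40 := pow_nonneg (by norm_num) _
  have hCgx : Cg * x ≤ 1 := le_trans (by gcongr; rw [hC]; linarith) hCx
  have hx40 : (2 : ℝ) ^ 40 * x ≤ 1 := le_trans (by gcongr; rw [hC]; linarith) hCx
  have hsumC : 2 * Cs + Cg ≤ C := by rw [hC]; linarith
  clear_value C
  have hx32 : x ≤ 1 / 2 ^ 32 := by rw [le_div_iff₀ (by norm_num)]; linarith
  have hx1 : x ≤ 1 := hx32.trans (by norm_num)
  have hEx : ∀ A B : ℝ, 1 / 2 ≤ B → 0 ≤ A → A * B ≤ x ^ (-(202 / 100 : ℝ)) →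
      A ≤ x ^ (-(21 / 10 : ℝ)) := by
    intro A B hB hA hAB
    have h2 : (2 : ℝ) ≤ x ^ (-(8 / 100 : ℝ)) := by
      calc (2 : ℝ) ≤ (1 / 2 ^ 32 : ℝ) ^ (-(8 / 100 : ℝ)) := by
            rw [one_div, Real.inv_rpow (by norm_num), Real.rpow_neg (by norm_num), inv_inv,
              ← Real.rpow_natCast_mul (by norm_num)]
            calc (2 : ℝ) = 2 ^ (1 : ℝ) := (Real.rpow_one 2).symm
              _ ≤ _ := Real.rpow_le_rpow_of_exponent_le (by norm_num) (by norm_num)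
        _ ≤ _ := Real.rpow_le_rpow_of_nonpos hx hx32 (by norm_num)
    calc A ≤ 2 * (A * B) := by nlinarith
      _ ≤ x ^ (-(8 / 100 : ℝ)) * x ^ (-(202 / 100 : ℝ)) := by gcongr
      _ = _ := by rw [rpw_mul hx]; norm_num
  have hE10 : 0 < E1 := by linarith
  have hE20 : 0 < E2 := by linarith
  have hE1x := hEx E1 E2 hE2 hE10.le hT
  have hE2x := hEx E2 E1 hE1 hE20.le ((mul_comm E2 E1).trans_le hT)
  have h3x : x ^ (-(21 / 10 : ℝ)) ≤ x ^ (-(3 : ℝ)) := rpw_le hx hx1 (by norm_num)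
  have hY2 : 2 ≤ Y := by
    have h2 : (2 : ℝ) ≤ x ^ (-(1 : ℝ)) := by
      rw [Real.rpow_neg_one, le_inv_comm₀ (by norm_num) hx]
      exact hx32.trans (by norm_num)
    have : (2 : ℝ) ≤ (Y : ℝ) := h2.trans ((rpw_le hx hx1 (by norm_num)).trans hY)
    exact_mod_cast this
  set σ := x ^ (1 + sig0) with hσ
  set m := ∑ v ∈ V, F v with hm
  set m' := ∑ w ∈ W, F' w with hm'
  have hm0 : 0 ≤ m := sum_nonneg fun v _ => hV.F_nonneg v
  have hm0' : 0 ≤ m' := sum_nonneg fun v _ => hW.F_nonneg v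
  set T := (V ×ˢ W).filter fun z =>
    InBox E1 E2 (qd z.2 z.1, qd z.1 z.2) ∧ BadPair β β' x f f' k Y z.1 z.2 with hT'
  have hsumT : ∑ v ∈ V, ∑ w ∈ W.filter (fun w => InBox E1 E2 (qd w v, qd v w) ∧
      BadPair β β' x f f' k Y v w), F v * F' w = ∑ z ∈ T, F z.1 * F' z.2 := by
    rw [hT', sum_filter, sum_product]
    exact sum_congr rfl fun v _ => sum_filter _ _
  rw [hsumT]
  set V3 := V.filter fun v => σ ≤ f v * E2 ∧ f v * E2 ≤ x with hV3
  set W3 := W.filter fun w => σ ≤ f' w * E1 ∧ f' w * E1 ≤ x with hW3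
  have hbound : ∀ z ∈ T, f z.1 * E2 ≤ x ∧ f' z.2 * E1 ≤ x := by
    intro z hz
    obtain ⟨-, ⟨hc1, -, ha1, -, -⟩, -, hfc, hfa, -⟩ := mem_filter.1 hz
    exact ⟨le_trans (mul_le_mul_of_nonneg_left hc1.le (hV.f_nonneg _)) hfc,
      le_trans (mul_le_mul_of_nonneg_left ha1.le (hW.f_nonneg _)) hfa⟩
  have hTs : ∀ (q : ℕ × ℕ → Prop) [DecidablePred q], T.filter q ⊆ V ×ˢ W := fun q _ =>
    (filter_subset _ _).trans (filter_subset _ _)
  have h1 := hslack F F' f f' V W k Y x (2 * σ) x (T.filter fun z => f z.1 * E2 < σ) hx hx1 hY2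
    hV hW (.inl ⟨rfl, rfl⟩) (hTs _) (fun z hz => by
      obtain ⟨hzT, hlt⟩ := mem_filter.1 hz
      obtain ⟨-, ⟨-, hc2, -⟩, hlink, -, hfa, -⟩ := mem_filter.1 hzT
      refine ⟨hlink, ?_, hfa⟩
      calc f z.1 * (qd z.2 z.1 : ℝ) ≤ f z.1 * (2 * E2) :=
            mul_le_mul_of_nonneg_left hc2 (hV.f_nonneg _)
        _ ≤ 2 * σ := by linarith)
  have h2 := hslack F F' f f' V W k Y x x (2 * σ) (T.filter fun z => f' z.2 * E1 < σ) hx hx1 hY2
    hV hW (.inr ⟨rfl, rfl⟩) (hTs _) (fun z hz => by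
      obtain ⟨hzT, hlt⟩ := mem_filter.1 hz
      obtain ⟨-, ⟨-, -, -, ha2, -⟩, hlink, hfc, -⟩ := mem_filter.1 hzT
      refine ⟨hlink, hfc, ?_⟩
      calc f' z.2 * (qd z.1 z.2 : ℝ) ≤ f' z.2 * (2 * E1) :=
            mul_le_mul_of_nonneg_left ha2 (hW.f_nonneg _)
        _ ≤ 2 * σ := by linarith)
  set T3 := T.filter fun z => z.1 ∈ V3 ∧ z.2 ∈ W3 with hT3
  set Rall := T3.image fun z => (qd z.2 z.1, qd z.1 z.2) with hRall
  have hpV := pool_mono hV (show V3 ⊆ V from filter_subset _ _)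
  have hpW := pool_mono hW (show W3 ⊆ W from filter_subset _ _)
  have hfam : Fams F F' V3 W3 E1 E2 x := by
    refine ⟨hpV.pos, hpW.pos, hV.F_nonneg, hW.F_nonneg, fun v hv => ?_, fun w hw => ?_, hE1, hE2, hx⟩
    · refine (pool_F_le hpV hv).trans ?_
      rw [le_div_iff₀ hE20]
      linarith [(mem_filter.1 hv).2.2]
    · refine (pool_F_le hpW hw).trans ?_
      rw [le_div_iff₀ hE10]
      linarith [(mem_filter.1 hw).2.2]
  have hinfo : ∀ p ∈ Rall, InBox E1 E2 p ∧ Near β β' x p ∧ ¬NodeExact β β' x E1 E2 p ∧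
      x ^ (-(1 / 200 : ℝ)) < max (p.1 : ℝ) p.2 := by
    intro p hp
    obtain ⟨z, hz, rfl⟩ := mem_image.1 hp
    obtain ⟨hzT, hz1, hz2⟩ := mem_filter.1 hz
    obtain ⟨-, hin, -, -, -, hmax, n, hn, hbad⟩ := mem_filter.1 hzT
    exact ⟨hin, ⟨n, hn⟩, not_nodeExact hx hx32 hE1 hE2 (mem_filter.1 hz1).2.1
      (mem_filter.1 hz1).2.2 (mem_filter.1 hz2).2.1 (mem_filter.1 hz2).2.2 hn hbad, hmax⟩
  have h3 := hgen β β' x E1 E2 F F' f f' V3 W3 k Y Rall hx hCgx hY hpV hpW hfam (hE1x.trans h3x)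
    (hE2x.trans h3x) (fun v hv => (mem_filter.1 hv).2.2) (fun w hw => (mem_filter.1 hw).2.2) hT hinfo
  have hga : gainShape (∑ v ∈ V3, F v) (∑ w ∈ W3, F' w) ≤ gainShape m m' := by
    have a1 : ∑ v ∈ V3, F v ≤ m :=
      sum_le_sum_of_subset_of_nonneg (filter_subset _ _) fun v _ _ => hV.F_nonneg v
    have a2 : ∑ w ∈ W3, F' w ≤ m' :=
      sum_le_sum_of_subset_of_nonneg (filter_subset _ _) fun v _ _ => hW.F_nonneg v
    have a3 : 0 ≤ ∑ v ∈ V3, F v := sum_nonneg fun v _ => hV.F_nonneg v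
    have a4 : 0 ≤ ∑ w ∈ W3, F' w := sum_nonneg fun v _ => hW.F_nonneg v
    unfold gainShape
    gcongr
  have hmain : ∑ z ∈ T3, F z.1 * F' z.2 ≤ ratioWeight F F' V3 W3 Rall := by
    refine (sum_le_sum_of_subset_of_nonneg
        (t := (V3 ×ˢ W3).filter fun z => (qd z.2 z.1, qd z.1 z.2) ∈ Rall) ?_
        fun z _ _ => mul_nonneg (hV.F_nonneg _) (hW.F_nonneg _)).trans (le_of_eq ?_)
    · intro z hz
      obtain ⟨-, hz1, hz2⟩ := mem_filter.1 hz
      exact mem_filter.2 ⟨mem_product.2 ⟨hz1, hz2⟩,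
        mem_image_of_mem (fun z : ℕ × ℕ => (qd z.2 z.1, qd z.1 z.2)) hz⟩
    · rw [sum_filter, sum_product, ratioWeight]
      exact sum_congr rfl fun v _ => (sum_filter _ _).symm
  have hcover : ∑ z ∈ T, F z.1 * F' z.2 ≤ ∑ z ∈ T.filter (fun z => f z.1 * E2 < σ), F z.1 * F' z.2 +
      ∑ z ∈ T.filter (fun z => f' z.2 * E1 < σ), F z.1 * F' z.2 + ∑ z ∈ T3, F z.1 * F' z.2 := by
    rw [hT3, sum_filter (s := T), sum_filter (s := T), sum_filter (s := T), ← sum_add_distrib, ← sum_add_distrib]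
    refine sum_le_sum fun z hz => ?_
    have h0 : 0 ≤ F z.1 * F' z.2 := mul_nonneg (hV.F_nonneg _) (hW.F_nonneg _)
    obtain ⟨hzV, hzW⟩ := mem_product.1 (mem_filter.1 hz).1
    by_cases g1 : f z.1 * E2 < σ
    · rw [if_pos g1]; split_ifs <;> linarith
    by_cases g2 : f' z.2 * E1 < σ
    · rw [if_neg g1, if_pos g2]; split_ifs <;> linarith
    rw [if_neg g1, if_neg g2, if_pos ⟨mem_filter.2 ⟨hzV, not_lt.1 g1, (hbound z hz).1⟩,
      mem_filter.2 ⟨hzW, not_lt.1 g2, (hbound z hz).2⟩⟩]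
    linarith
  have hp0 : (0 : ℝ) ≤ x ^ (1 + 4 * gainL) := Real.rpow_nonneg hx.le _
  have h3' := h3.trans (mul_le_mul_of_nonneg_left hga (mul_nonneg hCg.le hp0))
  calc ∑ z ∈ T, F z.1 * F' z.2
      ≤ (2 * Cs + Cg) * (x ^ (1 + 4 * gainL) * gainShape m m') := by linarith
    _ ≤ C * (x ^ (1 + 4 * gainL) * gainShape m m') :=
        mul_le_mul_of_nonneg_right hsumC (mul_nonneg hp0 (gainShape_nonneg hm0 hm0'))
    _ = _ := by ring

end Vale.Agent.P028.Lift
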