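import Vale.Agent.P028.Lift.Defs

/-!
Counting separated values in an interval.
-/

noncomputable section

namespace Vale.Agent.P028.Lift

open Finset

/-- A set with pairwise `g`-separated values in an interval of length `σ` has at most `σ / g + 1`
elements. -/
theorem card_le_of_separated {α : Type*} (s : Finset α) (f : α → ℝ) {lo σ g : ℝ} (hg : 0 < g)
    (hσ : 0 ≤ σ) (hmem : ∀ a ∈ s, lo ≤ f a ∧ f a ≤ lo + σ)
    (hsep : ∀ a ∈ s, ∀ b ∈ s, a ≠ b → g ≤ |f a - f b|) :
    (s.card : ℝ) ≤ σ / g + 1 := by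
  let φ : α → ℕ := fun a => ⌊(f a - lo) / g⌋₊
  have hinj : Set.InjOn φ ↑s := by
    intro a ha b hb h
    by_contra hne
    have ha' := hmem a (mem_coe.1 ha)
    have hb' := hmem b (mem_coe.1 hb)
    have a1 := Nat.floor_le (show 0 ≤ (f a - lo) / g from div_nonneg (by linarith) hg.le)
    have a2 := Nat.lt_floor_add_one ((f a - lo) / g)
    have b1 := Nat.floor_le (show 0 ≤ (f b - lo) / g from div_nonneg (by linarith) hg.le)
    have b2 := Nat.lt_floor_add_one ((f b - lo) / g)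
    simp only [φ] at h
    rw [h] at a1 a2
    have hlt : |(f a - lo) / g - (f b - lo) / g| < 1 := by
      rw [abs_lt]; constructor <;> linarith
    rw [← sub_div, sub_sub_sub_cancel_right, abs_div, abs_of_pos hg, div_lt_one hg] at hlt
    exact absurd (hsep a (mem_coe.1 ha) b (mem_coe.1 hb) hne) (not_le.2 hlt)
  have hc : s.card ≤ (Finset.range (⌊σ / g⌋₊ + 1)).card :=
    card_le_card_of_injOn φ (fun a ha => mem_coe.2 (mem_range.2 (Nat.lt_succ_of_le
      (Nat.floor_le_floor (div_le_div_of_nonneg_right (by linarith [(hmem a (mem_coe.1 ha)).2]) hg.le)))))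
      hinj
  rw [card_range] at hc
  have h1 : (s.card : ℝ) ≤ (⌊σ / g⌋₊ : ℝ) + 1 := by exact_mod_cast hc
  linarith [Nat.floor_le (div_nonneg hσ hg.le)]

/-- The integers within `R` of `z`: at most `2 R + 1` of them. -/
theorem card_int_near {s : Finset ℤ} {z R : ℝ} (hR : 0 ≤ R) (h : ∀ k ∈ s, |(k : ℝ) - z| ≤ R) :
    (s.card : ℝ) ≤ 2 * R + 1 := by
  have hsep : ∀ a ∈ s, ∀ b ∈ s, a ≠ b → (1 : ℝ) ≤ |(a : ℝ) - b| := fun a _ b _ hab => by
    exact_mod_cast Int.one_le_abs (sub_ne_zero.2 hab)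
  have := card_le_of_separated s (fun k : ℤ => (k : ℝ)) (lo := z - R) (σ := 2 * R) one_pos
    (by linarith) (fun a ha => by
      have := abs_le.1 (h a ha)
      constructor <;> linarith) hsep
  linarith

/-- Two coprime pairs of positive integers with the same ratio are equal. -/
theorem eq_of_cross_eq {p q : ℕ × ℕ} (hp : Nat.Coprime p.1 p.2) (hq : Nat.Coprime q.1 q.2)
    (_hp2 : 0 < p.2)
    (h : p.1 * q.2 = q.1 * p.2) : p = q := by
  have h1 : p.1 ∣ q.1 := hp.dvd_of_dvd_mul_right ⟨q.2, h.symm⟩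
  have h2 : q.1 ∣ p.1 := hq.dvd_of_dvd_mul_right ⟨p.2, h⟩
  have e1 : p.1 = q.1 := Nat.dvd_antisymm h1 h2
  rcases Nat.eq_zero_or_pos p.1 with h0 | h0
  · have hp1 : p.2 = 1 := by simpa [h0] using hp
    have hq1 : q.2 = 1 := by simpa [← e1, h0] using hq
    exact Prod.ext e1 (hp1.trans hq1.symm)
  · refine Prod.ext e1 ?_
    rw [← e1] at h
    exact (Nat.eq_of_mul_eq_mul_left h0 h).symm

end Vale.Agent.P028.Lift
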