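import Vale.Agent.P028.Lift.BilPool
import Vale.Agent.P028.Lift.Shape
import Vale.Agent.P028.Lift.Sep

/-!
Exceptional quotients with a long cofactor: the denominator divides the quotient and takes few
values, so the prescribed divisor pays for the number of its values.
-/

noncomputable section

namespace Vale.Agent.P028.Lift

open Finset

/-- `4 ^ ω(n) ≤ C n ^ ε`. -/
lemma exists_four_pow_omega_le (ε : ℝ) (hε : 0 < ε) :
    ∃ C : ℝ, 0 < C ∧ ∀ n : ℕ, 0 < n → (4 : ℝ) ^ n.primeFactors.card ≤ C * (n : ℝ) ^ ε := by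
  set K : ℕ := ⌈(4 : ℝ) ^ (1 / ε)⌉₊ with hK
  refine ⟨4 ^ K, by positivity, fun n hn => ?_⟩
  have hsplit := Finset.card_filter_add_card_filter_not (s := n.primeFactors) (fun p => p < K)
  rw [← hsplit, pow_add]
  refine mul_le_mul ?_ ?_ (by positivity) (by positivity)
  · refine pow_le_pow_right₀ (by norm_num) ?_
    calc _ ≤ (Finset.range K).card := card_le_card fun p hp => mem_range.2 (mem_filter.1 hp).2
      _ = K := card_range K
  · set B := n.primeFactors.filter (fun p => ¬ p < K) with hB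
    have h4 : ∀ p ∈ B, (4 : ℝ) ≤ (p : ℝ) ^ ε := fun p hp => by
      have h1 : (4 : ℝ) ^ (1 / ε) ≤ p :=
        (Nat.le_ceil _).trans (by exact_mod_cast Nat.le_of_not_lt (mem_filter.1 hp).2)
      calc (4 : ℝ) = ((4 : ℝ) ^ (1 / ε)) ^ ε := by
            rw [← Real.rpow_mul (by norm_num), one_div_mul_cancel hε.ne', Real.rpow_one]
        _ ≤ _ := Real.rpow_le_rpow (by positivity) h1 hε.le
    calc (4 : ℝ) ^ B.card = ∏ _p ∈ B, (4 : ℝ) := by rw [Finset.prod_const]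
      _ ≤ ∏ p ∈ B, (p : ℝ) ^ ε := Finset.prod_le_prod (fun _ _ => by norm_num) h4
      _ = ((∏ p ∈ B, p : ℕ) : ℝ) ^ ε := by
          push_cast
          exact Real.finsetProd_rpow _ _ (fun p _ => Nat.cast_nonneg p) ε
      _ ≤ (n : ℝ) ^ ε := by
          refine Real.rpow_le_rpow (by positivity) ?_ hε.le
          exact_mod_cast Nat.le_of_dvd hn ((Finset.prod_dvd_prod_of_subset _ _ _
            (filter_subset _ _)).trans (Nat.prod_primeFactors_dvd n))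

/-- The data of an exceptional quotient with a long cofactor. -/
def DivData (β x : ℝ) (z : ℕ × ℕ × ℤ) : Prop :=
  0 < z.1 ∧ (z.1 : ℝ) ≤ majW x ∧ 0 < z.2.1 ∧ IsCoprime z.2.2 (z.2.1 : ℤ) ∧
    (z.2.1 : ℝ) ≤ x ^ (-(2 + 3 / 10 ^ 4 : ℝ)) ∧ x ^ (-(1 / 2 : ℝ)) ≤ (z.2.1 : ℝ) ∧
    |β - z.2.2 / z.2.1| ≤ 3 * majW x * x * x ^ tauL / z.2.1

lemma divMem_data {β x : ℝ} {c : ℕ} (hx : 0 < x) (hx1 : x ≤ 1) (hc : DivMem β x c) :
    ∃ z : ℕ × ℕ × ℤ, DivData β x z ∧ z.2.1 / Nat.gcd z.2.1 z.1 ∣ c := by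
  obtain ⟨h, P, t, u, ⟨hh0, hhW, hP, hu, he, hb, hsq, hPle⟩, ht⟩ := hc
  have hhR : (0 : ℝ) < h := by exact_mod_cast hh0
  have hPR : (0 : ℝ) < P := by exact_mod_cast hP
  have he' : (h : ℝ) * c = P * t := by exact_mod_cast he
  have hmul : (P : ℝ) * x ^ (-tauL) ≤ h * c := by
    rw [he']; exact mul_le_mul_of_nonneg_left ht.le hPR.le
  refine ⟨(h, P, u), ⟨hh0, hhW, hP, hu, hPle, ?_, ?_⟩, ?_⟩
  · show x ^ (-(1 / 2 : ℝ)) ≤ (P : ℝ)
    have hexp : x ^ (-(1 / 2 : ℝ)) * x ^ (-sig1) ≤ x ^ (-tauL) * x ^ (-(1 - 5 * sig1)) := by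
      rw [← Real.rpow_add hx, ← Real.rpow_add hx]
      exact Real.rpow_le_rpow_of_exponent_ge hx hx1 (by norm_num [sig1, tauL])
    have h2 : (h : ℝ) * c * x ^ (-(1 - 5 * sig1)) ≤ x ^ (-sig1) * (P : ℝ) ^ 2 := by
      rw [mul_assoc]
      exact mul_le_mul hhW hsq.le (by positivity) (Real.rpow_nonneg hx.le _)
    have h3 : (P : ℝ) * (x ^ (-tauL) * x ^ (-(1 - 5 * sig1))) ≤ x ^ (-sig1) * (P : ℝ) ^ 2 := by
      rw [← mul_assoc]
      exact (mul_le_mul_of_nonneg_right hmul (by positivity)).trans h2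
    have h4 : (P : ℝ) * (x ^ (-(1 / 2 : ℝ)) * x ^ (-sig1)) ≤ P * (P * x ^ (-sig1)) :=
      (mul_le_mul_of_nonneg_left hexp hPR.le).trans (h3.trans_eq (by ring))
    exact le_of_mul_le_mul_right (le_of_mul_le_mul_left h4 hPR) (by positivity)
  · show |β - (u : ℝ) / P| ≤ _
    refine hb.trans ?_
    have hW0 : 0 ≤ 3 * majW x * x := by
      have : 0 ≤ majW x := Real.rpow_nonneg hx.le _
      positivity
    calc 3 * majW x * x / ((h : ℝ) * c) ≤ 3 * majW x * x / ((P : ℝ) * x ^ (-tauL)) :=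
          div_le_div_of_nonneg_left hW0 (by positivity) hmul
      _ = _ := by rw [Real.rpow_neg hx.le]; field_simp
  · show P / Nat.gcd P h ∣ c
    have hg : 0 < Nat.gcd P h := Nat.gcd_pos_of_pos_left h hP
    refine (Nat.coprime_div_gcd_div_gcd hg).dvd_of_dvd_mul_left ?_
    refine ⟨t, Nat.eq_of_mul_eq_mul_left hg ?_⟩
    rw [← Nat.mul_assoc, ← Nat.mul_assoc, Nat.mul_div_cancel' (Nat.gcd_dvd_right P h),
      Nat.mul_div_cancel' (Nat.gcd_dvd_left P h)]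
    exact he

open Classical in
/-- The data in one dyadic range. -/
lemma card_data_le {β x : ℝ} (hx : 0 < x) (T : Finset (ℕ × ℕ × ℤ))
    (hT : ∀ z ∈ T, DivData β x z) (j : ℕ) :
    ((T.filter fun z => Nat.log 2 z.2.1 = j).card : ℝ) ≤
      majW x * (24 * majW x * x * x ^ tauL * 2 ^ j + 1) := by
  set W := majW x with hW
  have hW0 : 0 ≤ W := Real.rpow_nonneg hx.le _
  set S := T.filter fun z => Nat.log 2 z.2.1 = j with hS
  have h1 : S.card = ∑ h ∈ Finset.Icc 1 ⌊W⌋₊, (S.filter fun z => z.1 = h).card :=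
    card_eq_sum_card_fiberwise fun z hz => by
      have := hT z (mem_filter.1 hz).1
      exact mem_Icc.2 ⟨this.1, Nat.le_floor this.2.1⟩
  rw [h1]; push_cast
  refine (sum_le_card_nsmul _ _ (24 * W * x * x ^ tauL * 2 ^ j + 1) fun h _ => ?_).trans ?_
  · refine (card_le_of_separated _ (fun z : ℕ × ℕ × ℤ => (z.2.2 : ℝ) / z.2.1)
      (lo := β - 3 * W * x * x ^ tauL / 2 ^ j) (σ := 2 * (3 * W * x * x ^ tauL / 2 ^ j))
      (g := 1 / ((2 : ℝ) ^ (j + 1)) ^ 2) (by positivity) (by positivity) ?_ ?_).trans ?_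
    · intro z hz
      simp only [hS, mem_filter] at hz
      obtain ⟨⟨hzT, hj⟩, -⟩ := hz
      have hd := hT z hzT
      have hP0 : 0 < z.2.1 := hd.2.2.1
      have hle : (2 : ℝ) ^ j ≤ z.2.1 := by
        exact_mod_cast hj ▸ Nat.pow_log_le_self 2 hP0.ne'
      have := abs_le.1 (hd.2.2.2.2.2.2.trans
        (div_le_div_of_nonneg_left (by positivity) (by positivity) hle))
      constructor <;> linarith
    · intro z hz z' hz' hne
      simp only [hS, mem_filter] at hz hz'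
      obtain ⟨⟨hzT, hj⟩, hh⟩ := hz
      obtain ⟨⟨hzT', hj'⟩, hh'⟩ := hz'
      obtain ⟨-, -, hP, hu, -⟩ := hT z hzT
      obtain ⟨-, -, hP', hu', -⟩ := hT z' hzT'
      have pa : (0 : ℝ) < z.2.1 := by exact_mod_cast hP
      have pb : (0 : ℝ) < z'.2.1 := by exact_mod_cast hP'
      have hne0 : z.2.2 * (z'.2.1 : ℤ) - z'.2.2 * (z.2.1 : ℤ) ≠ 0 := by
        intro h0
        have h0' : z.2.2 * (z'.2.1 : ℤ) = z'.2.2 * (z.2.1 : ℤ) := by linarith
        have d1 : (z.2.1 : ℤ) ∣ (z'.2.1 : ℤ) := hu.symm.dvd_of_dvd_mul_left ⟨z'.2.2, by linarith⟩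
        have d2 : (z'.2.1 : ℤ) ∣ (z.2.1 : ℤ) := hu'.symm.dvd_of_dvd_mul_left ⟨z.2.2, by linarith⟩
        have hPe : z.2.1 = z'.2.1 :=
          Nat.dvd_antisymm (by exact_mod_cast d1) (by exact_mod_cast d2)
        rw [hPe] at h0'
        exact hne (Prod.ext (hh.trans hh'.symm)
          (Prod.ext hPe (mul_right_cancel₀ (by exact_mod_cast hP'.ne') h0')))
      have h1 : (1 : ℝ) ≤ |(z.2.2 : ℝ) * z'.2.1 - (z'.2.2 : ℝ) * z.2.1| := by
        exact_mod_cast Int.one_le_abs hne0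
      have hle : (z.2.1 : ℝ) ≤ 2 ^ (j + 1) := by
        exact_mod_cast hj ▸ (Nat.lt_pow_succ_log_self (by norm_num) z.2.1).le
      have hle' : (z'.2.1 : ℝ) ≤ 2 ^ (j + 1) := by
        exact_mod_cast hj' ▸ (Nat.lt_pow_succ_log_self (by norm_num) z'.2.1).le
      rw [div_sub_div _ _ pa.ne' pb.ne', abs_div, abs_of_pos (mul_pos pa pb),
        mul_comm (z.2.1 : ℝ) (z'.2.2 : ℝ)]
      refine div_le_div₀ (by positivity) h1 (mul_pos pa pb) ?_
      rw [sq]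
      exact mul_le_mul hle hle' pb.le (by positivity)
    · rw [pow_succ]
      refine le_of_eq ?_
      field_simp
      ring
  · rw [nsmul_eq_mul, Nat.card_Icc, Nat.add_sub_cancel]
    exact mul_le_mul_of_nonneg_right (Nat.floor_le hW0) (by positivity)

open Classical in
/-- The divisors pay for the number of the data. -/
lemma exists_sum_data_le :
    ∃ x0 : ℝ, 0 < x0 ∧ x0 ≤ 1 ∧ ∀ (β x : ℝ) (T : Finset (ℕ × ℕ × ℤ)), 0 < x → x ≤ x0 →
      (∀ z ∈ T, DivData β x z) →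
      ∑ z ∈ T, (4 : ℝ) ^ (z.2.1 / Nat.gcd z.2.1 z.1).primeFactors.card *
          ((z.2.1 / Nat.gcd z.2.1 z.1 : ℕ) : ℝ) ^ (-beL) ≤ x ^ (1 / 10 ^ 4 : ℝ) := by
  set γ : ℝ := 4998 / 10 ^ 4 with hγ
  obtain ⟨Ce, hCe, hω⟩ := exists_four_pow_omega_le (1 / 10 ^ 5) (by norm_num)
  set K : ℝ := 26 * Ce * (5 * 10 ^ 5 + 1) with hK
  refine ⟨min 1 (K ^ (-(10 ^ 5 : ℝ))), lt_min one_pos (by positivity), min_le_left _ _,
    fun β x T hx hx0 hT => ?_⟩
  have hx1 : x ≤ 1 := hx0.trans (min_le_left _ _)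
  have hKx : K ≤ x ^ (-(1 / 10 ^ 5 : ℝ)) := by
    calc K = (K ^ (-(10 ^ 5 : ℝ))) ^ (-(1 / 10 ^ 5 : ℝ)) := by
          rw [← Real.rpow_mul (by positivity)]; norm_num
      _ ≤ _ := Real.rpow_le_rpow_of_nonpos hx (hx0.trans (min_le_right _ _)) (by norm_num)
  set W := majW x with hW
  have hW1 : 1 ≤ W := Real.one_le_rpow_of_pos_of_le_one_of_nonpos hx hx1 (by norm_num [sig1])
  set R : ℝ := Ce * W ^ 2 * (24 * W * x * x ^ tauL * (x ^ (-(2 + 3 / 10 ^ 4 : ℝ))) ^ (1 - γ) +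
    2 * x ^ (γ / 2)) with hR
  have hterm : ∀ z ∈ T, (4 : ℝ) ^ (z.2.1 / Nat.gcd z.2.1 z.1).primeFactors.card *
      ((z.2.1 / Nat.gcd z.2.1 z.1 : ℕ) : ℝ) ^ (-beL) ≤
      Ce * W * ((2 : ℝ) ^ Nat.log 2 z.2.1) ^ (-γ) := by
    intro z hz
    obtain ⟨hh0, hhW, hP, -⟩ := hT z hz
    set D := z.2.1 / Nat.gcd z.2.1 z.1 with hD
    have hg : 0 < Nat.gcd z.2.1 z.1 := Nat.gcd_pos_of_pos_left _ hP
    have hD0 : 0 < D := Nat.div_pos (Nat.gcd_le_left _ hP) hg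
    have hD1 : (1 : ℝ) ≤ D := by exact_mod_cast hD0
    have hPD : (z.2.1 : ℝ) ≤ W * D := by
      have h1 : z.2.1 ≤ z.1 * D := by
        calc z.2.1 = Nat.gcd z.2.1 z.1 * D :=
              (Nat.mul_div_cancel' (Nat.gcd_dvd_left _ _)).symm
          _ ≤ z.1 * D := Nat.mul_le_mul_right _ (Nat.gcd_le_right _ hh0)
      exact le_trans (by exact_mod_cast h1) (mul_le_mul_of_nonneg_right hhW (by linarith))
    have h2 : (2 : ℝ) ^ Nat.log 2 z.2.1 ≤ z.2.1 := by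
      exact_mod_cast Nat.pow_log_le_self 2 hP.ne'
    calc (4 : ℝ) ^ D.primeFactors.card * (D : ℝ) ^ (-beL)
        ≤ Ce * (D : ℝ) ^ (1 / 10 ^ 5 : ℝ) * (D : ℝ) ^ (-beL) :=
          mul_le_mul_of_nonneg_right (hω D hD0) (by positivity)
      _ = Ce * (D : ℝ) ^ (1 / 10 ^ 5 + -beL) := by rw [Real.rpow_add (by linarith)]; ring
      _ ≤ Ce * (D : ℝ) ^ (-γ) := by
          refine mul_le_mul_of_nonneg_left (Real.rpow_le_rpow_of_exponent_le hD1 ?_) hCe.le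
          norm_num [hγ, beL, alL1, thL, delL, omL]
      _ ≤ Ce * ((2 : ℝ) ^ Nat.log 2 z.2.1 / W) ^ (-γ) := by
          refine mul_le_mul_of_nonneg_left (Real.rpow_le_rpow_of_nonpos (by positivity) ?_
            (by norm_num [hγ])) hCe.le
          rw [div_le_iff₀ (by linarith)]
          linarith
      _ ≤ Ce * W * ((2 : ℝ) ^ Nat.log 2 z.2.1) ^ (-γ) := by
          rw [Real.div_rpow (by positivity) (by linarith), Real.rpow_neg (show 0 ≤ W by linarith),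
            div_inv_eq_mul, mul_assoc Ce W, mul_comm W]
          gcongr
          exact Real.rpow_le_self_of_one_le hW1 (by norm_num [hγ])
  have hfib : ∀ j ∈ T.image (fun z => Nat.log 2 z.2.1),
      ∑ z ∈ T.filter (fun z => Nat.log 2 z.2.1 = j), Ce * W * ((2 : ℝ) ^ j) ^ (-γ) ≤ R := by
    intro j hj
    obtain ⟨z, hz, rfl⟩ := mem_image.1 hj
    obtain ⟨-, -, hP, -, hPle, hPge, -⟩ := hT z hz
    have h2 : (2 : ℝ) ^ Nat.log 2 z.2.1 ≤ z.2.1 := by
      exact_mod_cast Nat.pow_log_le_self 2 hP.ne'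
    have h2' : (z.2.1 : ℝ) ≤ 2 * 2 ^ Nat.log 2 z.2.1 := by
      rw [← pow_succ']
      exact_mod_cast (Nat.lt_pow_succ_log_self (by norm_num) z.2.1).le
    set A : ℝ := (2 : ℝ) ^ Nat.log 2 z.2.1 with hA
    have hA0 : 0 < A := by positivity
    rw [sum_const, nsmul_eq_mul]
    refine (mul_le_mul_of_nonneg_right (card_data_le hx T hT _) (by positivity)).trans ?_
    have e : A * A ^ (-γ) = A ^ (1 - γ) := by
      rw [show (1 : ℝ) - γ = -γ + 1 by ring, Real.rpow_add_one hA0.ne']; ring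
    have d1 : A ^ (1 - γ) ≤ (x ^ (-(2 + 3 / 10 ^ 4 : ℝ))) ^ (1 - γ) :=
      Real.rpow_le_rpow hA0.le (h2.trans hPle) (by norm_num [hγ])
    have d2 : A ^ (-γ) ≤ 2 * x ^ (γ / 2) := by
      calc A ^ (-γ) ≤ (x ^ (-(1 / 2 : ℝ)) / 2) ^ (-γ) :=
            Real.rpow_le_rpow_of_nonpos (by positivity) (by linarith) (by norm_num [hγ])
        _ = (2 : ℝ) ^ γ * x ^ (γ / 2) := by
            rw [Real.div_rpow (by positivity) (by norm_num), ← Real.rpow_mul hx.le,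
              Real.rpow_neg (show (0 : ℝ) ≤ 2 by norm_num), div_inv_eq_mul,
              show -(1 / 2 : ℝ) * -γ = γ / 2 by ring]
            ring
        _ ≤ 2 * x ^ (γ / 2) := mul_le_mul_of_nonneg_right
            (Real.rpow_le_self_of_one_le (by norm_num) (by norm_num [hγ])) (by positivity)
    calc W * (24 * W * x * x ^ tauL * A + 1) * (Ce * W * A ^ (-γ))
        = Ce * W ^ 2 * (24 * W * x * x ^ tauL * (A * A ^ (-γ)) + A ^ (-γ)) := by ring
      _ ≤ R := by rw [e, hR]; gcongr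
  have hJ : ((T.image (fun z => Nat.log 2 z.2.1)).card : ℝ) ≤
      (5 * 10 ^ 5 + 1) * x ^ (-(1 / 10 ^ 5 : ℝ)) := by
    set B : ℝ := 5 * 10 ^ 5 * x ^ (-(1 / 10 ^ 5 : ℝ)) with hB
    have hsub : T.image (fun z => Nat.log 2 z.2.1) ⊆ Finset.range (⌊B⌋₊ + 1) := by
      intro j hj
      obtain ⟨z, hz, rfl⟩ := mem_image.1 hj
      obtain ⟨-, -, hP, -, hPle, -⟩ := hT z hz
      refine mem_range.2 (Nat.lt_succ_of_le (Nat.le_floor ?_))
      have h2 : (2 : ℝ) ^ Nat.log 2 z.2.1 ≤ x ^ (-(3 : ℝ)) :=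
        (show (2 : ℝ) ^ Nat.log 2 z.2.1 ≤ z.2.1 by
          exact_mod_cast Nat.pow_log_le_self 2 hP.ne').trans
          (hPle.trans (Real.rpow_le_rpow_of_exponent_ge hx hx1 (by norm_num)))
      have h3 := Real.log_le_log (by positivity) h2
      rw [Real.log_pow, Real.log_rpow hx] at h3
      have h4 := Real.log_le_rpow_div (x := x⁻¹) (by positivity)
        (show (0 : ℝ) < 1 / 10 ^ 5 by norm_num)
      rw [Real.log_inv, Real.inv_rpow hx.le, ← Real.rpow_neg hx.le] at h4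
      have h5 : (Nat.log 2 z.2.1 : ℝ) * 0.693 ≤ (Nat.log 2 z.2.1 : ℝ) * Real.log 2 :=
        mul_le_mul_of_nonneg_left (by linarith [Real.log_two_gt_d9]) (Nat.cast_nonneg _)
      have hp0 : 0 ≤ x ^ (-(1 / 10 ^ 5 : ℝ)) := by positivity
      rw [hB]
      norm_num at h4 h5 hp0 ⊢
      linarith
    have h1 := card_le_card hsub
    rw [card_range] at h1
    have h2 : ((T.image (fun z => Nat.log 2 z.2.1)).card : ℝ) ≤ (⌊B⌋₊ : ℝ) + 1 := by
      exact_mod_cast h1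
    have h3 : (1 : ℝ) ≤ x ^ (-(1 / 10 ^ 5 : ℝ)) :=
      Real.one_le_rpow_of_pos_of_le_one_of_nonpos hx hx1 (by norm_num)
    linarith [Nat.floor_le (show 0 ≤ B by positivity)]
  refine (sum_le_sum hterm).trans ?_
  rw [← sum_fiberwise_of_maps_to
    (fun z hz => mem_image_of_mem (fun z : ℕ × ℕ × ℤ => Nat.log 2 z.2.1) hz)]
  refine (sum_le_card_nsmul _ _ R fun j hj => ?_).trans ?_
  · refine le_trans (le_of_eq (sum_congr rfl fun z hz => ?_)) (hfib j hj)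
    rw [(mem_filter.1 hz).2]
  rw [nsmul_eq_mul]
  have hR0 : 0 ≤ R := by positivity
  refine (mul_le_mul_of_nonneg_right hJ hR0).trans ?_
  have hWe : W = x ^ (-sig1) := rfl
  have hRle : R ≤ 26 * Ce * x ^ (3 / 10 ^ 4 : ℝ) := by
    have a1 : W ^ 2 * (W * x * x ^ tauL * (x ^ (-(2 + 3 / 10 ^ 4 : ℝ))) ^ (1 - γ)) ≤
        x ^ (3 / 10 ^ 4 : ℝ) := by
      rw [hWe, ← Real.rpow_natCast, ← Real.rpow_mul hx.le, ← Real.rpow_mul hx.le,
        ← Real.rpow_add_one hx.ne', ← Real.rpow_add hx, ← Real.rpow_add hx, ← Real.rpow_add hx]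
      exact Real.rpow_le_rpow_of_exponent_ge hx hx1 (by norm_num [hγ, sig1, tauL])
    have a2 : W ^ 2 * x ^ (γ / 2) ≤ x ^ (3 / 10 ^ 4 : ℝ) := by
      rw [hWe, ← Real.rpow_natCast, ← Real.rpow_mul hx.le, ← Real.rpow_add hx]
      exact Real.rpow_le_rpow_of_exponent_ge hx hx1 (by norm_num [hγ, sig1])
    have e : R = Ce * (24 * (W ^ 2 * (W * x * x ^ tauL * (x ^ (-(2 + 3 / 10 ^ 4 : ℝ))) ^ (1 - γ)))
        + 2 * (W ^ 2 * x ^ (γ / 2))) := by rw [hR]; ring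
    rw [e, show 26 * Ce * x ^ (3 / 10 ^ 4 : ℝ) = Ce * (26 * x ^ (3 / 10 ^ 4 : ℝ)) by ring]
    gcongr
    linarith
  calc (5 * 10 ^ 5 + 1) * x ^ (-(1 / 10 ^ 5 : ℝ)) * R
      ≤ (5 * 10 ^ 5 + 1) * x ^ (-(1 / 10 ^ 5 : ℝ)) * (26 * Ce * x ^ (3 / 10 ^ 4 : ℝ)) :=
        mul_le_mul_of_nonneg_left hRle (by positivity)
    _ = K * (x ^ (-(1 / 10 ^ 5 : ℝ)) * x ^ (3 / 10 ^ 4 : ℝ)) := by rw [hK]; ring
    _ ≤ x ^ (-(1 / 10 ^ 5 : ℝ)) * (x ^ (-(1 / 10 ^ 5 : ℝ)) * x ^ (3 / 10 ^ 4 : ℝ)) :=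
        mul_le_mul_of_nonneg_right hKx (by positivity)
    _ ≤ _ := by
        rw [← Real.rpow_add hx, ← Real.rpow_add hx]
        exact Real.rpow_le_rpow_of_exponent_ge hx hx1 (by norm_num)

open Classical in
/-- The pairs with such a quotient on one side. -/
theorem exists_divPart_le :
    ∃ C : ℝ, 0 < C ∧ ∀ (β x : ℝ) (F F' f f' : ℕ → ℝ) (V W : Finset ℕ) (k : ℕ → ℕ) (Y : ℕ),
      0 < x → C * x ≤ 1 → 2 ≤ Y → Pool F f V k Y → Pool F' f' W k Y →
      ∑ v ∈ V, ∑ w ∈ W.filter (fun w => Linked k Y v w ∧ f v * (qd w v : ℝ) ≤ x ∧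
          f' w * (qd v w : ℝ) ≤ x ∧ DivMem β x (qd w v)), F v * F' w ≤
        C * x ^ (1 + 4 * gainL) * gainShape (∑ v ∈ V, F v) (∑ w ∈ W, F' w) := by
  obtain ⟨C0, hC0, hbil⟩ := exists_bilPool_dvd_le
  obtain ⟨x0, hx0, hx01, hdata⟩ := exists_sum_data_le
  refine ⟨max (4 * C0) x0⁻¹, by positivity,
    fun β x F F' f f' V W k Y hx hCx hY hV hW => ?_⟩
  have hxle : x ≤ x0 := by
    have h1 : x0⁻¹ * x ≤ 1 := le_trans (mul_le_mul_of_nonneg_right (le_max_right _ _) hx.le) hCx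
    rwa [inv_mul_le_iff₀ hx0, mul_one] at h1
  have hxone : x ≤ 1 := hxle.trans hx01
  set cond : ℕ → ℕ → Prop := fun v w => Linked k Y v w ∧ f v * (qd w v : ℝ) ≤ x ∧
    f' w * (qd v w : ℝ) ≤ x ∧ DivMem β x (qd w v) with hcond
  set S := (V ×ˢ W).filter (fun q => cond q.1 q.2) with hS
  have hsum : ∑ v ∈ V, ∑ w ∈ W.filter (fun w => cond v w), F v * F' w
      = ∑ q ∈ S, F q.1 * F' q.2 := by
    rw [hS, sum_filter, sum_product]
    exact sum_congr rfl fun v _ => sum_filter _ _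
  show ∑ v ∈ V, ∑ w ∈ W.filter (fun w => cond v w), F v * F' w ≤ _
  rw [hsum]
  choose! z hz hdvd using fun (q : ℕ × ℕ) (hq : q ∈ S) =>
    divMem_data (β := β) (c := qd q.2 q.1) hx hxone (mem_filter.1 hq).2.2.2.2
  set T := S.image z with hT
  have hTd : ∀ e ∈ T, DivData β x e := fun e he => by
    obtain ⟨q, hq, rfl⟩ := mem_image.1 he
    exact hz q hq
  set m := ∑ v ∈ V, F v with hm
  set m' := ∑ w ∈ W, F' w with hm'
  set G : ℝ := (x ^ alL1 * x ^ alL2 + x ^ alL1 * x ^ alL2) * bilShape m m' with hG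
  have hm0 : 0 ≤ m := sum_nonneg fun v _ => hV.F_nonneg v
  have hm0' : 0 ≤ m' := sum_nonneg fun w _ => hW.F_nonneg w
  have hG0 : 0 ≤ G := by
    have : 0 ≤ bilShape m m' := by unfold bilShape; positivity
    positivity
  rw [← sum_fiberwise_of_maps_to (fun q hq => mem_image_of_mem z hq)]
  have hfib : ∀ e ∈ T, ∑ q ∈ S.filter (fun q => z q = e), F q.1 * F' q.2 ≤
      C0 * ((4 : ℝ) ^ (e.2.1 / Nat.gcd e.2.1 e.1).primeFactors.card *
        ((e.2.1 / Nat.gcd e.2.1 e.1 : ℕ) : ℝ) ^ (-beL)) * G := by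
    intro e he
    set D := e.2.1 / Nat.gcd e.2.1 e.1 with hD
    have hD0 : 0 < D := Nat.div_pos (Nat.gcd_le_left _ (hTd e he).2.2.1)
      (Nat.gcd_pos_of_pos_left _ (hTd e he).2.2.1)
    have h := hbil F F' f f' V W k Y D x x hx hx hY hD0 hV hW
    rw [← hm, ← hm', mul_assoc (C0 * _), ← hG] at h
    refine le_trans ?_ h
    set cond' : ℕ → ℕ → Prop := fun v w => f v * (qd w v : ℝ) ≤ x ∧ f' w * (qd v w : ℝ) ≤ x ∧
      Linked k Y v w ∧ D ∣ qd w v with hcond'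
    have h2 : ∑ v ∈ V, ∑ w ∈ W.filter (fun w => cond' v w), F v * F' w
        = ∑ q ∈ (V ×ˢ W).filter (fun q => cond' q.1 q.2), F q.1 * F' q.2 := by
      rw [sum_filter, sum_product]
      exact sum_congr rfl fun v _ => sum_filter _ _
    refine le_trans ?_ (le_of_eq h2.symm)
    refine sum_le_sum_of_subset_of_nonneg ?_ fun q _ _ =>
      mul_nonneg (hV.F_nonneg _) (hW.F_nonneg _)
    intro q hq
    obtain ⟨hqS, hze⟩ := mem_filter.1 hq
    obtain ⟨hqp, hl, hf, hf', -⟩ := mem_filter.1 hqS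
    refine mem_filter.2 ⟨hqp, hf, hf', hl, ?_⟩
    have h3 := hdvd q hqS
    rw [hze] at h3
    exact h3
  refine (sum_le_sum hfib).trans ?_
  rw [← sum_mul, ← mul_sum]
  refine (mul_le_mul_of_nonneg_right (mul_le_mul_of_nonneg_left (hdata β x T hx hxle hTd)
    hC0.le) hG0).trans ?_
  have e : x ^ alL1 * x ^ alL2 = x ^ (1 - delL) := by
    rw [← Real.rpow_add hx]; norm_num [alL1, alL2, delL, omL]
  calc C0 * x ^ (1 / 10 ^ 4 : ℝ) * G
      ≤ C0 * x ^ (1 / 10 ^ 4 : ℝ) * ((x ^ (1 - delL) + x ^ (1 - delL)) * (2 * gainShape m m')) := by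
        rw [hG, e]; gcongr; exact bilShape_le_gainShape hm0 hm0'
    _ = 4 * C0 * (x ^ (1 / 10 ^ 4 : ℝ) * x ^ (1 - delL)) * gainShape m m' := by ring
    _ ≤ max (4 * C0) x0⁻¹ * x ^ (1 + 4 * gainL) * gainShape m m' := by
        refine mul_le_mul_of_nonneg_right (mul_le_mul (le_max_left _ _) ?_ (by positivity)
          (by positivity)) (gainShape_nonneg hm0 hm0')
        rw [← Real.rpow_add hx]
        exact Real.rpow_le_rpow_of_exponent_ge hx hxone (by norm_num [delL, gainL])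

end Vale.Agent.P028.Lift
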