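import Vale.Agent.P028.Lift.SideSelf
import Vale.Agent.P028.Lift.Shape

/-!
Pairs with one quotient in a thin set, the other quotient unrestricted.
-/

noncomputable section

namespace Vale.Agent.P028.Lift

open Finset

theorem Pool.mono {F f : ℕ → ℝ} {V V' : Finset ℕ} {k : ℕ → ℕ} {Y : ℕ} (h : Pool F f V k Y)
    (hs : V' ⊆ V) : Pool F f V' k Y :=
  ⟨fun v hv => h.pos v (hs hv), h.F_nonneg, h.f_nonneg, fun v hv => h.F_le v (hs hv),
    fun v hv => h.centre_le v (hs hv)⟩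

/-- A crude bound for `selfK` at a large height. -/
theorem selfK_le {B : Finset ℕ} {E H : ℝ} {p : ℕ × ℕ} (hE : 1 ≤ E)
    (hB : ∀ a ∈ B, E < (a : ℝ) ∧ (a : ℝ) ≤ 2 * E) (hH : 0 < H)
    (hp : H ≤ max (p.1 : ℝ) p.2) : selfK B E p ≤ 4 * E ^ 3 / H := by
  have hcard : (B.card : ℝ) ≤ 2 * E := by
    have hsub : B ⊆ Finset.Icc 1 ⌊2 * E⌋₊ := fun a ha => mem_Icc.2 ⟨by
      have h := (hB a ha).1
      rcases Nat.eq_zero_or_pos a with h0 | h0
      · subst h0; simp at h; linarith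
      · exact h0, Nat.le_floor (hB a ha).2⟩
    have := Finset.card_le_card hsub
    rw [Nat.card_Icc, Nat.add_sub_cancel] at this
    calc (B.card : ℝ) ≤ (⌊2 * E⌋₊ : ℝ) := by exact_mod_cast this
      _ ≤ 2 * E := Nat.floor_le (by linarith)
  unfold selfK
  classical
  refine (Finset.sum_le_card_nsmul _ _ (E / H) fun q hq => ?_).trans ?_
  · have hq1 := (mem_product.1 (mem_filter.1 hq).1).1
    have hg : (1 : ℝ) ≤ (Nat.gcd q.1 q.2 : ℝ) := by
      have : 0 < q.1 := by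
        have h := (hB q.1 hq1).1
        rcases Nat.eq_zero_or_pos q.1 with h0 | h0
        · rw [h0] at h; simp at h; linarith
        · exact h0
      exact_mod_cast Nat.gcd_pos_of_pos_left _ this
    calc E / (Nat.gcd q.1 q.2 : ℝ) / max (p.1 : ℝ) p.2 ≤ E / max (p.1 : ℝ) p.2 :=
          div_le_div_of_nonneg_right (div_le_self (by linarith) hg) (hH.le.trans hp)
      _ ≤ E / H := div_le_div_of_nonneg_left (by linarith) hH hp
  · rw [nsmul_eq_mul]
    refine (mul_le_mul_of_nonneg_right (Nat.cast_le.2 (Finset.card_filter_le _ _))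
      (by positivity)).trans ?_
    rw [Finset.card_product, Nat.cast_mul]
    calc (B.card : ℝ) * B.card * (E / H) ≤ 2 * E * (2 * E) * (E / H) := by
          gcongr
      _ = 4 * E ^ 3 / H := by ring

/-- The square root of the bound through the second family. -/
theorem side_sqrt_le {S x m m' C₁ : ℝ} (hx : 0 < x) (hC₁ : 0 < C₁) (hm0 : 0 ≤ m) (hm0' : 0 ≤ m')
    (hS0 : 0 ≤ S)
    (hsq : S ^ 2 ≤ 4 * x * m * (C₁ * x ^ (1 + 8 * gainL) * (m' + m' ^ (2 * thL + omL)) +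
      4 * x ^ (14 / 10 : ℝ) * (m' * m'))) :
    S ≤ 4 * Real.sqrt C₁ * x ^ (1 + 4 * gainL) * gainShape m m' +
      4 * x ^ (12 / 10 : ℝ) * (m ^ (1 / 2 : ℝ) * m') := by
  have hth : thL = 1 / 2 + delL / 2 - omL / 2 := by simp only [thL, alL1]; ring
  have hdel : delL = 1 / 10 ^ 10 := rfl
  have hom : omL = 1 / 10 ^ 16 := rfl
  have hgain : gainL = 1 / 10 ^ 16 := rfl
  have hGS := gainShape_nonneg hm0 hm0'
  set GS := gainShape m m'
  set P := x ^ (1 + 4 * gainL) with hP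
  have hP0 : 0 < P := Real.rpow_pos_of_pos hx _
  have i1 : (m * m') ≤ GS ^ 2 := by
    have h := mono_le_gainShape hm0 hm0' (a := 1 / 2) (b := 1 / 2)
      (by norm_num) (by norm_num) (by norm_num)
    refine le_of_eq_of_le ?_ (pow_le_pow_left₀ (by positivity) h 2)
    rw [mul_pow, ← Real.rpow_natCast (m ^ _) 2, ← Real.rpow_natCast (m' ^ _) 2,
      ← Real.rpow_mul hm0, ← Real.rpow_mul hm0']
    norm_num
  have i2 : m * m' ^ (2 * thL + omL) ≤ GS ^ 2 := by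
    have h := mono_le_gainShape hm0 hm0' (a := 1 / 2) (b := thL + omL / 2)
      (by norm_num) (by rw [hth, hdel, hom]; norm_num) (by rw [hth, hdel, hom]; norm_num)
    refine le_of_eq_of_le ?_ (pow_le_pow_left₀ (by positivity) h 2)
    rw [mul_pow, ← Real.rpow_natCast (m ^ _) 2, ← Real.rpow_natCast (m' ^ _) 2,
      ← Real.rpow_mul hm0, ← Real.rpow_mul hm0']
    congr 1
    · norm_num
    · congr 1; push_cast; ring
  have e1 : x * x ^ (1 + 8 * gainL) = P ^ 2 := by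
    rw [hP, ← Real.rpow_natCast (x ^ _) 2, ← Real.rpow_mul hx.le,
      mul_comm x (x ^ _), ← Real.rpow_add_one hx.ne']
    congr 1; push_cast; ring
  have e2 : x * x ^ (14 / 10 : ℝ) = (x ^ (12 / 10 : ℝ)) ^ 2 := by
    rw [← Real.rpow_natCast (x ^ _) 2, ← Real.rpow_mul hx.le,
      mul_comm x (x ^ _), ← Real.rpow_add_one hx.ne']
    norm_num
  have e3 : (m ^ (1 / 2 : ℝ)) ^ 2 = m := by
    rw [← Real.rpow_natCast (m ^ _) 2, ← Real.rpow_mul hm0]; norm_num
  refine (pow_le_pow_iff_left₀ hS0 (by positivity) two_ne_zero).1 (hsq.trans ?_)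
  have e : 4 * x * m * (C₁ * x ^ (1 + 8 * gainL) * (m' + m' ^ (2 * thL + omL)) +
      4 * x ^ (14 / 10 : ℝ) * (m' * m')) =
      4 * C₁ * (x * x ^ (1 + 8 * gainL)) * (m * m' + m * m' ^ (2 * thL + omL)) +
        16 * (x * x ^ (14 / 10 : ℝ)) * (m * m' ^ 2) := by ring
  rw [e, e1, e2]
  have hs : (Real.sqrt C₁) ^ 2 = C₁ := Real.sq_sqrt hC₁.le
  have j1 : 4 * C₁ * P ^ 2 * (m * m' + m * m' ^ (2 * thL + omL)) ≤
      (4 * Real.sqrt C₁ * P * GS) ^ 2 := by
    rw [show (4 * Real.sqrt C₁ * P * GS) ^ 2 = 4 * (Real.sqrt C₁) ^ 2 * P ^ 2 * (4 * GS ^ 2) by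
      ring, hs]
    exact mul_le_mul_of_nonneg_left (by linarith [sq_nonneg GS]) (by positivity)
  have j2 : 16 * (x ^ (12 / 10 : ℝ)) ^ 2 * (m * m' ^ 2) =
      (4 * x ^ (12 / 10 : ℝ) * (m ^ (1 / 2 : ℝ) * m')) ^ 2 := by
    rw [mul_pow, mul_pow, mul_pow, e3]; ring
  have j3 : 0 ≤ 4 * Real.sqrt C₁ * P * GS * (4 * x ^ (12 / 10 : ℝ) * (m ^ (1 / 2 : ℝ) * m')) := by
    positivity
  calc 4 * C₁ * P ^ 2 * (m * m' + m * m' ^ (2 * thL + omL)) +
        16 * (x ^ (12 / 10 : ℝ)) ^ 2 * (m * m' ^ 2)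
      ≤ (4 * Real.sqrt C₁ * P * GS) ^ 2 + (4 * x ^ (12 / 10 : ℝ) * (m ^ (1 / 2 : ℝ) * m')) ^ 2 :=
        add_le_add j1 j2.le
    _ ≤ (4 * Real.sqrt C₁ * P * GS + 4 * x ^ (12 / 10 : ℝ) * (m ^ (1 / 2 : ℝ) * m')) ^ 2 := by
        rw [add_sq]; linarith

/-- The mixed bound. -/
theorem side_mix_le {x m m' C₂ : ℝ} (hx : 0 < x) (hx1 : x ≤ 1) (hC₂ : 0 < C₂) (hm0 : 0 ≤ m)
    (hm0' : 0 ≤ m') :
    (4 * x ^ (12 / 10 : ℝ) * (m ^ (1 / 2 : ℝ) * m')) ^ (99 / 100 : ℝ) *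
      (2 * C₂ * x ^ (1 - delL) * bilShape m m') ^ (1 / 100 : ℝ) ≤
      8 * (2 * C₂) ^ (1 / 100 : ℝ) * x ^ (1 + 4 * gainL) * gainShape m m' := by
  have hth : thL = 1 / 2 + delL / 2 - omL / 2 := by simp only [thL, alL1]; ring
  have hdel : delL = 1 / 10 ^ 10 := rfl
  have hom : omL = 1 / 10 ^ 16 := rfl
  have hgain : gainL = 1 / 10 ^ 16 := rfl
  have hGS := gainShape_nonneg hm0 hm0'
  set GS := gainShape m m'
  set P := x ^ (1 + 4 * gainL) with hP
  have hP0 : 0 < P := Real.rpow_pos_of_pos hx _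
  have hbs : 0 ≤ bilShape m m' := by unfold bilShape; positivity
  set τ : ℝ := 99 / 100 with hτ
  set σ : ℝ := 1 / 100 with hσ
  set Q := 4 * x ^ (12 / 10 : ℝ) * (m ^ (1 / 2 : ℝ) * m') with hQ
  set R := 2 * C₂ * x ^ (1 - delL) * bilShape m m' with hR
  have hb : bilShape m m' ^ σ ≤ m ^ ((omL + thL) * σ) * m' ^ (thL * σ) +
      m ^ (thL * σ) * m' ^ ((omL + thL) * σ) := by
    have h0 : (0 : ℝ) < thL := by rw [hth, hdel, hom]; norm_num
    have ho : (0 : ℝ) < omL := by rw [hom]; norm_num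
    rw [bilShape, Real.mul_rpow hm0 hm0', add_mul, ← mul_assoc,
      ← Real.rpow_add' hm0 (by linarith), ← mul_assoc, mul_comm (m' ^ omL), mul_assoc,
      ← Real.rpow_add' hm0' (by linarith)]
    refine (Real.rpow_add_le_add_rpow (by positivity) (by positivity) (by norm_num [hσ])
      (by norm_num [hσ])).trans (le_of_eq ?_)
    rw [Real.mul_rpow (by positivity) (by positivity), Real.mul_rpow (by positivity) (by positivity),
      ← Real.rpow_mul hm0, ← Real.rpow_mul hm0', ← Real.rpow_mul hm0, ← Real.rpow_mul hm0']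
  have hq : Q ^ τ = 4 ^ τ * x ^ (12 / 10 * τ) * (m ^ (1 / 2 * τ) * m' ^ τ) := by
    rw [hQ, Real.mul_rpow (by positivity) (by positivity), Real.mul_rpow (by positivity)
      (by positivity), Real.mul_rpow (by positivity) hm0', ← Real.rpow_mul hx.le,
      ← Real.rpow_mul hm0]
  have hr : R ^ σ = (2 * C₂) ^ σ * x ^ ((1 - delL) * σ) * bilShape m m' ^ σ := by
    rw [hR, Real.mul_rpow (by positivity) hbs, Real.mul_rpow (by positivity) (by positivity),
      ← Real.rpow_mul hx.le]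
  have hmono : m ^ (1 / 2 * τ) * m' ^ τ * bilShape m m' ^ σ ≤ 2 * GS := by
    have h0 : (0 : ℝ) < thL := by rw [hth, hdel, hom]; norm_num
    have ho : (0 : ℝ) < omL := by rw [hom]; norm_num
    refine (mul_le_mul_of_nonneg_left hb (by positivity)).trans ?_
    rw [mul_add, two_mul GS]
    refine add_le_add ?_ ?_
    · rw [mul_mul_mul_comm, ← Real.rpow_add' hm0 (by rw [hτ, hσ]; linarith),
        ← Real.rpow_add' hm0' (by rw [hτ, hσ]; linarith)]
      exact mono_le_gainShape hm0 hm0' (by rw [hth, hdel, hom, hτ, hσ]; norm_num)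
        (by rw [hth, hdel, hom, hτ, hσ]; norm_num) (by rw [hth, hdel, hom, hτ, hσ]; norm_num)
    · rw [mul_mul_mul_comm, ← Real.rpow_add' hm0 (by rw [hτ, hσ]; linarith),
        ← Real.rpow_add' hm0' (by rw [hτ, hσ]; linarith)]
      exact mono_le_gainShape hm0 hm0' (by rw [hth, hdel, hom, hτ, hσ]; norm_num)
        (by rw [hth, hdel, hom, hτ, hσ]; norm_num) (by rw [hth, hdel, hom, hτ, hσ]; norm_num)
  have hxp : x ^ (12 / 10 * τ) * x ^ ((1 - delL) * σ) ≤ P := by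
    rw [← Real.rpow_add hx]
    exact Real.rpow_le_rpow_of_exponent_ge hx hx1 (by rw [hdel, hgain, hτ, hσ]; norm_num)
  have h4 : (4 : ℝ) ^ τ ≤ 4 := by
    calc (4 : ℝ) ^ τ ≤ 4 ^ (1 : ℝ) :=
          Real.rpow_le_rpow_of_exponent_le (by norm_num) (by norm_num [hτ])
      _ = 4 := Real.rpow_one 4
  rw [hq, hr]
  calc 4 ^ τ * x ^ (12 / 10 * τ) * (m ^ (1 / 2 * τ) * m' ^ τ) *
        ((2 * C₂) ^ σ * x ^ ((1 - delL) * σ) * bilShape m m' ^ σ)
      = 4 ^ τ * (2 * C₂) ^ σ * (x ^ (12 / 10 * τ) * x ^ ((1 - delL) * σ)) *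
        (m ^ (1 / 2 * τ) * m' ^ τ * bilShape m m' ^ σ) := by ring
    _ ≤ 4 * (2 * C₂) ^ σ * P * (2 * GS) := by
        refine mul_le_mul (mul_le_mul (mul_le_mul_of_nonneg_right h4 (by positivity)) hxp
          (by positivity) (by positivity)) hmono (by positivity) (by positivity)
    _ = 8 * (2 * C₂) ^ σ * P * GS := by ring

open Classical in
/-- The theorem of the exceptional side. -/
theorem exists_side2_le :
    ∃ C : ℝ, 0 < C ∧ ∀ (F F' f f' : ℕ → ℝ) (V W : Finset ℕ) (k : ℕ → ℕ) (Y : ℕ) (x E : ℝ)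
      (B : Finset ℕ),
      0 < x → C * x ≤ 1 → x ^ (-(20 : ℝ)) ≤ (Y : ℝ) →
      x ^ (-(899 / 1000 : ℝ)) ≤ E → E ≤ x ^ (-(22 / 10 : ℝ)) → ThinSet x E B →
      Pool F f V k Y → Pool F' f' W k Y →
      ∑ v ∈ V, ∑ w ∈ W.filter (fun w => Linked k Y v w ∧ f v * (qd w v : ℝ) ≤ x ∧
          f' w * (qd v w : ℝ) ≤ x ∧ qd v w ∈ B), F v * F' w ≤
        C * x ^ (1 + 4 * gainL) * gainShape (∑ v ∈ V, F v) (∑ w ∈ W, F' w) := by
  obtain ⟨C₁, hC₁, h1⟩ := exists_sideSelf_le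
  obtain ⟨C₂, hC₂, h2⟩ := exists_bilPool_le
  refine ⟨max C₁ 4 + 4 * Real.sqrt C₁ + 4 + 2 * C₂ + 8 * (2 * C₂) ^ (1 / 100 : ℝ),
    by positivity, ?_⟩
  intro F F' f f' V W k Y x E B hx hCx hY hE1 hE2 hB hV hW
  set K := max C₁ 4 + 4 * Real.sqrt C₁ + 4 + 2 * C₂ + 8 * (2 * C₂) ^ (1 / 100 : ℝ) with hK
  have hx4 : x ≤ 1 / 4 := by
    have h : 4 * x ≤ K * x := mul_le_mul_of_nonneg_right (by
      have := le_max_right C₁ 4
      have := Real.sqrt_nonneg C₁
      have : 0 ≤ (2 * C₂) ^ (1 / 100 : ℝ) := by positivity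
      simp only [hK]; linarith) hx.le
    linarith
  have hx1 : x ≤ 1 := by linarith
  have hC₁x : C₁ * x ≤ 1 := by
    refine le_trans (mul_le_mul_of_nonneg_right ?_ hx.le) hCx
    have := le_max_left C₁ 4
    have := Real.sqrt_nonneg C₁
    have : 0 ≤ (2 * C₂) ^ (1 / 100 : ℝ) := by positivity
    linarith
  have hE : 1 ≤ E := le_trans (Real.one_le_rpow_of_pos_of_le_one_of_nonpos hx hx1 (by norm_num)) hE1
  have hY9 : x ^ (-(9 : ℝ)) ≤ (Y : ℝ) :=
    le_trans (Real.rpow_le_rpow_of_exponent_ge hx hx1 (by norm_num)) hY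
  have hY2 : 2 ≤ Y := by
    have h : x ^ (-1 : ℝ) ≤ x ^ (-(20 : ℝ)) :=
      Real.rpow_le_rpow_of_exponent_ge hx hx1 (by norm_num)
    rw [Real.rpow_neg_one] at h
    have h' : (4 : ℝ) ≤ x⁻¹ := by rw [le_inv_comm₀ (by norm_num) hx]; linarith
    exact_mod_cast show (2 : ℝ) ≤ Y by linarith
  set m := ∑ v ∈ V, F v with hm
  set m' := ∑ w ∈ W, F' w with hm'
  have hm0 : 0 ≤ m := sum_nonneg fun v _ => hV.F_nonneg v
  have hm0' : 0 ≤ m' := sum_nonneg fun v _ => hW.F_nonneg v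
  set S := ∑ v ∈ V, ∑ w ∈ W.filter (fun w => Linked k Y v w ∧ f v * (qd w v : ℝ) ≤ x ∧
      f' w * (qd v w : ℝ) ≤ x ∧ qd v w ∈ B), F v * F' w with hS
  have hS0 : 0 ≤ S := sum_nonneg fun v _ => sum_nonneg fun w _ =>
    mul_nonneg (hV.F_nonneg v) (hW.F_nonneg w)
  set W' := W.filter (fun w => f' w * E ≤ x) with hW'
  have hsub : W' ⊆ W := filter_subset _ _
  have hmW : ∑ w ∈ W', F' w ≤ m' :=
    sum_le_sum_of_subset_of_nonneg hsub fun w _ _ => hW.F_nonneg w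
  have hmW0 : 0 ≤ ∑ w ∈ W', F' w := sum_nonneg fun v _ => hW.F_nonneg v
  have hgain : gainL = 1 / 10 ^ 16 := rfl
  have hth : thL = 1 / 2 + delL / 2 - omL / 2 := by simp only [thL, alL1]; ring
  have hdel : delL = 1 / 10 ^ 10 := rfl
  have hom : omL = 1 / 10 ^ 16 := rfl
  -- the bound through the second family
  have hlink := side_link_le F F' f f' V W k Y x E B hx (by linarith) hY2 hB.mem hV hW
  rw [← hS, ← hW', ← hm] at hlink
  have hnear := h1 F' f' W' k Y x E B hx hC₁x hY9 hE1 hE2 hB (hW.mono hsub)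
    (fun w hw => (mem_filter.1 hw).2)
  have hfar : ∀ w ∈ W', ∀ w' ∈ W', ¬ max (qd w' w : ℝ) (qd w w') ≤ x ^ (-(8 : ℝ)) →
      F' w * F' w' * selfK B E (qd w' w, qd w w') ≤ F' w * F' w' * (4 * x ^ (14 / 10 : ℝ)) := by
    intro w _ w' _ h
    refine mul_le_mul_of_nonneg_left ?_ (mul_nonneg (hW.F_nonneg w) (hW.F_nonneg w'))
    refine (selfK_le hE hB.mem (Real.rpow_pos_of_pos hx _) (not_le.1 h).le).trans ?_
    have h3 : E ^ 3 ≤ x ^ (-(66 / 10) : ℝ) := by
      calc E ^ 3 ≤ (x ^ (-(22 / 10 : ℝ))) ^ 3 := pow_le_pow_left₀ (by linarith) hE2 3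
        _ = x ^ (-(66 / 10) : ℝ) := by
          rw [← Real.rpow_natCast (x ^ _) 3, ← Real.rpow_mul hx.le]; norm_num
    rw [mul_div_assoc]
    refine mul_le_mul_of_nonneg_left ?_ (by norm_num)
    rw [div_le_iff₀ (Real.rpow_pos_of_pos hx _), ← Real.rpow_add hx]
    norm_num
    norm_num at h3
    exact h3
  have hsum : ∑ w ∈ W', ∑ w' ∈ W', F' w * F' w' * selfK B E (qd w' w, qd w w') ≤
      C₁ * x ^ (1 + 8 * gainL) * (m' + m' ^ (2 * thL + omL)) +
        4 * x ^ (14 / 10 : ℝ) * (m' * m') := by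
    calc ∑ w ∈ W', ∑ w' ∈ W', F' w * F' w' * selfK B E (qd w' w, qd w w')
        = (∑ w ∈ W', ∑ w' ∈ W'.filter (fun w' => max (qd w' w : ℝ) (qd w w') ≤ x ^ (-(8 : ℝ))),
            F' w * F' w' * selfK B E (qd w' w, qd w w')) +
          ∑ w ∈ W', ∑ w' ∈ W'.filter (fun w' => ¬ max (qd w' w : ℝ) (qd w w') ≤ x ^ (-(8 : ℝ))),
            F' w * F' w' * selfK B E (qd w' w, qd w w') := by
          rw [← Finset.sum_add_distrib]
          exact Finset.sum_congr rfl fun w _ => (Finset.sum_filter_add_sum_filter_not _ _ _).symm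
      _ ≤ C₁ * x ^ (1 + 8 * gainL) * ((∑ w ∈ W', F' w) + (∑ w ∈ W', F' w) ^ (2 * thL + omL)) +
          ∑ w ∈ W', ∑ w' ∈ W', F' w * F' w' * (4 * x ^ (14 / 10 : ℝ)) := by
          refine add_le_add hnear (Finset.sum_le_sum fun w hw => ?_)
          refine (Finset.sum_le_sum fun w' hw' =>
            hfar w hw w' (mem_filter.1 hw').1 (mem_filter.1 hw').2).trans ?_
          exact sum_le_sum_of_subset_of_nonneg (filter_subset _ _) fun w' _ _ =>
            mul_nonneg (mul_nonneg (hW.F_nonneg w) (hW.F_nonneg w')) (by positivity)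
      _ ≤ C₁ * x ^ (1 + 8 * gainL) * (m' + m' ^ (2 * thL + omL)) +
          4 * x ^ (14 / 10 : ℝ) * (m' * m') := by
          refine add_le_add (mul_le_mul_of_nonneg_left (add_le_add hmW (Real.rpow_le_rpow hmW0 hmW
            (by rw [hth, hdel, hom]; norm_num))) (by positivity)) ?_
          have e : ∑ w ∈ W', ∑ w' ∈ W', F' w * F' w' * (4 * x ^ (14 / 10 : ℝ)) =
              4 * x ^ (14 / 10 : ℝ) * ((∑ w ∈ W', F' w) * ∑ w ∈ W', F' w) := by
            rw [Finset.sum_mul_sum, Finset.mul_sum]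
            refine Finset.sum_congr rfl fun w _ => ?_
            rw [Finset.mul_sum]
            exact Finset.sum_congr rfl fun _ _ => by ring
          rw [e]
          exact mul_le_mul_of_nonneg_left (mul_le_mul hmW hmW hmW0 hm0') (by positivity)
  have hsq : S ^ 2 ≤ 4 * x * m * (C₁ * x ^ (1 + 8 * gainL) * (m' + m' ^ (2 * thL + omL)) +
      4 * x ^ (14 / 10 : ℝ) * (m' * m')) :=
    hlink.trans (mul_le_mul_of_nonneg_left hsum (by positivity))
  have hGS := gainShape_nonneg hm0 hm0'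
  set GS := gainShape m m'
  set P := x ^ (1 + 4 * gainL) with hP
  have hP0 : 0 < P := Real.rpow_pos_of_pos hx _
  have hA : S ≤ 4 * Real.sqrt C₁ * P * GS + 4 * x ^ (12 / 10 : ℝ) * (m ^ (1 / 2 : ℝ) * m') :=
    side_sqrt_le hx hC₁ hm0 hm0' hS0 hsq
  -- the bilinear bound
  have hBil : S ≤ 2 * C₂ * x ^ (1 - delL) * bilShape m m' := by
    refine le_trans (Finset.sum_le_sum fun v _ => sum_le_sum_of_subset_of_nonneg ?_
      fun w _ _ => mul_nonneg (hV.F_nonneg v) (hW.F_nonneg w))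
      ((h2 F F' f f' V W k Y x x hx hx hY2 hV hW).trans (le_of_eq ?_))
    · intro w hw
      obtain ⟨hwW, hl, hc, ha, -⟩ := mem_filter.1 hw
      exact mem_filter.2 ⟨hwW, hc, ha, Or.inl hl⟩
    · rw [← hm, ← hm', ← Real.rpow_add hx,
        show alL1 + alL2 = 1 - delL by simp only [alL1, alL2]; ring]
      ring
  -- the smaller of the two
  set Q := 4 * x ^ (12 / 10 : ℝ) * (m ^ (1 / 2 : ℝ) * m') with hQ
  set R := 2 * C₂ * x ^ (1 - delL) * bilShape m m' with hR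
  have hQ0 : 0 ≤ Q := by positivity
  have hbs : 0 ≤ bilShape m m' := by unfold bilShape; positivity
  have hR0 : 0 ≤ R := by positivity
  set τ : ℝ := 99 / 100 with hτ
  set σ : ℝ := 1 / 100 with hσ
  have hmin : min Q R ≤ Q ^ τ * R ^ σ := by
    have h0 : 0 ≤ min Q R := le_min hQ0 hR0
    calc min Q R = (min Q R) ^ τ * (min Q R) ^ σ := by
          rw [← Real.rpow_add' h0 (by norm_num [hτ, hσ])]
          norm_num [hτ, hσ]
      _ ≤ Q ^ τ * R ^ σ := mul_le_mul (Real.rpow_le_rpow h0 (min_le_left _ _) (by norm_num [hτ]))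
          (Real.rpow_le_rpow h0 (min_le_right _ _) (by norm_num [hσ])) (by positivity) (by positivity)
  have hmix : Q ^ τ * R ^ σ ≤ 8 * (2 * C₂) ^ σ * P * GS := side_mix_le hx hx1 hC₂ hm0 hm0'
  have hfinal : S ≤ 4 * Real.sqrt C₁ * P * GS + min Q R := by
    rcases le_total Q R with h | h
    · rw [min_eq_left h]; exact hA
    · rw [min_eq_right h]
      have : 0 ≤ 4 * Real.sqrt C₁ * P * GS := by positivity
      linarith
  refine (hfinal.trans (add_le_add le_rfl (hmin.trans hmix))).trans ?_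
  rw [hσ, ← add_mul, ← add_mul, hK]
  refine mul_le_mul_of_nonneg_right (mul_le_mul_of_nonneg_right ?_ hP0.le) hGS
  have := le_max_right C₁ 4
  linarith

end Vale.Agent.P028.Lift
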