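import Vale.Agent.P028.Lift.SideSelf

/-!
The exceptional values of a quotient form a thin set.
-/

noncomputable section

namespace Vale.Agent.P028.Lift

open Finset

open Classical in
/-- The exceptional values in one dyadic range. -/
def sideSet (β x E : ℝ) : Finset ℕ :=
  (Finset.Ioc ⌊E⌋₊ ⌊2 * E⌋₊).filter (fun a => SideMem β x a)

/-- The data of an exceptional value with multiplier `h`, without the size conditions. -/
def SideAt (β x : ℝ) (h a : ℕ) : Prop :=
  ∃ (P t : ℕ) (u : ℤ), 0 < P ∧ IsCoprime u (P : ℤ) ∧ h * a = P * t ∧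
    |β - u / P| ≤ 3 * majW x * x / ((h : ℝ) * a) ∧ (t : ℝ) ≤ x ^ (-tauL)

lemma side_small_consts (C δ : ℝ) (hδ : 0 < δ) :
    ∃ x0 : ℝ, 0 < x0 ∧ x0 ≤ 1 ∧ ∀ x : ℝ, 0 < x → x ≤ x0 → C ≤ x ^ (-δ) := by
  refine ⟨(max C 1) ^ (-(1 / δ)), by positivity,
    Real.rpow_le_one_of_one_le_of_nonpos (le_max_right _ _) (by simp [hδ.le]), fun x hx hx0 => ?_⟩
  calc C ≤ max C 1 := le_max_left _ _
    _ = ((max C 1) ^ (-(1 / δ))) ^ (-δ) := by
        rw [← Real.rpow_mul (by positivity)]; field_simp; simp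
    _ ≤ x ^ (-δ) := Real.rpow_le_rpow_of_nonpos hx hx0 (by linarith)

lemma one_le_majW {x : ℝ} (hx : 0 < x) (hx1 : x ≤ 1) : 1 ≤ majW x :=
  Real.one_le_rpow_of_pos_of_le_one_of_nonpos hx hx1 (by norm_num [sig1])

open Classical in
/-- A set of exceptional values is covered by the sets with a fixed multiplier. -/
lemma card_le_of_sideAt {x β K : ℝ} (hx : 0 < x) (hK : 0 ≤ K) (s : Finset ℕ)
    (hs : ∀ a ∈ s, SideMem β x a)
    (hb : ∀ h : ℕ, 0 < h → (h : ℝ) ≤ majW x →
      ((s.filter fun a => SideAt β x h a).card : ℝ) ≤ K) :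
    (s.card : ℝ) ≤ majW x * K := by
  set H := Finset.Icc 1 ⌊majW x⌋₊ with hH
  have hW0 : 0 ≤ majW x := Real.rpow_nonneg hx.le _
  have hsub : s ⊆ H.biUnion fun h => s.filter fun a => SideAt β x h a := by
    intro a ha
    obtain ⟨h, P, t, u, ⟨h0, hW, hP, hu, he, hβ, -, -⟩, hsm⟩ := hs a ha
    exact mem_biUnion.2 ⟨h, mem_Icc.2 ⟨h0, Nat.le_floor hW⟩,
      mem_filter.2 ⟨ha, P, t, u, hP, hu, he, hβ, hsm⟩⟩
  have h1 : (s.card : ℝ) ≤ ∑ h ∈ H, ((s.filter fun a => SideAt β x h a).card : ℝ) := by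
    exact_mod_cast (card_le_card hsub).trans card_biUnion_le
  refine h1.trans ?_
  refine (sum_le_card_nsmul _ _ K fun h hh => ?_).trans ?_
  · rw [hH, mem_Icc] at hh
    exact hb h hh.1 ((Nat.cast_le.2 hh.2).trans (Nat.floor_le hW0))
  · rw [nsmul_eq_mul, hH, Nat.card_Icc, Nat.add_sub_cancel]
    exact mul_le_mul_of_nonneg_right (Nat.floor_le hW0) hK

lemma exists_thin_fixed :
    ∃ x0 : ℝ, 0 < x0 ∧ x0 ≤ 1 ∧ ∀ (β x E : ℝ) (h p : ℕ) (s : Finset ℕ), 0 < x → x ≤ x0 →
      0 < h → (h : ℝ) ≤ majW x → 0 < p → x ^ (-(3 * tauL)) ≤ E / p →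
      (∀ a ∈ s, E < (a : ℝ) ∧ (a : ℝ) ≤ 2 * E ∧ p ∣ a ∧ SideAt β x h a) →
      (s.card : ℝ) ≤ E / p * x ^ (tauL / 2) := by
  obtain ⟨C, hC, hrow⟩ := exists_rowCount
  obtain ⟨x1, hx1, hx11, hconst⟩ := side_small_consts (7 * C + 1) (tauL / 10) (by norm_num [tauL])
  refine ⟨min x1 (1 / 2 ^ 100), lt_min hx1 (by positivity), (min_le_left _ _).trans hx11,
    fun β x E h p s hx hx0 hh0 hhW hp hU hs => ?_⟩
  have hxx1 : x ≤ x1 := hx0.trans (min_le_left _ _)
  have hxone : x ≤ 1 := hxx1.trans hx11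
  have hDle := hconst x hx hxx1
  set U : ℝ := E / p with hUdef
  set M : ℝ := x ^ (-tauL) with hM
  set W : ℝ := majW x with hW
  have hW1 : 1 ≤ W := one_le_majW hx hxone
  have hM1 : 1 ≤ M := Real.one_le_rpow_of_pos_of_le_one_of_nonpos hx hxone (by norm_num [tauL])
  have hU1 : 1 ≤ U :=
    le_trans (Real.one_le_rpow_of_pos_of_le_one_of_nonpos hx hxone (by norm_num [tauL])) hU
  have hpR : (0 : ℝ) < p := by exact_mod_cast hp
  have hE : E = U * p := by rw [hUdef]; field_simp
  have hE0 : 0 < E := by rw [hE]; exact mul_pos (by linarith) hpR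
  have hhR : (0 : ℝ) < h := by exact_mod_cast hh0
  set T : Finset ℕ := s.image (fun a => a / p) with hT
  have hcard : s.card = T.card := by
    refine (card_image_of_injOn fun a ha b hb hab => ?_).symm
    calc a = a / p * p := (Nat.div_mul_cancel (hs a ha).2.2.1).symm
      _ = b / p * p := by rw [show a / p = b / p from hab]
      _ = b := Nat.div_mul_cancel (hs b hb).2.2.1
  set α : ℝ := (h : ℝ) * p * β with hα
  have hmem : ∀ m ∈ T, 0 < m ∧ (m : ℝ) ≤ 2 * U ∧
      ∃ (P t : ℕ) (u : ℤ), 0 < P ∧ IsCoprime u (P : ℤ) ∧ h * (p * m) = P * t ∧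
        (t : ℝ) ≤ x ^ (-tauL) ∧ |(m : ℝ) * α - (t : ℝ) * u| ≤ 3 * W * x := by
    intro m hm
    obtain ⟨a, ha, rfl⟩ := mem_image.1 hm
    obtain ⟨hlo, hhi, hdvd, P, t, u, hP, hu, he, hb, hsmo⟩ := hs a ha
    obtain ⟨m, rfl⟩ := hdvd
    rw [Nat.mul_div_cancel_left m hp]
    push_cast at hlo hhi hb
    have hm0 : (0 : ℝ) < m :=
      pos_of_mul_pos_right (show (0 : ℝ) < p * m by linarith) hpR.le
    refine ⟨by exact_mod_cast hm0, ?_, P, t, u, hP, hu, he, hsmo, ?_⟩
    · rw [hE] at hhi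
      exact le_of_mul_le_mul_left (by linarith) hpR
    · have he' : (h : ℝ) * (p * m) = P * t := by exact_mod_cast he
      have hPR : (0 : ℝ) < P := by exact_mod_cast hP
      have e : (m : ℝ) * α - (t : ℝ) * u = (h : ℝ) * (p * m) * (β - u / P) := by
        rw [hα, show (t : ℝ) * u = (P * t : ℝ) * (u / P) by field_simp, ← he']
        ring
      rw [e, abs_mul, abs_of_pos (by positivity)]
      rw [le_div_iff₀ (by positivity)] at hb
      rw [hW]
      linarith
  have hK : (T.card : ℝ) ≤ (7 * C + 1) * U * x ^ tauL := by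
    have hNear : ∀ m ∈ T, 0 < m ∧ (m : ℝ) ≤ 2 * U ∧
        NearInt ((m : ℝ) * α - 0) (2 * (2 * W * x)) := by
      intro m hm
      obtain ⟨h0, h1, P, t, u, -, -, -, -, h2⟩ := hmem m hm
      refine ⟨h0, h1, (t : ℤ) * u, ?_⟩
      push_cast
      rw [sub_zero]
      have : 0 < W * x := mul_pos (by linarith) hx
      linarith
    have hUx0 : 0 ≤ U * x ^ tauL := by positivity
    rcases hrow α 0 (2 * W * x) M (2 * U) T (by positivity) hM1 (by linarith) hNear with hA | hB
    · refine hA.trans ?_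
      have a1 : W * x ≤ x ^ tauL := by
        rw [hW]; show x ^ (-sig1) * x ≤ _
        rw [← Real.rpow_add_one hx.ne']
        exact Real.rpow_le_rpow_of_exponent_ge hx hxone (by norm_num [sig1, tauL])
      have a2 : 2 * U / M = 2 * (U * x ^ tauL) := by
        rw [hM, Real.rpow_neg hx.le]; field_simp
      have a3 : M ≤ U * x ^ tauL := by
        calc M ≤ x ^ (-(3 * tauL)) * x ^ tauL := by
              rw [hM, ← Real.rpow_add hx]
              exact Real.rpow_le_rpow_of_exponent_ge hx hxone (by norm_num [tauL])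
          _ ≤ _ := mul_le_mul_of_nonneg_right hU (by positivity)
      have a4 : 2 * U * (2 * W * x) ≤ 4 * (U * x ^ tauL) := by
        have := mul_le_mul_of_nonneg_left a1 (show (0 : ℝ) ≤ U by linarith)
        linarith
      calc C * (2 * U * (2 * W * x) + 2 * U / M + M) ≤ C * (7 * (U * x ^ tauL)) := by
            gcongr; linarith
        _ ≤ _ := by linarith [hUx0]
    · obtain ⟨q, hq0, hqM, U0, hU0⟩ := hB
      have hqR : (0 : ℝ) < q := by exact_mod_cast hq0
      choose! P t u hP hu he hsmo h2' using fun m hm => (hmem m hm).2.2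
      have hfrac : ∀ m ∈ T, u m * ((q : ℤ) * ((h : ℤ) * p)) = (P m : ℤ) * U0 ∧ 0 < t m := by
        intro m hm
        have h0 := (hmem m hm).1
        have h1 := (hmem m hm).2.1
        have h2 := h2' m hm
        have he := he m hm
        have ht' : 0 < t m := by
          have : 0 < P m * t m := by rw [← he]; positivity
          exact Nat.pos_of_mul_pos_left this
        have hint : (q : ℤ) * ((t m : ℤ) * u m) = (m : ℤ) * U0 := by
          have key : |(((q : ℤ) * ((t m : ℤ) * u m) - (m : ℤ) * U0 : ℤ) : ℝ)| < 1 := by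
            push_cast
            have e : (q : ℝ) * ((t m : ℝ) * u m) - (m : ℝ) * U0 =
                (m : ℝ) * ((q : ℝ) * α - U0) - (q : ℝ) * ((m : ℝ) * α - (t m : ℝ) * u m) := by ring
            rw [e]
            refine lt_of_le_of_lt (abs_sub _ _) ?_
            rw [abs_mul, abs_mul, Nat.abs_cast, Nat.abs_cast]
            have b1 : (m : ℝ) * |(q : ℝ) * α - U0| ≤ M ^ 2 * (2 * W * x) := by
              refine (mul_le_mul h1 hU0.le (abs_nonneg _) (by linarith)).trans_eq ?_
              field_simp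
            have b2 : (q : ℝ) * |(m : ℝ) * α - (t m : ℝ) * u m| ≤ M * (3 * W * x) :=
              mul_le_mul hqM h2 (abs_nonneg _) (by linarith)
            have b3 : M * (3 * W * x) ≤ M ^ 2 * (3 * W * x) :=
              mul_le_mul_of_nonneg_right (le_self_pow₀ hM1 (by norm_num)) (by positivity)
            have b4 : M ^ 2 * W * x ≤ x ^ (1 / 2 : ℝ) := by
              rw [hM, hW]; show (x ^ (-tauL)) ^ 2 * x ^ (-sig1) * x ≤ _
              rw [← Real.rpow_natCast, ← Real.rpow_mul hx.le, ← Real.rpow_add hx,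
                ← Real.rpow_add_one hx.ne']
              exact Real.rpow_le_rpow_of_exponent_ge hx hxone (by norm_num [sig1, tauL])
            have b5 : x ^ (1 / 2 : ℝ) ≤ (1 / 2 ^ 100 : ℝ) ^ (1 / 2 : ℝ) :=
              Real.rpow_le_rpow hx.le (hx0.trans (min_le_right _ _)) (by norm_num)
            have b6 : (1 / 2 ^ 100 : ℝ) ^ (1 / 2 : ℝ) = 1 / 2 ^ 50 := by
              rw [show (1 / 2 ^ 100 : ℝ) = ((1 / 2 : ℝ) ^ (100 : ℕ)) by rw [div_pow, one_pow],
                ← Real.rpow_natCast, ← Real.rpow_mul (by norm_num)]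
              norm_num
            rw [b6] at b5
            norm_num at b5
            linarith
          have hz := Int.abs_lt_one_iff.1 (show |(q : ℤ) * ((t m : ℤ) * u m) - (m : ℤ) * U0| < 1 by
            exact_mod_cast key)
          linarith
        refine ⟨mul_left_cancel₀ (show (t m : ℤ) ≠ 0 by exact_mod_cast ht'.ne') ?_, ht'⟩
        have he' : (h : ℤ) * ((p : ℤ) * m) = (P m : ℤ) * t m := by exact_mod_cast he
        linear_combination ((h : ℤ) * p) * hint + U0 * he'
      have hne : (q : ℤ) * ((h : ℤ) * p) ≠ 0 := by positivity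
      have hPeq : ∀ m ∈ T, ∀ n ∈ T, P m = P n := by
        intro m hm n hn
        have e : u m * (P n : ℤ) = u n * (P m : ℤ) := by
          refine mul_right_cancel₀ hne ?_
          linear_combination (P n : ℤ) * (hfrac m hm).1 - (P m : ℤ) * (hfrac n hn).1
        exact Nat.dvd_antisymm
          (Int.natCast_dvd_natCast.1 ((hu m hm).symm.dvd_of_dvd_mul_left ⟨u n, by linarith⟩))
          (Int.natCast_dvd_natCast.1 ((hu n hn).symm.dvd_of_dvd_mul_left ⟨u m, by linarith⟩))
      have hinj : Set.InjOn t ↑T := by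
        intro m hm n hn hmn
        have e : h * (p * m) = h * (p * n) := by
          rw [he m hm, he n hn, hPeq m hm n hn, hmn]
        exact Nat.eq_of_mul_eq_mul_left hp (Nat.eq_of_mul_eq_mul_left hh0 e)
      have hsub : T.image t ⊆ Finset.Icc 1 ⌊M⌋₊ := fun z hz => by
        obtain ⟨m, hm, rfl⟩ := mem_image.1 hz
        exact mem_Icc.2 ⟨(hfrac m hm).2, Nat.le_floor (hsmo m hm)⟩
      have hcM := card_le_card hsub
      rw [card_image_of_injOn hinj, Nat.card_Icc, Nat.add_sub_cancel] at hcM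
      have c1 : (T.card : ℝ) ≤ M := (Nat.cast_le.2 hcM).trans (Nat.floor_le (by linarith))
      have c2 : M ≤ U * x ^ tauL := by
        calc M ≤ x ^ (-(3 * tauL)) * x ^ tauL := by
              rw [hM, ← Real.rpow_add hx]
              exact Real.rpow_le_rpow_of_exponent_ge hx hxone (by norm_num [tauL])
          _ ≤ _ := mul_le_mul_of_nonneg_right hU (by positivity)
      linarith [mul_nonneg hC.le hUx0]
  rw [hcard]
  refine hK.trans ?_
  calc (7 * C + 1) * U * x ^ tauL ≤ x ^ (-(tauL / 10)) * U * x ^ tauL := by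
        gcongr
    _ = U * (x ^ (-(tauL / 10)) * x ^ tauL) := by ring
    _ ≤ U * x ^ (tauL / 2) := by
        refine mul_le_mul_of_nonneg_left ?_ (by linarith)
        rw [← Real.rpow_add hx]
        exact Real.rpow_le_rpow_of_exponent_ge hx hxone (by norm_num [tauL])

open Classical in
lemma exists_small_fixed :
    ∃ x0 : ℝ, 0 < x0 ∧ x0 ≤ 1 ∧ ∀ (β x E : ℝ) (h : ℕ) (s : Finset ℕ), 0 < x → x ≤ x0 →
      0 < h → (h : ℝ) ≤ majW x → 1 / 2 ≤ E → E ≤ x ^ (-(102 / 100 : ℝ)) →
      (∀ a ∈ s, E < (a : ℝ) ∧ (a : ℝ) ≤ 2 * E ∧ SideAt β x h a) →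
      (s.card : ℝ) ≤ x ^ (-(23 / 1000 : ℝ)) := by
  obtain ⟨x1, hx1, hx11, hconst⟩ :=
    side_small_consts 25 (1 / 10000) (by norm_num)
  refine ⟨x1, hx1, hx11, fun β x E h s hx hx0 hh0 hhW hE hEle hs => ?_⟩
  have hxone : x ≤ 1 := hx0.trans hx11
  have hDle := hconst x hx hx0
  set W : ℝ := majW x with hW
  have hW1 : 1 ≤ W := one_le_majW hx hxone
  have hhR : (0 : ℝ) < h := by exact_mod_cast hh0
  have hh1 : (1 : ℝ) ≤ h := by exact_mod_cast hh0
  have hE0 : 0 < E := by linarith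
  choose! P t u hP hu he hb hsmo using fun a ha => (hs a ha).2.2
  have hprod : ∀ a ∈ s, (h : ℝ) * a = P a * t a := fun a ha => by exact_mod_cast he a ha
  have htpos : ∀ a ∈ s, 0 < t a := fun a ha => by
    have ha0 : (0 : ℝ) < a := by linarith [(hs a ha).1]
    have : 0 < P a * t a := by rw [← he a ha]; exact Nat.mul_pos hh0 (by exact_mod_cast ha0)
    exact Nat.pos_of_mul_pos_left this
  have hPle : ∀ a ∈ s, (P a : ℝ) ≤ 2 * h * E := fun a ha => by
    have h1 : (1 : ℝ) ≤ t a := by exact_mod_cast htpos a ha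
    have h2 := mul_le_mul_of_nonneg_left (hs a ha).2.1 hhR.le
    have h3 : (P a : ℝ) ≤ P a * t a := le_mul_of_one_le_right (by positivity) h1
    linarith [hprod a ha]
  set key : ℕ → ℤ × ℕ := fun a => (u a, P a) with hkey
  have hR : 3 * W * x / ((h : ℝ) * E) ≥ 0 := by positivity
  have himg : ((s.image key).card : ℝ) ≤ 25 * (W ^ 2 * x ^ (-(2 / 100 : ℝ))) := by
    refine (card_le_of_separated _ (fun z : ℤ × ℕ => (z.1 : ℝ) / (z.2 : ℝ))
      (lo := β - 3 * W * x / ((h : ℝ) * E)) (σ := 2 * (3 * W * x / ((h : ℝ) * E)))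
      (g := 1 / (2 * h * E) ^ 2) (by positivity) (by positivity) ?_ ?_).trans ?_
    · intro z hz
      obtain ⟨a, ha, rfl⟩ := mem_image.1 hz
      have h1 : |β - (u a : ℝ) / P a| ≤ 3 * W * x / ((h : ℝ) * E) := by
        refine (hb a ha).trans ?_
        rw [hW]
        gcongr
        exact (hs a ha).1.le
      have h2 := abs_le.1 h1
      simp only [hkey]
      constructor <;> linarith
    · intro z hz z' hz' hne
      obtain ⟨a, ha, rfl⟩ := mem_image.1 hz
      obtain ⟨b, hb', rfl⟩ := mem_image.1 hz'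
      simp only [hkey] at hne ⊢
      have pa : (0 : ℝ) < P a := by exact_mod_cast hP a ha
      have pb : (0 : ℝ) < P b := by exact_mod_cast hP b hb'
      have hne0 : u a * (P b : ℤ) - u b * (P a : ℤ) ≠ 0 := by
        intro h0
        have h0' : u a * (P b : ℤ) = u b * (P a : ℤ) := by linarith
        have d1 : (P a : ℤ) ∣ (P b : ℤ) :=
          (hu a ha).symm.dvd_of_dvd_mul_left ⟨u b, by linarith⟩
        have d2 : (P b : ℤ) ∣ (P a : ℤ) :=
          (hu b hb').symm.dvd_of_dvd_mul_left ⟨u a, by linarith⟩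
        have hP' : P a = P b := Nat.dvd_antisymm (by exact_mod_cast d1) (by exact_mod_cast d2)
        rw [hP'] at h0'
        exact hne (Prod.ext (mul_right_cancel₀ (by exact_mod_cast (hP b hb').ne') h0') hP')
      have h1 : (1 : ℝ) ≤ |(u a : ℝ) * P b - (u b : ℝ) * P a| := by
        exact_mod_cast Int.one_le_abs hne0
      rw [div_sub_div _ _ pa.ne' pb.ne', abs_div, abs_of_pos (mul_pos pa pb),
        mul_comm (P a : ℝ) (u b : ℝ)]
      refine div_le_div₀ (by positivity) h1 (mul_pos pa pb) ?_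
      rw [sq]
      exact mul_le_mul (hPle a ha) (hPle b hb') pb.le (by positivity)
    · have e : 2 * (3 * W * x / ((h : ℝ) * E)) / (1 / (2 * h * E) ^ 2) = 24 * (W * h * E * x) := by
        field_simp; ring
      rw [e]
      have a1 : E * x ≤ x ^ (-(2 / 100 : ℝ)) := by
        refine (mul_le_mul_of_nonneg_right hEle hx.le).trans_eq ?_
        rw [← Real.rpow_add_one hx.ne']; norm_num
      have a2 : W * h * (E * x) ≤ W ^ 2 * x ^ (-(2 / 100 : ℝ)) := by
        rw [sq]; gcongr
      have a3 : 1 ≤ W ^ 2 * x ^ (-(2 / 100 : ℝ)) :=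
        one_le_mul_of_one_le_of_one_le (one_le_pow₀ hW1)
          (Real.one_le_rpow_of_pos_of_le_one_of_nonpos hx hxone (by norm_num))
      linarith
  set K : ℝ := x ^ (-tauL) with hK
  have hfib : ∀ z ∈ s.image key, ((s.filter fun a => key a = z).card : ℝ) ≤ K := by
    intro z _
    set S' := s.filter fun a => key a = z with hS'
    have hcard : S'.card = (S'.image t).card := by
      refine (card_image_of_injOn fun a ha b hb' hab => ?_).symm
      simp only [hS', coe_filter, Set.mem_ofPred_eq] at ha hb'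
      have hPeq : P a = P b := congrArg Prod.snd (ha.2.trans hb'.2.symm)
      have : h * a = h * b := by rw [he a ha.1, he b hb'.1, hPeq, hab]
      exact Nat.eq_of_mul_eq_mul_left hh0 this
    rw [hcard]
    have hsub : S'.image t ⊆ Finset.Icc 1 ⌊K⌋₊ := fun r hr => by
      obtain ⟨a, ha, rfl⟩ := mem_image.1 hr
      rw [hS', mem_filter] at ha
      exact mem_Icc.2 ⟨htpos a ha.1, Nat.le_floor (hsmo a ha.1)⟩
    have h1 := card_le_card hsub
    rw [Nat.card_Icc, Nat.add_sub_cancel] at h1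
    exact (Nat.cast_le.2 h1).trans (Nat.floor_le (by positivity))
  have hsum : (s.card : ℝ) = ∑ z ∈ s.image key, ((s.filter fun a => key a = z).card : ℝ) := by
    exact_mod_cast card_eq_sum_card_image key s
  rw [hsum]
  refine (sum_le_card_nsmul _ _ K hfib).trans ?_
  rw [nsmul_eq_mul]
  refine (mul_le_mul_of_nonneg_right himg (by positivity)).trans ?_
  have hW2 : W ^ 2 = x ^ (-(2 * sig1)) := by
    rw [hW]; show (x ^ (-sig1)) ^ 2 = _
    rw [← Real.rpow_natCast, ← Real.rpow_mul hx.le]; ring_nf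
  calc 25 * (W ^ 2 * x ^ (-(2 / 100 : ℝ))) * K
      = 25 * (x ^ (-(2 * sig1)) * x ^ (-(2 / 100 : ℝ)) * x ^ (-tauL)) := by rw [hK, hW2]; ring
    _ ≤ x ^ (-(1 / 10000 : ℝ)) * (x ^ (-(2 * sig1)) * x ^ (-(2 / 100 : ℝ)) * x ^ (-tauL)) :=
        mul_le_mul_of_nonneg_right hDle (by positivity)
    _ ≤ _ := by
        rw [← Real.rpow_add hx, ← Real.rpow_add hx, ← Real.rpow_add hx]
        exact Real.rpow_le_rpow_of_exponent_ge hx hxone (by norm_num [sig1, tauL])

/-- The exceptional values are thin. -/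
theorem exists_thinSet_sideSet :
    ∃ x0 : ℝ, 0 < x0 ∧ ∀ (β x E : ℝ), 0 < x → x ≤ x0 → 1 / 2 ≤ E →
      ThinSet x E (sideSet β x E) := by
  classical
  obtain ⟨xt, hxt, hxt1, hthin⟩ := exists_thin_fixed
  obtain ⟨xs, hxs, -, hsmall⟩ := exists_small_fixed
  refine ⟨min xt xs, lt_min hxt hxs, fun β x E hx hx0 hE => ?_⟩
  have hxone : x ≤ 1 := (hx0.trans (min_le_left _ _)).trans hxt1
  have hmem : ∀ a ∈ sideSet β x E, E < (a : ℝ) ∧ (a : ℝ) ≤ 2 * E := fun a ha => by
    simp only [sideSet, mem_filter, mem_Ioc] at ha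
    exact ⟨Nat.lt_of_floor_lt ha.1.1, (Nat.cast_le.2 ha.1.2).trans (Nat.floor_le (by linarith))⟩
  have hside : ∀ a ∈ sideSet β x E, SideMem β x a := fun a ha => by
    simp only [sideSet, mem_filter] at ha; exact ha.2
  refine ⟨hmem, fun p hp hU => ?_, fun hEle => ?_⟩
  · have hE0 : 0 < E := by linarith
    refine (card_le_of_sideAt hx (by positivity) _ (fun a ha => hside a (mem_filter.1 ha).1)
      (fun h hh0 hhW => hthin β x E h p _ hx (hx0.trans (min_le_left _ _)) hh0 hhW hp hU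
        fun a ha => ?_)).trans ?_
    · simp only [mem_filter] at ha
      exact ⟨(hmem a ha.1.1).1, (hmem a ha.1.1).2, ha.1.2, ha.2⟩
    · show x ^ (-sig1) * _ ≤ _
      rw [mul_left_comm, ← Real.rpow_add hx]
      exact mul_le_mul_of_nonneg_left
        (Real.rpow_le_rpow_of_exponent_ge hx hxone (by norm_num [sig1, sigR, tauL]))
        (by positivity)
  · refine (card_le_of_sideAt hx (by positivity) _ hside
      (fun h hh0 hhW => hsmall β x E h _ hx (hx0.trans (min_le_right _ _)) hh0 hhW hE hEle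
        fun a ha => ?_)).trans ?_
    · simp only [mem_filter] at ha
      exact ⟨(hmem a ha.1).1, (hmem a ha.1).2, ha.2⟩
    · show x ^ (-sig1) * _ ≤ _
      rw [← Real.rpow_add hx]
      exact Real.rpow_le_rpow_of_exponent_ge hx hxone (by norm_num [sig1])

end Vale.Agent.P028.Lift
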