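import Vale.Agent.P028.Lift.Shape
import Vale.Agent.P028.Lift.BoxPart
import Vale.Agent.P028.Lift.Side
import Vale.Agent.P028.Lift.SideSet
import Vale.Agent.P028.Lift.DivPart
import Vale.Agent.P028.Lift.BigStates

/-!
The gain of one level of one pair of pools.
-/

noncomputable section

namespace Vale.Agent.P028.Lift

open Finset BilinearAux

open Classical in
/-- The weight of the pairs with the property `R`. -/
private def pairW (F F' : ℕ → ℝ) (V W : Finset ℕ) (R : ℕ → ℕ → Prop) : ℝ :=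
  ∑ v ∈ V, ∑ w ∈ W.filter (fun w => R v w), F v * F' w

open Classical in
private theorem pairW_swap (F F' : ℕ → ℝ) (V W : Finset ℕ) (R : ℕ → ℕ → Prop) :
    pairW F' F W V (fun w v => R v w) = pairW F F' V W R := by
  simp only [pairW, Finset.sum_filter]
  rw [Finset.sum_comm]
  exact Finset.sum_congr rfl fun v _ => Finset.sum_congr rfl fun w _ => by rw [mul_comm]

open Classical in
private theorem pairW_union_le {F F' : ℕ → ℝ} {V W : Finset ℕ} (hF : ∀ v, 0 ≤ F v)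
    (hF' : ∀ w, 0 ≤ F' w) {R A B : ℕ → ℕ → Prop}
    (h : ∀ v ∈ V, ∀ w ∈ W, R v w → A v w ∨ B v w) :
    pairW F F' V W R ≤ pairW F F' V W A + pairW F F' V W B := by
  simp only [pairW, ← Finset.sum_add_distrib, Finset.sum_filter]
  refine Finset.sum_le_sum fun v hv => Finset.sum_le_sum fun w hw => ?_
  have := mul_nonneg (hF v) (hF' w)
  by_cases hR : R v w
  · rcases h v hv w hw hR with hA | hB
    · rw [if_pos hR, if_pos hA]; split_ifs <;> linarith
    · rw [if_pos hR, if_pos hB]; split_ifs <;> linarith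
  · rw [if_neg hR]; split_ifs <;> linarith

open Classical in
private theorem pairW_biUnion_le {ι : Type*} (I : Finset ι) {F F' : ℕ → ℝ} {V W : Finset ℕ}
    (hF : ∀ v, 0 ≤ F v) (hF' : ∀ w, 0 ≤ F' w) {R : ℕ → ℕ → Prop} {A : ι → ℕ → ℕ → Prop}
    (h : ∀ v ∈ V, ∀ w ∈ W, R v w → ∃ i ∈ I, A i v w) :
    pairW F F' V W R ≤ ∑ i ∈ I, pairW F F' V W (A i) := by
  simp only [pairW, Finset.sum_filter]
  conv_rhs => rw [Finset.sum_comm]
  refine Finset.sum_le_sum fun v hv => ?_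
  conv_rhs => rw [Finset.sum_comm]
  refine Finset.sum_le_sum fun w hw => ?_
  have h0 : ∀ i ∈ I, (0 : ℝ) ≤ if A i v w then F v * F' w else 0 := fun i _ => by
    split_ifs
    · exact mul_nonneg (hF v) (hF' w)
    · exact le_rfl
  by_cases hR : R v w
  · obtain ⟨i, hi, hA⟩ := h v hv w hw hR
    rw [if_pos hR]
    exact le_trans (le_of_eq (if_pos hA).symm) (Finset.single_le_sum h0 hi)
  · rw [if_neg hR]; exact Finset.sum_nonneg h0

/-- The dyadic left end `2 ^ i / 2`. -/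
private def dyad (i : ℕ) : ℝ := 2 ^ i / 2

private theorem half_le_dyad (i : ℕ) : 1 / 2 ≤ dyad i :=
  div_le_div_of_nonneg_right (one_le_pow₀ one_le_two) zero_le_two

private theorem clog_dyad {c : ℕ} (hc : 0 < c) :
    dyad (Nat.clog 2 c) < (c : ℝ) ∧ (c : ℝ) ≤ 2 * dyad (Nat.clog 2 c) := by
  constructor
  · rcases Nat.eq_or_lt_of_le hc with h | h
    · rw [dyad, ← h]; norm_num
    · have h1 := Nat.pow_pred_clog_lt_self (b := 2) one_lt_two h
      have h2 : 0 < Nat.clog 2 c := Nat.clog_pos one_lt_two h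
      rw [dyad, div_lt_iff₀ two_pos]
      calc (2 : ℝ) ^ Nat.clog 2 c = 2 ^ (Nat.clog 2 c).pred * 2 := by
            rw [← pow_succ, Nat.pred_eq_sub_one, Nat.sub_add_cancel h2]
        _ < (c : ℝ) * 2 := mul_lt_mul_of_pos_right (by exact_mod_cast h1) two_pos
  · rw [dyad, mul_div_cancel₀ _ two_ne_zero]
    exact_mod_cast Nat.le_pow_clog one_lt_two c

private theorem exists_index_card :
    ∃ K : ℝ, 0 < K ∧ ∀ x : ℝ, 0 < x → x ≤ 1 →
      ((Nat.clog 2 ⌈x ^ (-(3 : ℝ))⌉₊ + 1 : ℕ) : ℝ) ≤ K * x ^ (-(gainL / 2)) := by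
  have hg : (0 : ℝ) < gainL / 6 := by norm_num [gainL]
  refine ⟨3 + 2 / (gainL / 6), by positivity, fun x hx hx1 => ?_⟩
  set y := x ^ (-(3 : ℝ)) with hy
  have hy1 : 1 ≤ y := Real.one_le_rpow_of_pos_of_le_one_of_nonpos hx hx1 (by norm_num)
  set n := Nat.clog 2 ⌈y⌉₊ with hn
  have hc : 0 < ⌈y⌉₊ := Nat.ceil_pos.2 (by linarith)
  have h1 : (2 : ℝ) ^ n / 2 < 2 * y :=
    ((clog_dyad hc).1).trans_le ((Nat.ceil_lt_add_one (by linarith)).le.trans (by linarith))
  have h2 : (n : ℝ) * Real.log 2 ≤ Real.log 2 * 2 + Real.log y := by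
    have h3 : (2 : ℝ) ^ n ≤ 2 ^ 2 * y := by linarith
    have := Real.log_le_log (by positivity) h3
    rw [Real.log_mul (by norm_num) (by linarith), Real.log_pow, Real.log_pow] at this
    push_cast at this
    linarith
  have hl2 : 1 / 2 ≤ Real.log 2 := by linarith [Real.log_two_gt_d9]
  have h4 : Real.log y ≤ x ^ (-(gainL / 2)) / (gainL / 6) := by
    refine (Real.log_le_rpow_div (by linarith) hg).trans (le_of_eq ?_)
    rw [hy, ← Real.rpow_mul hx.le]
    ring_nf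
  have hone : 1 ≤ x ^ (-(gainL / 2)) :=
    Real.one_le_rpow_of_pos_of_le_one_of_nonpos hx hx1 (by linarith)
  have hly : 0 ≤ Real.log y := Real.log_nonneg hy1
  have h5 : ((n : ℝ) - 2) ≤ 2 * Real.log y := by
    rcases le_or_gt ((n : ℝ) - 2) 0 with h | h
    · linarith
    · nlinarith
  push_cast
  rw [add_mul, div_mul_eq_mul_div, mul_div_assoc]
  linarith

/-- The indices of the dyadic ranges up to `x ^ (-3)`. -/
private def levels (x : ℝ) : Finset ℕ := Finset.range (Nat.clog 2 ⌈x ^ (-(3 : ℝ))⌉₊ + 1)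

private theorem mem_levels {x : ℝ} {c : ℕ} (hc : (c : ℝ) ≤ x ^ (-(3 : ℝ))) :
    Nat.clog 2 c ∈ levels x :=
  Finset.mem_range.2 (Nat.lt_succ_of_le (Nat.clog_mono_right 2
    (by exact_mod_cast hc.trans (Nat.le_ceil _))))

private theorem coprime_qd {v w : ℕ} (hw : 0 < w) : Nat.Coprime (qd w v) (qd v w) := by
  have := Nat.coprime_div_gcd_div_gcd (Nat.gcd_pos_of_pos_left v hw)
  rwa [qd, qd, Nat.gcd_comm v w]

/-- A pair with `c a ≤ A ≤ x ^ (-3)` lies in one of the boxes. -/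
private theorem exists_dyadBox {x A : ℝ} {c a : ℕ} (hc : 0 < c) (ha : 0 < a)
    (hco : Nat.Coprime c a) (hA : A ≤ x ^ (-(3 : ℝ))) (h : (c : ℝ) * a ≤ A) :
    ∃ z ∈ (levels x ×ˢ levels x).filter (fun z => dyad z.1 * dyad z.2 ≤ A),
      InBox (dyad z.1) (dyad z.2) (c, a) := by
  obtain ⟨c1, c2⟩ := clog_dyad hc
  obtain ⟨a1, a2⟩ := clog_dyad ha
  have hc1 : (1 : ℝ) ≤ (c : ℝ) := by exact_mod_cast hc
  have ha1 : (1 : ℝ) ≤ (a : ℝ) := by exact_mod_cast ha
  have hca : (c : ℝ) ≤ (c : ℝ) * a := le_mul_of_one_le_right (by linarith) ha1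
  have hac : (a : ℝ) ≤ (c : ℝ) * a := le_mul_of_one_le_left (by linarith) hc1
  refine ⟨(Nat.clog 2 a, Nat.clog 2 c), Finset.mem_filter.2 ⟨Finset.mem_product.2
    ⟨mem_levels (hac.trans (h.trans hA)), mem_levels (hca.trans (h.trans hA))⟩, ?_⟩,
    c1, c2, a1, a2, hco⟩
  refine le_trans ?_ (le_trans (le_of_eq (mul_comm _ _)) h)
  exact mul_le_mul a1.le c1.le (by linarith [half_le_dyad (Nat.clog 2 c)]) (by linarith)

open Classical in
/-- All boxes of moderate area. -/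
private theorem exists_boxes_le :
    ∃ C : ℝ, 0 < C ∧ ∀ (β β' x : ℝ) (F F' f f' : ℕ → ℝ) (V W : Finset ℕ) (k : ℕ → ℕ) (Y : ℕ),
      0 < x → C * x ≤ 1 → x ^ (-(20 : ℝ)) ≤ (Y : ℝ) → Pool F f V k Y → Pool F' f' W k Y →
      pairW F F' V W (fun v w => BadPair β β' x f f' k Y v w ∧
          (qd w v : ℝ) * qd v w ≤ x ^ (-(202 / 100 : ℝ))) ≤
        C * x ^ (1 + 3 * gainL) * gainShape (∑ v ∈ V, F v) (∑ w ∈ W, F' w) := by
  obtain ⟨CB, hCB, hbox⟩ := exists_boxPart_le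
  obtain ⟨K, hK, hcard⟩ := exists_index_card
  refine ⟨1 + CB + K ^ 2 * CB, by positivity,
    fun β β' x F F' f f' V W k Y hx hCx hY hV hW => ?_⟩
  have hx1 : x ≤ 1 := by nlinarith [mul_nonneg (show (0 : ℝ) ≤ CB + K ^ 2 * CB by positivity) hx.le]
  have hA : x ^ (-(202 / 100 : ℝ)) ≤ x ^ (-(3 : ℝ)) :=
    Real.rpow_le_rpow_of_exponent_ge hx hx1 (by norm_num)
  set J := (levels x ×ˢ levels x).filter
    (fun z => dyad z.1 * dyad z.2 ≤ x ^ (-(202 / 100 : ℝ))) with hJ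
  refine (pairW_biUnion_le J hV.F_nonneg hW.F_nonneg (A := fun z v w =>
    InBox (dyad z.1) (dyad z.2) (qd w v, qd v w) ∧ BadPair β β' x f f' k Y v w) ?_).trans ?_
  · intro v hv w hw h
    obtain ⟨z, hz, hb⟩ := exists_dyadBox (qd_pos (hW.pos w hw)) (qd_pos (hV.pos v hv))
      (coprime_qd (hW.pos w hw)) hA h.2
    exact ⟨z, hz, hb, h.1⟩
  obtain ⟨G, hG⟩ : ∃ G, G = gainShape (∑ v ∈ V, F v) (∑ w ∈ W, F' w) := ⟨_, rfl⟩
  rw [← hG]
  have hG0 : 0 ≤ G := hG ▸ gainShape_nonneg (Finset.sum_nonneg fun v _ => hV.F_nonneg v)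
    (Finset.sum_nonneg fun w _ => hW.F_nonneg w)
  have hCB' : CB * x ≤ 1 :=
    le_trans (mul_le_mul_of_nonneg_right (le_add_of_le_of_nonneg
      (le_add_of_nonneg_left zero_le_one) (by positivity)) hx.le) hCx
  refine (Finset.sum_le_card_nsmul J _ (CB * x ^ (1 + 4 * gainL) * G) fun z hz => ?_).trans ?_
  · have := hbox β β' x _ _ F F' f f' V W k Y hx hCB' hY (half_le_dyad _) (half_le_dyad _)
      (Finset.mem_filter.1 hz).2 hV hW
    rw [← hG] at this
    simp only [pairW]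
    convert this using 4
  rw [nsmul_eq_mul]
  have hJc : (J.card : ℝ) ≤ K ^ 2 * x ^ (-gainL) := by
    calc (J.card : ℝ) ≤ ((levels x ×ˢ levels x).card : ℝ) := by
          exact_mod_cast Finset.card_filter_le _ _
      _ = ((levels x).card : ℝ) ^ 2 := by rw [Finset.card_product]; push_cast; ring
      _ ≤ (K * x ^ (-(gainL / 2))) ^ 2 := by
          refine pow_le_pow_left₀ (Nat.cast_nonneg _) ?_ 2
          rw [levels, Finset.card_range]; exact hcard x hx hx1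
      _ = _ := by
          rw [mul_pow, ← Real.rpow_natCast (x ^ (-(gainL / 2))) 2, ← Real.rpow_mul hx.le]
          push_cast
          ring_nf
  calc (J.card : ℝ) * (CB * x ^ (1 + 4 * gainL) * G)
      ≤ K ^ 2 * x ^ (-gainL) * (CB * x ^ (1 + 4 * gainL) * G) :=
        mul_le_mul_of_nonneg_right hJc (by positivity)
    _ = K ^ 2 * CB * (x ^ (-gainL) * x ^ (1 + 4 * gainL)) * G := by ring
    _ = K ^ 2 * CB * x ^ (1 + 3 * gainL) * G := by
        rw [← Real.rpow_add hx, show -gainL + (1 + 4 * gainL) = 1 + 3 * gainL by ring]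
    _ ≤ _ := mul_le_mul_of_nonneg_right
        (mul_le_mul_of_nonneg_right (le_add_of_nonneg_left (by positivity)) (by positivity)) hG0

private theorem sideMem_range {β x : ℝ} {a : ℕ} (ha : 0 < a) (hx : 0 < x)
    (hbx : x ≤ 1 / 10 ^ 12) (hs : SideMem β x a) :
    2 * x ^ (-(899 / 1000 : ℝ)) ≤ (a : ℝ) ∧ (a : ℝ) ≤ x ^ (-(22 / 10 : ℝ)) := by
  have hx1 : x ≤ 1 := hbx.trans (by norm_num)
  obtain ⟨h, P, t, u, ⟨hh, hhW, hP, -, heq, -, hPlow, hPup⟩, ht⟩ := hs
  have ha0 : (0 : ℝ) < a := by exact_mod_cast ha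
  have hh1 : (1 : ℝ) ≤ h := by exact_mod_cast hh
  have heq' : (h : ℝ) * a = (P : ℝ) * t := by exact_mod_cast heq
  have ht0 : 0 < t := Nat.pos_of_ne_zero fun h0 => by
    rw [h0, mul_zero] at heq; exact (mul_pos hh ha).ne' heq
  have ht1 : (1 : ℝ) ≤ t := by exact_mod_cast ht0
  refine ⟨?_, ?_⟩
  · have hPle : (P : ℝ) ≤ majW x * a :=
      calc (P : ℝ) ≤ (P : ℝ) * t := le_mul_of_one_le_right (Nat.cast_nonneg _) ht1
        _ = (h : ℝ) * a := heq'.symm
        _ ≤ _ := mul_le_mul_of_nonneg_right hhW ha0.le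
    have h2 : (a : ℝ) * x ^ (-(1 - 5 * sig1)) < (a : ℝ) * (majW x ^ 2 * a) :=
      calc _ < (P : ℝ) ^ 2 := hPlow
        _ ≤ (majW x * a) ^ 2 := pow_le_pow_left₀ (Nat.cast_nonneg _) hPle 2
        _ = _ := by ring
    have h3 := lt_of_mul_lt_mul_left h2 ha0.le
    have hW2 : majW x ^ 2 = x ^ (-(2 * sig1)) := by
      rw [majW, ← Real.rpow_natCast, ← Real.rpow_mul hx.le]; push_cast; ring_nf
    rw [hW2] at h3
    refine le_of_lt (lt_of_mul_lt_mul_left (lt_of_le_of_lt ?_ h3) (by positivity))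
    calc x ^ (-(2 * sig1)) * (2 * x ^ (-(899 / 1000 : ℝ)))
        = 2 * x ^ (-(2 * sig1 + 899 / 1000)) := by
          rw [neg_add, Real.rpow_add hx]; ring
      _ ≤ x ^ (-(1 / 12 : ℝ)) * x ^ (-(2 * sig1 + 899 / 1000)) := by
          refine mul_le_mul_of_nonneg_right ?_ (by positivity)
          calc (2 : ℝ) ≤ ((1 : ℝ) / 10 ^ 12) ^ (-(1 / 12 : ℝ)) := by
                rw [one_div ((10 : ℝ) ^ 12), Real.inv_rpow (by positivity),
                  Real.rpow_neg (by positivity), inv_inv, ← Real.rpow_natCast (10 : ℝ) 12,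
                  ← Real.rpow_mul (by norm_num)]
                norm_num
            _ ≤ _ := Real.rpow_le_rpow_of_nonpos hx hbx (by norm_num)
      _ ≤ _ := by
          rw [← Real.rpow_add hx]
          exact Real.rpow_le_rpow_of_exponent_ge hx hx1 (by norm_num [sig1])
  · calc (a : ℝ) ≤ (h : ℝ) * a := le_mul_of_one_le_left ha0.le hh1
      _ = (P : ℝ) * t := heq'
      _ ≤ x ^ (-(2 + 3 / 10 ^ 4 : ℝ)) * x ^ (-tauL) :=
          mul_le_mul hPup ht (Nat.cast_nonneg _) (by positivity)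
      _ ≤ _ := by
          rw [← Real.rpow_add hx]
          exact Real.rpow_le_rpow_of_exponent_ge hx hx1 (by norm_num [tauL])

open Classical in
/-- The pairs with an exceptional quotient with a short cofactor on the first side. -/
private theorem exists_sides_le :
    ∃ C : ℝ, 0 < C ∧ ∀ (β x : ℝ) (F F' f f' : ℕ → ℝ) (V W : Finset ℕ) (k : ℕ → ℕ) (Y : ℕ),
      0 < x → C * x ≤ 1 → x ^ (-(20 : ℝ)) ≤ (Y : ℝ) → Pool F f V k Y → Pool F' f' W k Y →
      pairW F F' V W (fun v w => Linked k Y v w ∧ f v * (qd w v : ℝ) ≤ x ∧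
          f' w * (qd v w : ℝ) ≤ x ∧ SideMem β x (qd v w)) ≤
        C * x ^ (1 + 3 * gainL) * gainShape (∑ v ∈ V, F v) (∑ w ∈ W, F' w) := by
  obtain ⟨CS, hCS, hside⟩ := exists_side2_le
  obtain ⟨x0, hx0, hthin⟩ := exists_thinSet_sideSet
  obtain ⟨K, hK, hcard⟩ := exists_index_card
  refine ⟨10 ^ 12 + 1 / x0 + CS + K * CS, by positivity,
    fun β x F F' f f' V W k Y hx hCx hY hV hW => ?_⟩
  have h1 : 0 ≤ 1 / x0 := by positivity
  have h2 : 0 ≤ K * CS := by positivity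
  have hsmall : ∀ c : ℝ, c ≤ 10 ^ 12 + 1 / x0 + CS + K * CS → c * x ≤ 1 := fun c hc =>
    le_trans (mul_le_mul_of_nonneg_right hc hx.le) hCx
  have hbx : x ≤ 1 / 10 ^ 12 := by
    rw [le_div_iff₀ (by norm_num)]; linarith [hsmall (10 ^ 12) (by linarith)]
  have hx1 : x ≤ 1 := hbx.trans (by norm_num)
  have hxx0 : x ≤ x0 := by
    have := hsmall (1 / x0) (by linarith)
    rwa [div_mul_eq_mul_div, one_mul, div_le_one hx0] at this
  set J := (levels x).filter (fun i =>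
    x ^ (-(899 / 1000 : ℝ)) ≤ dyad i ∧ dyad i ≤ x ^ (-(22 / 10 : ℝ))) with hJ
  refine (pairW_biUnion_le J hV.F_nonneg hW.F_nonneg (A := fun i v w => Linked k Y v w ∧
    f v * (qd w v : ℝ) ≤ x ∧ f' w * (qd v w : ℝ) ≤ x ∧ qd v w ∈ sideSet β x (dyad i)) ?_).trans ?_
  · rintro v hv w hw ⟨hl, hc, ha, hs⟩
    obtain ⟨r1, r2⟩ := sideMem_range (qd_pos (hV.pos v hv)) hx hbx hs
    obtain ⟨a1, a2⟩ := clog_dyad (qd_pos (w := w) (hV.pos v hv))
    refine ⟨Nat.clog 2 (qd v w), Finset.mem_filter.2 ⟨mem_levels (r2.trans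
      (Real.rpow_le_rpow_of_exponent_ge hx hx1 (by norm_num))), by linarith, a1.le.trans r2⟩,
      hl, hc, ha, Finset.mem_filter.2 ⟨Finset.mem_Ioc.2 ⟨?_, Nat.le_floor a2⟩, hs⟩⟩
    exact (Nat.floor_lt (by linarith [half_le_dyad (Nat.clog 2 (qd v w))])).2 a1
  obtain ⟨G, hG⟩ : ∃ G, G = gainShape (∑ v ∈ V, F v) (∑ w ∈ W, F' w) := ⟨_, rfl⟩
  rw [← hG]
  have hG0 : 0 ≤ G := hG ▸ gainShape_nonneg (Finset.sum_nonneg fun v _ => hV.F_nonneg v)
    (Finset.sum_nonneg fun w _ => hW.F_nonneg w)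
  refine (Finset.sum_le_card_nsmul J _ (CS * x ^ (1 + 4 * gainL) * G) fun i hi => ?_).trans ?_
  · obtain ⟨-, e1, e2⟩ := Finset.mem_filter.1 hi
    have := hside F F' f f' V W k Y x _ _ hx
      (hsmall _ (by linarith [show (0:ℝ) ≤ 10 ^ 12 by norm_num]))
      hY e1 e2 (hthin β x _ hx hxx0 (half_le_dyad i)) hV hW
    rw [← hG] at this
    simp only [pairW]
    convert this using 4
  rw [nsmul_eq_mul]
  have hJc : (J.card : ℝ) ≤ K * x ^ (-gainL) := by
    calc (J.card : ℝ) ≤ ((levels x).card : ℝ) := by exact_mod_cast Finset.card_filter_le _ _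
      _ ≤ K * x ^ (-(gainL / 2)) := by rw [levels, Finset.card_range]; exact hcard x hx hx1
      _ ≤ _ := mul_le_mul_of_nonneg_left
          (Real.rpow_le_rpow_of_exponent_ge hx hx1 (by norm_num [gainL])) hK.le
  calc (J.card : ℝ) * (CS * x ^ (1 + 4 * gainL) * G)
      ≤ K * x ^ (-gainL) * (CS * x ^ (1 + 4 * gainL) * G) :=
        mul_le_mul_of_nonneg_right hJc (by positivity)
    _ = K * CS * (x ^ (-gainL) * x ^ (1 + 4 * gainL)) * G := by ring
    _ = K * CS * x ^ (1 + 3 * gainL) * G := by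
        rw [← Real.rpow_add hx, show -gainL + (1 + 4 * gainL) = 1 + 3 * gainL by ring]
    _ ≤ _ := mul_le_mul_of_nonneg_right
        (mul_le_mul_of_nonneg_right (le_add_of_nonneg_left (by positivity)) (by positivity)) hG0

private theorem linked_comm {k : ℕ → ℕ} {Y v w : ℕ} : Linked k Y v w ↔ Linked k Y w v :=
  ⟨fun h p hp hpY => (h p hp hpY).symm, fun h p hp hpY => (h p hp hpY).symm⟩

private theorem gainShape_comm (a b : ℝ) : gainShape a b = gainShape b a := by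
  unfold gainShape; rw [mul_comm b a]; ring

open Classical in
private theorem pairW_le_swap {F F' f f' : ℕ → ℝ} {V W : Finset ℕ} {k : ℕ → ℕ} {Y : ℕ} {x B : ℝ}
    {P : ℕ → Prop}
    (h : pairW F' F W V (fun v w => Linked k Y v w ∧ f' v * (qd w v : ℝ) ≤ x ∧
      f w * (qd v w : ℝ) ≤ x ∧ P (qd v w)) ≤ B) :
    pairW F F' V W (fun v w => Linked k Y v w ∧ f v * (qd w v : ℝ) ≤ x ∧
      f' w * (qd v w : ℝ) ≤ x ∧ P (qd w v)) ≤ B := by
  refine le_trans (le_of_eq ?_) h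
  rw [← pairW_swap F F' V W]
  simp only [pairW]
  refine Finset.sum_congr rfl fun w _ => Finset.sum_congr (Finset.filter_congr fun v _ => ?_)
    fun _ _ => rfl
  exact ⟨fun ⟨a, b, c, d⟩ => ⟨linked_comm.1 a, c, b, d⟩,
    fun ⟨a, b, c, d⟩ => ⟨linked_comm.1 a, c, b, d⟩⟩

open Classical in
private theorem pairW_le_swap' {F F' f f' : ℕ → ℝ} {V W : Finset ℕ} {k : ℕ → ℕ} {Y : ℕ} {x B : ℝ}
    {P : ℕ → Prop}
    (h : pairW F' F W V (fun v w => Linked k Y v w ∧ f' v * (qd w v : ℝ) ≤ x ∧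
      f w * (qd v w : ℝ) ≤ x ∧ P (qd w v)) ≤ B) :
    pairW F F' V W (fun v w => Linked k Y v w ∧ f v * (qd w v : ℝ) ≤ x ∧
      f' w * (qd v w : ℝ) ≤ x ∧ P (qd v w)) ≤ B := by
  refine le_trans (le_of_eq ?_) h
  rw [← pairW_swap F F' V W]
  simp only [pairW]
  refine Finset.sum_congr rfl fun w _ => Finset.sum_congr (Finset.filter_congr fun v _ => ?_)
    fun _ _ => rfl
  exact ⟨fun ⟨a, b, c, d⟩ => ⟨linked_comm.1 a, c, b, d⟩,
    fun ⟨a, b, c, d⟩ => ⟨linked_comm.1 a, c, b, d⟩⟩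

open Classical in
/-- The bad pairs of a level save a power of the level; every bound has both exponents below one
and of sum at least one, so that it transfers by Hölder over deficiencies. -/
theorem exists_gain_le :
    ∃ (C g ν : ℝ) (M : ℕ) (exps : List (ℝ × ℝ)), 0 < C ∧ 0 < g ∧ 0 < ν ∧
      (∀ e ∈ exps, 0 < e.1 ∧ e.1 < 1 ∧ 0 < e.2 ∧ e.2 < 1 ∧ 1 ≤ e.1 + e.2) ∧
      ∀ (β β' x : ℝ) (F F' f f' : ℕ → ℝ) (V W : Finset ℕ) (k : ℕ → ℕ) (Y : ℕ),
        0 < x → C * x ≤ 1 → x ^ (-(M : ℝ)) ≤ (Y : ℝ) → Real.log Y ≤ x ^ (-ν) →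
        Pool F f V k Y → Pool F' f' W k Y →
        ∑ v ∈ V, ∑ w ∈ W.filter (fun w => BadPair β β' x f f' k Y v w), F v * F' w ≤
          C * x ^ (1 + g) *
            (exps.map fun e => (∑ v ∈ V, F v) ^ e.1 * (∑ w ∈ W, F' w) ^ e.2).sum := by
  obtain ⟨CB, hCB, hbox⟩ := exists_boxes_le
  obtain ⟨CS, hCS, hside⟩ := exists_sides_le
  obtain ⟨CD, hCD, hdiv⟩ := exists_divPart_le
  obtain ⟨CG, hCG, hbig⟩ := exists_bigPart_le
  set e0 : ℝ := 1 / 10 ^ 6 with he0
  refine ⟨2 + CB + 2 * CS + 2 * CD + CG, 3 * gainL, 1 / 10 ^ 20, 20,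
    [(e0, 1 - e0), (1 - e0, e0), (1 - e0, 1 - e0)], by positivity, by norm_num [gainL],
    by norm_num, ?_, ?_⟩
  · intro e he
    fin_cases he <;> norm_num [he0]
  intro β β' x F F' f f' V W k Y hx hCx hY hlogY hV hW
  have hsmall : ∀ c : ℝ, c ≤ 2 + CB + 2 * CS + 2 * CD + CG → c * x ≤ 1 := fun c hc =>
    le_trans (mul_le_mul_of_nonneg_right hc hx.le) hCx
  set m := ∑ v ∈ V, F v with hm
  set m' := ∑ w ∈ W, F' w with hm'
  have hmn : 0 ≤ m := Finset.sum_nonneg fun v _ => hV.F_nonneg v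
  have hmn' : 0 ≤ m' := Finset.sum_nonneg fun w _ => hW.F_nonneg w
  have hgs : (List.map (fun e : ℝ × ℝ => m ^ e.1 * m' ^ e.2)
      [(e0, 1 - e0), (1 - e0, e0), (1 - e0, 1 - e0)]).sum = gainShape m m' := by
    simp only [List.map_cons, List.map_nil, List.sum_cons, List.sum_nil, gainShape, he0,
      Real.mul_rpow hmn hmn']
    ring
  rw [hgs]
  have hG := gainShape_nonneg hmn hmn'
  have h2x : 2 * x ≤ 1 := hsmall 2 (by linarith)
  have hx1 : x ≤ 1 := by linarith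
  have hY' : x ^ (-(20 : ℝ)) ≤ (Y : ℝ) := by exact_mod_cast hY
  have hY2 : 2 ≤ Y := by
    have h1 : (2 : ℝ) ≤ x ^ (-(20 : ℝ)) := by
      rw [Real.rpow_neg hx.le, ← one_div, le_one_div two_pos (by positivity)]
      calc x ^ (20 : ℝ) ≤ x ^ (1 : ℝ) := Real.rpow_le_rpow_of_exponent_ge hx hx1 (by norm_num)
        _ ≤ 1 / 2 := by rw [Real.rpow_one]; linarith
    exact_mod_cast h1.trans hY'
  set T : ℝ := x ^ (1 + 3 * gainL) * gainShape m m' with hT
  have h43 : x ^ (1 + 4 * gainL) ≤ x ^ (1 + 3 * gainL) :=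
    Real.rpow_le_rpow_of_exponent_ge hx hx1 (by norm_num [gainL])
  set R : ℕ → ℕ → Prop := fun v w => BadPair β β' x f f' k Y v w with hR
  set A : ℝ := x ^ (-(202 / 100 : ℝ)) with hA
  set LK : (ℕ → ℕ → Prop) → ℕ → ℕ → Prop := fun Q v w => Linked k Y v w ∧
    f v * (qd w v : ℝ) ≤ x ∧ f' w * (qd v w : ℝ) ≤ x ∧ Q v w with hLK
  have h2 : pairW F F' V W (LK fun v w => SideMem β' x (qd v w)) ≤ CS * T := by
    rw [hT, ← mul_assoc CS]
    exact hside β' x F F' f f' V W k Y hx (hsmall _ (by linarith)) hY' hV hW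
  have h3 : pairW F F' V W (LK fun v w => SideMem β x (qd w v)) ≤ CS * T := by
    rw [hT, ← mul_assoc CS, gainShape_comm]
    exact pairW_le_swap (P := SideMem β x)
      (hside β x F' F f' f W V k Y hx (hsmall _ (by linarith)) hY' hW hV)
  have h4 : pairW F F' V W (LK fun v w => DivMem β x (qd w v)) ≤ CD * T := by
    refine le_trans (le_of_eq ?_)
      (le_trans (hdiv β x F F' f f' V W k Y hx (hsmall _ (by linarith)) hY2 hV hW) ?_)
    · simp only [pairW, hLK]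
    · rw [hT, ← mul_assoc CD]; gcongr
  have h5 : pairW F F' V W (LK fun v w => DivMem β' x (qd v w)) ≤ CD * T := by
    refine pairW_le_swap' (P := DivMem β' x) (le_trans (le_of_eq ?_)
      (le_trans (hdiv β' x F' F f' f W V k Y hx (hsmall _ (by linarith)) hY2 hW hV) ?_))
    · simp only [pairW]
    · rw [hT, ← mul_assoc CD, gainShape_comm]; gcongr
  have h1 : pairW F F' V W (fun v w => R v w ∧ (qd w v : ℝ) * qd v w ≤ A) ≤ CB * T := by
    rw [hT, ← mul_assoc CB]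
    exact hbox β β' x F F' f f' V W k Y hx (hsmall _ (by linarith)) hY' hV hW
  have h6 : pairW F F' V W (fun v w => R v w ∧ A < (qd w v : ℝ) * (qd v w : ℝ) ∧
      ¬ ExcMem β' x (qd v w) ∧ ¬ ExcMem β x (qd w v)) ≤ CG * T := by
    refine le_trans (le_of_eq ?_) (le_trans (hbig β β' x F F' f f' V W k Y hx
      (hsmall _ (by linarith)) hY' (by exact_mod_cast hlogY) hV hW) ?_)
    · simp only [pairW, hR, hA]
    · rw [hT, ← mul_assoc CG]; gcongr
  have hF := hV.F_nonneg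
  have hF' := hW.F_nonneg
  have hcov : pairW F F' V W R ≤ pairW F F' V W (fun v w => R v w ∧ (qd w v : ℝ) * qd v w ≤ A) +
      (pairW F F' V W (LK fun v w => SideMem β' x (qd v w)) +
        (pairW F F' V W (LK fun v w => SideMem β x (qd w v)) +
          (pairW F F' V W (LK fun v w => DivMem β x (qd w v)) +
            (pairW F F' V W (LK fun v w => DivMem β' x (qd v w)) +
              pairW F F' V W (fun v w => R v w ∧ A < (qd w v : ℝ) * (qd v w : ℝ) ∧
                ¬ ExcMem β' x (qd v w) ∧ ¬ ExcMem β x (qd w v)))))) := by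
    refine (pairW_union_le hF hF' (A := fun v w => R v w ∧ (qd w v : ℝ) * qd v w ≤ A) (B := fun v w => LK (fun v w => SideMem β' x (qd v w)) v w ∨
      LK (fun v w => SideMem β x (qd w v)) v w ∨ LK (fun v w => DivMem β x (qd w v)) v w ∨
      LK (fun v w => DivMem β' x (qd v w)) v w ∨ (R v w ∧ A < (qd w v : ℝ) * (qd v w : ℝ) ∧
        ¬ ExcMem β' x (qd v w) ∧ ¬ ExcMem β x (qd w v))) ?_).trans ?_
    · intro v _ w _ h
      rcases le_or_gt ((qd w v : ℝ) * (qd v w : ℝ)) A with hb | hb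
      · exact Or.inl ⟨h, hb⟩
      refine Or.inr ?_
      obtain ⟨hl, hc, ha, -, -⟩ := id h
      by_cases e1 : ExcMem β' x (qd v w)
      · rcases excMem_iff.1 e1 with s | s
        · exact Or.inl ⟨hl, hc, ha, s⟩
        · exact Or.inr (Or.inr (Or.inr (Or.inl ⟨hl, hc, ha, s⟩)))
      by_cases e2 : ExcMem β x (qd w v)
      · rcases excMem_iff.1 e2 with s | s
        · exact Or.inr (Or.inl ⟨hl, hc, ha, s⟩)
        · exact Or.inr (Or.inr (Or.inl ⟨hl, hc, ha, s⟩))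
      exact Or.inr (Or.inr (Or.inr (Or.inr ⟨h, hb, e1, e2⟩)))
    refine add_le_add le_rfl ((pairW_union_le hF hF' fun v _ w _ h => h).trans ?_)
    refine add_le_add le_rfl ((pairW_union_le hF hF' fun v _ w _ h => h).trans ?_)
    refine add_le_add le_rfl ((pairW_union_le hF hF' fun v _ w _ h => h).trans ?_)
    exact add_le_add le_rfl (pairW_union_le hF hF' fun v _ w _ h => h)
  calc ∑ v ∈ V, ∑ w ∈ W.filter (fun w => BadPair β β' x f f' k Y v w), F v * F' w
      = pairW F F' V W R := rfl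
    _ ≤ CB * T + (CS * T + (CS * T + (CD * T + (CD * T + CG * T)))) :=
        hcov.trans (add_le_add h1 (add_le_add h2 (add_le_add h3 (add_le_add h4 (add_le_add h5 h6)))))
    _ = (CB + 2 * CS + 2 * CD + CG) * T := by ring
    _ ≤ (2 + CB + 2 * CS + 2 * CD + CG) * T :=
        mul_le_mul_of_nonneg_right (by linarith) (by positivity)
    _ = _ := by rw [hT]; ring

end Vale.Agent.P028.Lift
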