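import Vale.Agent.P028.Lift.Defs
import Vale.Agent.P028.BilinearAux

/-!
The elementary inequalities for the weight of a set of ratios.
-/

noncomputable section

namespace Vale.Agent.P028.Lift

open Finset

theorem qd_mul_gcd (v w : ℕ) : qd v w * Nat.gcd v w = v :=
  Nat.div_mul_cancel (Nat.gcd_dvd_left v w)

/-- The ratio data of a pair determine the second member from the first. -/
theorem mul_qd_eq (v w : ℕ) : w * qd v w = v * qd w v := by
  have h1 := qd_mul_gcd v w
  have h2 := qd_mul_gcd w v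
  rw [Nat.gcd_comm w v] at h2
  calc w * qd v w = qd w v * Nat.gcd v w * qd v w := by rw [h2]
    _ = qd v w * Nat.gcd v w * qd w v := by ring
    _ = v * qd w v := by rw [h1]

/-- A sum over pairs in which each first member has at most one partner. -/
private theorem sum_partner_le {F F' : ℕ → ℝ} {V W : Finset ℕ} {M : ℝ} (hF : ∀ v, 0 ≤ F v)
    (hM : ∀ w ∈ W, F' w ≤ M) (hM0 : 0 ≤ M) (hF' : ∀ w, 0 ≤ F' w) (P : ℕ → ℕ → Prop)
    [∀ v w, Decidable (P v w)]
    (huniq : ∀ v ∈ V, ∀ w ∈ W, ∀ w' ∈ W, P v w → P v w' → w = w') :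
    ∑ v ∈ V, ∑ w ∈ W.filter (fun w => P v w), F v * F' w ≤ M * ∑ v ∈ V, F v := by
  have _ := hF'
  rw [Finset.mul_sum]
  refine Finset.sum_le_sum fun v hv => ?_
  calc ∑ w ∈ W.filter (fun w => P v w), F v * F' w
      ≤ ∑ _w ∈ W.filter (fun w => P v w), F v * M :=
        Finset.sum_le_sum fun w hw =>
          mul_le_mul_of_nonneg_left (hM w (Finset.mem_filter.1 hw).1) (hF v)
    _ = ((W.filter (fun w => P v w)).card : ℝ) * (F v * M) := by
        rw [Finset.sum_const, nsmul_eq_mul]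
    _ ≤ 1 * (F v * M) := by
        refine mul_le_mul_of_nonneg_right ?_ (mul_nonneg (hF v) hM0)
        have h1 : (W.filter (fun w => P v w)).card ≤ 1 := by
          refine Finset.card_le_one.2 fun w hw w' hw' => ?_
          rw [Finset.mem_filter] at hw hw'
          exact huniq v hv w hw.1 w' hw'.1 hw.2 hw'.2
        exact_mod_cast h1
    _ = M * F v := by ring

/-- For one ratio the pairs form a matching. -/
theorem ratioWeight_le_card {F F' : ℕ → ℝ} {V W : Finset ℕ} {E1 E2 x : ℝ}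
    (h : Fams F F' V W E1 E2 x) (R : Finset (ℕ × ℕ)) :
    ratioWeight F F' V W R ≤
      R.card * (2 * x / max E1 E2) * ((∑ v ∈ V, F v) + ∑ w ∈ W, F' w) := by
  classical
  have hE1 : 0 < E1 := by linarith [h.half_le_E1]
  have hE2 : 0 < E2 := by linarith [h.half_le_E2]
  have hx := h.x_pos
  have hm : 0 ≤ ∑ v ∈ V, F v := Finset.sum_nonneg fun v _ => h.F_nonneg v
  have hm' : 0 ≤ ∑ w ∈ W, F' w := Finset.sum_nonneg fun w _ => h.F'_nonneg w
  have hsplit : ratioWeight F F' V W R = ∑ p ∈ R, ∑ v ∈ V,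
      ∑ w ∈ W.filter (fun w => (qd w v, qd v w) = p), F v * F' w := by
    rw [ratioWeight, Finset.sum_comm (s := R)]
    refine Finset.sum_congr rfl fun v _ => ?_
    rw [Finset.sum_filter]
    simp only [Finset.sum_filter]
    rw [Finset.sum_comm (s := R)]
    refine Finset.sum_congr rfl fun w _ => ?_
    rw [Finset.sum_ite_eq]
  have hone : ∀ p : ℕ × ℕ, ∑ v ∈ V, ∑ w ∈ W.filter (fun w => (qd w v, qd v w) = p), F v * F' w ≤
      2 * x / max E1 E2 * ((∑ v ∈ V, F v) + ∑ w ∈ W, F' w) := by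
    intro p
    have hL := sum_partner_le (V := V) h.F_nonneg h.F'_le (by positivity) h.F'_nonneg
      (fun v w => (qd w v, qd v w) = p) (by
        intro v hv w _ w' _ e e'
        have hd : 0 < qd v w := BilinearAux.qd_pos (h.pos_V v hv)
        have e1 := mul_qd_eq v w
        have e2 := mul_qd_eq v w'
        rw [← e] at e'
        simp only [Prod.mk.injEq] at e'
        rw [e'.1, e'.2, ← e1] at e2
        exact (Nat.eq_of_mul_eq_mul_right hd e2).symm)
    have hR' := sum_partner_le (V := W) (W := V) h.F'_nonneg h.F_le (by positivity) h.F_nonneg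
      (fun w v => (qd w v, qd v w) = p) (by
        intro w hw v _ v' _ e e'
        have hd : 0 < qd w v := BilinearAux.qd_pos (h.pos_W w hw)
        have e1 := mul_qd_eq w v
        have e2 := mul_qd_eq w v'
        rw [← e] at e'
        simp only [Prod.mk.injEq] at e'
        rw [e'.1, e'.2, ← e1] at e2
        exact (Nat.eq_of_mul_eq_mul_right hd e2).symm)
    rcases le_total E1 E2 with hle | hle
    · rw [max_eq_right hle]
      calc ∑ v ∈ V, ∑ w ∈ W.filter (fun w => (qd w v, qd v w) = p), F v * F' w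
          = ∑ w ∈ W, ∑ v ∈ V.filter (fun v => (qd w v, qd v w) = p), F' w * F v := by
            simp only [Finset.sum_filter]
            rw [Finset.sum_comm]
            refine Finset.sum_congr rfl fun w _ => Finset.sum_congr rfl fun v _ => ?_
            split_ifs <;> ring
        _ ≤ 2 * x / E2 * ∑ w ∈ W, F' w := hR'
        _ ≤ _ := mul_le_mul_of_nonneg_left (le_add_of_nonneg_left hm) (by positivity)
    · rw [max_eq_left hle]
      exact hL.trans (mul_le_mul_of_nonneg_left (le_add_of_nonneg_right hm') (by positivity))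
  rw [hsplit]
  refine (Finset.sum_le_sum fun p _ => hone p).trans (le_of_eq ?_)
  rw [Finset.sum_const, nsmul_eq_mul, mul_assoc]

/-- The matching bound in product shape. -/
theorem ratioWeight_le_card_prod {F F' : ℕ → ℝ} {V W : Finset ℕ} {E1 E2 x t : ℝ}
    (h : Fams F F' V W E1 E2 x) (R : Finset (ℕ × ℕ)) (ht0 : 0 ≤ t) (ht1 : t ≤ 1) :
    ratioWeight F F' V W R ≤
      R.card * (2 * x) * ((∑ v ∈ V, F v) / E1) ^ (1 - t) * ((∑ w ∈ W, F' w) / E2) ^ t := by
  classical
  have hE1 : 0 < E1 := by linarith [h.half_le_E1]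
  have hE2 : 0 < E2 := by linarith [h.half_le_E2]
  have hx := h.x_pos
  set m := ∑ v ∈ V, F v with hmd
  set m' := ∑ w ∈ W, F' w with hmd'
  have hm : 0 ≤ m := Finset.sum_nonneg fun v _ => h.F_nonneg v
  have hm' : 0 ≤ m' := Finset.sum_nonneg fun w _ => h.F'_nonneg w
  have hone : ∀ p : ℕ × ℕ, ∑ v ∈ V, ∑ w ∈ W.filter (fun w => (qd w v, qd v w) = p), F v * F' w ≤
      2 * x * ((m / E1) ^ (1 - t) * (m' / E2) ^ t) := by
    intro p
    set A := ∑ v ∈ V, ∑ w ∈ W.filter (fun w => (qd w v, qd v w) = p), F v * F' w with hA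
    have hA0 : 0 ≤ A := Finset.sum_nonneg fun v _ => Finset.sum_nonneg fun w _ =>
      mul_nonneg (h.F_nonneg v) (h.F'_nonneg w)
    have hL : A ≤ 2 * x * (m / E1) := by
      refine (sum_partner_le (V := V) h.F_nonneg h.F'_le (by positivity) h.F'_nonneg
        (fun v w => (qd w v, qd v w) = p) ?_).trans (le_of_eq (by rw [hmd]; ring))
      intro v hv w _ w' _ e e'
      have hd : 0 < qd v w := BilinearAux.qd_pos (h.pos_V v hv)
      have e1 := mul_qd_eq v w
      have e2 := mul_qd_eq v w'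
      rw [← e] at e'
      simp only [Prod.mk.injEq] at e'
      rw [e'.1, e'.2, ← e1] at e2
      exact (Nat.eq_of_mul_eq_mul_right hd e2).symm
    have hR' : A ≤ 2 * x * (m' / E2) := by
      refine le_trans (le_of_eq ?_) ((sum_partner_le (V := W) (W := V) h.F'_nonneg h.F_le
        (by positivity) h.F_nonneg (fun w v => (qd w v, qd v w) = p) ?_).trans
        (le_of_eq (by rw [hmd']; ring)))
      · simp only [hA, Finset.sum_filter]
        rw [Finset.sum_comm]
        refine Finset.sum_congr rfl fun w _ => Finset.sum_congr rfl fun v _ => ?_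
        split_ifs <;> ring
      · intro w hw v _ v' _ e e'
        have hd : 0 < qd w v := BilinearAux.qd_pos (h.pos_W w hw)
        have e1 := mul_qd_eq w v
        have e2 := mul_qd_eq w v'
        rw [← e] at e'
        simp only [Prod.mk.injEq] at e'
        rw [e'.1, e'.2, ← e1] at e2
        exact (Nat.eq_of_mul_eq_mul_right hd e2).symm
    have e : A = A ^ (1 - t) * A ^ t := by
      rw [← Real.rpow_add' hA0 (by norm_num), sub_add_cancel, Real.rpow_one]
    rw [e]
    refine (mul_le_mul (Real.rpow_le_rpow hA0 hL (by linarith)) (Real.rpow_le_rpow hA0 hR' ht0)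
      (Real.rpow_nonneg hA0 _) (Real.rpow_nonneg (by positivity) _)).trans (le_of_eq ?_)
    rw [Real.mul_rpow (by positivity) (div_nonneg hm hE1.le),
      Real.mul_rpow (by positivity) (div_nonneg hm' hE2.le), mul_mul_mul_comm,
      ← Real.rpow_add' (by positivity) (by norm_num), sub_add_cancel, Real.rpow_one]
  have hsplit : ratioWeight F F' V W R = ∑ p ∈ R, ∑ v ∈ V,
      ∑ w ∈ W.filter (fun w => (qd w v, qd v w) = p), F v * F' w := by
    rw [ratioWeight, Finset.sum_comm (s := R)]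
    refine Finset.sum_congr rfl fun v _ => ?_
    rw [Finset.sum_filter]
    simp only [Finset.sum_filter]
    rw [Finset.sum_comm (s := R)]
    refine Finset.sum_congr rfl fun w _ => ?_
    rw [Finset.sum_ite_eq]
  rw [hsplit]
  refine (Finset.sum_le_sum fun p _ => hone p).trans (le_of_eq ?_)
  rw [Finset.sum_const, nsmul_eq_mul]
  ring

/-- `∑ g, G(g) ^ 2` is at most `qForm`. -/
private theorem sum_sq_le_qForm (F : ℕ → ℝ) (hF : ∀ v, 0 ≤ F v) (V B Gs : Finset ℕ)
    (hB : ∀ a ∈ B, 0 < a) :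
    ∑ g ∈ Gs, (∑ a ∈ B, if g * a ∈ V then F (g * a) else 0) ^ 2 ≤ qForm F V B := by
  classical
  have e : ∀ g, (∑ a ∈ B, if g * a ∈ V then F (g * a) else 0) ^ 2 =
      ∑ a ∈ B, ∑ a' ∈ B, (if g * a ∈ V ∧ g * a' ∈ V then F (g * a) * F (g * a') else 0) := by
    intro g
    rw [sq, Finset.sum_mul_sum]
    refine Finset.sum_congr rfl fun a _ => Finset.sum_congr rfl fun a' _ => ?_
    split_ifs <;> simp_all
  rw [Finset.sum_congr rfl fun g _ => e g, Finset.sum_comm, qForm]
  refine Finset.sum_le_sum fun a ha => ?_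
  rw [Finset.sum_comm]
  refine Finset.sum_le_sum fun a' _ => ?_
  rw [← Finset.sum_filter]
  calc ∑ g ∈ Gs.filter (fun g => g * a ∈ V ∧ g * a' ∈ V), F (g * a) * F (g * a')
      = ∑ g ∈ Gs.filter (fun g => g * a ∈ V ∧ g * a' ∈ V),
          F (g * a) * F (g * a / a * a') := by
        refine Finset.sum_congr rfl fun g _ => ?_
        rw [Nat.mul_div_cancel g (hB a ha)]
    _ = ∑ v ∈ (Gs.filter (fun g => g * a ∈ V ∧ g * a' ∈ V)).image (fun g => g * a),
          F v * F (v / a * a') := by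
        rw [Finset.sum_image]
        intro g _ g' _ hg
        exact Nat.eq_of_mul_eq_mul_right (hB a ha) hg
    _ ≤ _ := by
        refine Finset.sum_le_sum_of_subset_of_nonneg ?_ (fun v _ _ => mul_nonneg (hF _) (hF _))
        intro v hv
        obtain ⟨g, hg, rfl⟩ := Finset.mem_image.1 hv
        rw [Finset.mem_filter] at hg ⊢
        refine ⟨hg.2.1, Dvd.intro_left g rfl, ?_⟩
        rw [Nat.mul_div_cancel g (hB a ha)]
        exact hg.2.2

/-- Cauchy's inequality through the common part `g`. -/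
theorem ratioWeight_le_qForm {F F' : ℕ → ℝ} {V W : Finset ℕ} {E1 E2 x : ℝ}
    (h : Fams F F' V W E1 E2 x) (R : Finset (ℕ × ℕ)) (B2 B1 : Finset ℕ)
    (hR : ∀ p ∈ R, p.1 ∈ B2 ∧ p.2 ∈ B1) :
    ratioWeight F F' V W R ≤ Real.sqrt (qForm F V B1 * qForm F' W B2) := by
  classical
  set B1' := B1.filter (fun a => 0 < a) with hB1'
  set B2' := B2.filter (fun a => 0 < a) with hB2'
  set Gs := (V ×ˢ W).image (fun q => Nat.gcd q.1 q.2) with hGs
  set G1 : ℕ → ℝ := fun g => ∑ a ∈ B1', if g * a ∈ V then F (g * a) else 0 with hG1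
  set G2 : ℕ → ℝ := fun g => ∑ a ∈ B2', if g * a ∈ W then F' (g * a) else 0 with hG2
  have hG1' : ∀ g, 0 ≤ G1 g := fun g => Finset.sum_nonneg fun a _ => by
    split_ifs; exacts [h.F_nonneg _, le_rfl]
  have hG2' : ∀ g, 0 ≤ G2 g := fun g => Finset.sum_nonneg fun a _ => by
    split_ifs; exacts [h.F'_nonneg _, le_rfl]
  have hkey : ratioWeight F F' V W R ≤ ∑ g ∈ Gs, G1 g * G2 g := by
    set T := (V ×ˢ W).filter (fun q => (qd q.2 q.1, qd q.1 q.2) ∈ R) with hT
    set J : Finset (ℕ × ℕ × ℕ) := Gs ×ˢ (B1' ×ˢ B2') with hJ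
    set ι : ℕ × ℕ → ℕ × ℕ × ℕ := fun q => (Nat.gcd q.1 q.2, qd q.1 q.2, qd q.2 q.1) with hι
    set val : ℕ × ℕ × ℕ → ℝ := fun t =>
      (if t.1 * t.2.1 ∈ V then F (t.1 * t.2.1) else 0) *
        (if t.1 * t.2.2 ∈ W then F' (t.1 * t.2.2) else 0) with hval
    have e1 : ratioWeight F F' V W R = ∑ q ∈ T, F q.1 * F' q.2 := by
      rw [ratioWeight, hT, Finset.sum_filter, Finset.sum_product]
      simp only [Finset.sum_filter]
    have e2 : ∑ g ∈ Gs, G1 g * G2 g = ∑ t ∈ J, val t := by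
      rw [hJ, Finset.sum_product]
      refine Finset.sum_congr rfl fun g _ => ?_
      simp only [hG1, hG2, hval]
      rw [Finset.sum_mul_sum, Finset.sum_product]
    have hv1 : ∀ q : ℕ × ℕ, Nat.gcd q.1 q.2 * qd q.1 q.2 = q.1 := fun q => by
      rw [mul_comm, qd_mul_gcd]
    have hv2 : ∀ q : ℕ × ℕ, Nat.gcd q.1 q.2 * qd q.2 q.1 = q.2 := fun q => by
      rw [Nat.gcd_comm, mul_comm, qd_mul_gcd]
    rw [e1, e2]
    calc ∑ q ∈ T, F q.1 * F' q.2 = ∑ q ∈ T, val (ι q) := by
          refine Finset.sum_congr rfl fun q hq => ?_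
          rw [hT, Finset.mem_filter, Finset.mem_product] at hq
          simp only [hval, hι, hv1, hv2, if_pos hq.1.1, if_pos hq.1.2]
      _ = ∑ t ∈ T.image ι, val t := by
          rw [Finset.sum_image]
          intro q _ q' _ e
          simp only [hι, Prod.mk.injEq] at e
          refine Prod.ext ?_ ?_
          · rw [← hv1 q, ← hv1 q', e.1, e.2.1]
          · rw [← hv2 q, ← hv2 q', e.1, e.2.2]
      _ ≤ ∑ t ∈ J, val t := by
          refine Finset.sum_le_sum_of_subset_of_nonneg ?_ (fun t _ _ => by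
            simp only [hval]
            refine mul_nonneg ?_ ?_ <;> split_ifs
            exacts [h.F_nonneg _, le_rfl, h.F'_nonneg _, le_rfl])
          intro t ht
          obtain ⟨q, hq, rfl⟩ := Finset.mem_image.1 ht
          rw [hT, Finset.mem_filter, Finset.mem_product] at hq
          simp only [hJ, hι, Finset.mem_product, hB1', hB2', Finset.mem_filter, hGs]
          refine ⟨Finset.mem_image_of_mem _ (Finset.mem_product.2 hq.1), ⟨(hR _ hq.2).2, ?_⟩,
            ⟨(hR _ hq.2).1, ?_⟩⟩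
          · exact BilinearAux.qd_pos (h.pos_V _ hq.1.1)
          · exact BilinearAux.qd_pos (h.pos_W _ hq.1.2)
  have hs1 := sum_sq_le_qForm F h.F_nonneg V B1' Gs (fun a ha => (Finset.mem_filter.1 ha).2)
  have hs2 := sum_sq_le_qForm F' h.F'_nonneg W B2' Gs (fun a ha => (Finset.mem_filter.1 ha).2)
  have hmono : ∀ (G : ℕ → ℝ), (∀ v, 0 ≤ G v) → ∀ (U B : Finset ℕ),
      qForm G U (B.filter (fun a => 0 < a)) ≤ qForm G U B := by
    intro G hG U B
    have hnn : ∀ a a', 0 ≤ ∑ v ∈ U.filter (fun v => a ∣ v ∧ v / a * a' ∈ U),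
        G v * G (v / a * a') := fun a a' =>
      Finset.sum_nonneg fun v _ => mul_nonneg (hG _) (hG _)
    refine le_trans (Finset.sum_le_sum fun a _ => ?_)
      (Finset.sum_le_sum_of_subset_of_nonneg (Finset.filter_subset _ B) fun a _ _ =>
        Finset.sum_nonneg fun a' _ => hnn a a')
    exact Finset.sum_le_sum_of_subset_of_nonneg (Finset.filter_subset _ B) fun a' _ _ => hnn a a'
  refine hkey.trans (Real.le_sqrt_of_sq_le ?_)
  refine (Finset.sum_mul_sq_le_sq_mul_sq Gs G1 G2).trans ?_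
  exact mul_le_mul (hs1.trans (hmono F h.F_nonneg V B1)) (hs2.trans (hmono F' h.F'_nonneg W B2))
    (Finset.sum_nonneg fun g _ => sq_nonneg _)
    (le_trans (Finset.sum_nonneg fun g _ => sq_nonneg _) (hs1.trans (hmono F h.F_nonneg V B1)))

/-- A small set. -/
theorem qForm_le_card {F : ℕ → ℝ} {V : Finset ℕ} {η : ℝ} (hF : ∀ v, 0 ≤ F v) (hη : 0 ≤ η)
    (hle : ∀ v ∈ V, F v ≤ η) (B : Finset ℕ) :
    qForm F V B ≤ (B.card : ℝ) ^ 2 * η * ∑ v ∈ V, F v := by
  rw [qForm]
  calc ∑ a ∈ B, ∑ a' ∈ B, ∑ v ∈ V.filter (fun v => a ∣ v ∧ v / a * a' ∈ V), F v * F (v / a * a')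
      ≤ ∑ _a ∈ B, ∑ _a' ∈ B, η * ∑ v ∈ V, F v := by
        refine Finset.sum_le_sum fun a _ => Finset.sum_le_sum fun a' _ => ?_
        rw [Finset.mul_sum]
        refine le_trans (Finset.sum_le_sum fun v hv => ?_)
          (Finset.sum_le_sum_of_subset_of_nonneg (Finset.filter_subset _ V) fun v _ _ =>
            mul_nonneg hη (hF v))
        rw [mul_comm η]
        exact mul_le_mul_of_nonneg_left (hle _ (Finset.mem_filter.1 hv).2.2) (hF v)
    _ = _ := by simp only [Finset.sum_const, nsmul_eq_mul]; ring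

/-- A subset of the multiples of `s`. -/
theorem exists_qForm_le_scaled :
    ∃ C : ℝ, 0 < C ∧ ∀ (F : ℕ → ℝ) (V B : Finset ℕ) (η Lam m E : ℝ) (s : ℕ),
      (∀ v ∈ V, 0 < v) → (∀ v, 0 ≤ F v) → 0 ≤ η → 0 ≤ Lam → 0 ≤ m → 1 / 2 ≤ E → 0 < s →
      SelfBound F V η (4 * E) Lam m →
      (∀ a ∈ B, E < (a : ℝ) ∧ (a : ℝ) ≤ 2 * E ∧ s ∣ a) →
      qForm F V B ≤ C * Lam * Real.log (2 + E) * (η * E / s) * m := by
  refine ⟨40, by norm_num, ?_⟩
  intro F V B η Lam m E s hpos hF hη hLam hm hE hs hself hB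
  classical
  set cnt : ℕ → ℕ → ℕ := fun v v' =>
    ((B ×ˢ B).filter (fun b => b.1 ∣ v ∧ v / b.1 * b.2 = v')).card with hcnt
  have hre : qForm F V B = ∑ v ∈ V, ∑ v' ∈ V, (cnt v v' : ℝ) * (F v * F v') := by
    have e : ∀ v v', (cnt v v' : ℝ) * (F v * F v') =
        ∑ a ∈ B, ∑ a' ∈ B, if a ∣ v ∧ v / a * a' = v' then F v * F v' else 0 := fun v v' => by
      simp only [hcnt]
      rw [← Finset.sum_product', ← Finset.sum_filter, Finset.sum_const, nsmul_eq_mul]
    simp only [e, qForm]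
    calc ∑ a ∈ B, ∑ a' ∈ B, ∑ v ∈ V.filter (fun v => a ∣ v ∧ v / a * a' ∈ V),
          F v * F (v / a * a')
        = ∑ a ∈ B, ∑ a' ∈ B, ∑ v ∈ V, ∑ v' ∈ V,
            if a ∣ v ∧ v / a * a' = v' then F v * F v' else 0 := by
          refine Finset.sum_congr rfl fun a _ => Finset.sum_congr rfl fun a' _ => ?_
          rw [Finset.sum_filter]
          refine Finset.sum_congr rfl fun v _ => ?_
          by_cases ha : a ∣ v
          · simp only [ha, true_and]
            rw [Finset.sum_ite_eq]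
          · simp [ha]
      _ = _ := by
          rw [Finset.sum_comm_cycle]
          refine Finset.sum_congr rfl fun v _ => ?_
          rw [Finset.sum_comm_cycle]
  set N := Nat.log 2 ⌊2 * E⌋₊ + 1 with hN
  have hs' : (0 : ℝ) < s := by exact_mod_cast hs
  have hcount : ∀ v ∈ V, ∀ v' ∈ V, (cnt v v' : ℝ) * (F v * F v') ≤
      ∑ i ∈ Finset.range N, if (qd v' v : ℝ) ≤ 2 ^ (i + 1) ∧ (qd v v' : ℝ) ≤ 2 ^ (i + 1)
        then 2 * E / (s * 2 ^ i) * (F v * F v') else 0 := by
    intro v hv v' hv'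
    have hnn : ∀ i ∈ Finset.range N, 0 ≤ if (qd v' v : ℝ) ≤ 2 ^ (i + 1) ∧
        (qd v v' : ℝ) ≤ 2 ^ (i + 1) then 2 * E / (s * 2 ^ i) * (F v * F v') else 0 := fun i _ => by
      split_ifs
      · exact mul_nonneg (by positivity) (mul_nonneg (hF v) (hF v'))
      · exact le_rfl
    rcases Nat.eq_zero_or_pos (cnt v v') with h0 | h0
    · rw [h0, Nat.cast_zero, zero_mul]
      exact Finset.sum_nonneg hnn
    set H := max (qd v v') (qd v' v) with hH
    have hH0 : 0 < H := lt_max_of_lt_left (BilinearAux.qd_pos (hpos v hv))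
    have hmem : ∀ b ∈ (B ×ˢ B).filter (fun b => b.1 ∣ v ∧ v / b.1 * b.2 = v'),
        b.1 = qd v v' * Nat.gcd b.1 b.2 ∧ b.2 = qd v' v * Nat.gcd b.1 b.2 ∧
          s ∣ Nat.gcd b.1 b.2 ∧ H * Nat.gcd b.1 b.2 ≤ ⌊2 * E⌋₊ := by
      intro b hb
      rw [Finset.mem_filter, Finset.mem_product] at hb
      obtain ⟨⟨h1, h2⟩, hd, heq⟩ := hb
      have ha0 : 0 < b.1 := Nat.pos_of_dvd_of_pos hd (hpos v hv)
      have hb0 : 0 < b.2 := by
        rcases Nat.eq_zero_or_pos b.2 with h | h
        · rw [h, mul_zero] at heq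
          exact absurd heq.symm (hpos v' hv').ne'
        · exact h
      have hg : 0 < v / b.1 := Nat.div_pos (Nat.le_of_dvd (hpos v hv) hd) ha0
      have hv1 : v / b.1 * b.1 = v := Nat.div_mul_cancel hd
      have hgcd : Nat.gcd v v' = v / b.1 * Nat.gcd b.1 b.2 := by
        have h := Nat.gcd_mul_left (v / b.1) b.1 b.2
        rwa [hv1, heq] at h
      have f1 : b.1 = qd v v' * Nat.gcd b.1 b.2 := by
        refine Nat.eq_of_mul_eq_mul_left hg ?_
        rw [hv1]
        calc v = qd v v' * Nat.gcd v v' := (qd_mul_gcd v v').symm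
          _ = _ := by rw [hgcd]; ring
      have f2 : b.2 = qd v' v * Nat.gcd b.1 b.2 := by
        refine Nat.eq_of_mul_eq_mul_left hg ?_
        rw [heq]
        calc v' = qd v' v * Nat.gcd v' v := (qd_mul_gcd v' v).symm
          _ = _ := by rw [Nat.gcd_comm v' v, hgcd]; ring
      refine ⟨f1, f2, Nat.dvd_gcd (hB _ h1).2.2 (hB _ h2).2.2, Nat.le_floor ?_⟩
      rcases max_cases (qd v v') (qd v' v) with ⟨e, _⟩ | ⟨e, _⟩
      · rw [hH, e, ← f1]; exact (hB _ h1).2.1
      · rw [hH, e, ← f2]; exact (hB _ h2).2.1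
    obtain ⟨b0, hb0⟩ := Finset.card_pos.1 h0
    have hHle : H ≤ ⌊2 * E⌋₊ := by
      obtain ⟨e1, -, -, e4⟩ := hmem b0 hb0
      refine le_trans (Nat.le_mul_of_pos_right H ?_) e4
      rcases Nat.eq_zero_or_pos (Nat.gcd b0.1 b0.2) with h | h
      · rw [h, mul_zero] at e1
        have := (hB _ (Finset.mem_product.1 (Finset.mem_filter.1 hb0).1).1).1
        rw [e1, Nat.cast_zero] at this
        linarith
      · exact h
    have hpos_gcd : ∀ b ∈ (B ×ˢ B).filter (fun b => b.1 ∣ v ∧ v / b.1 * b.2 = v'),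
        0 < Nat.gcd b.1 b.2 := fun b hb => Nat.gcd_pos_of_pos_left _
      (Nat.pos_of_dvd_of_pos (Finset.mem_filter.1 hb).2.1 (hpos v hv))
    have hc : cnt v v' ≤ ((Finset.Ioc 0 (⌊2 * E⌋₊ / H)).filter (fun t => s ∣ t)).card := by
      refine Finset.card_le_card_of_injOn (fun b => Nat.gcd b.1 b.2) ?_ ?_
      · intro b hb
        obtain ⟨-, -, e3, e4⟩ := hmem b hb
        exact Finset.mem_filter.2 ⟨Finset.mem_Ioc.2 ⟨hpos_gcd b hb,
          (Nat.le_div_iff_mul_le hH0).2 (by rw [mul_comm]; exact e4)⟩, e3⟩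
      · intro b hb b' hb' e
        obtain ⟨e1, e2, -, -⟩ := hmem b hb
        obtain ⟨e1', e2', -, -⟩ := hmem b' hb'
        simp only at e
        refine Prod.ext ?_ ?_
        · rw [e1, e1', e]
        · rw [e2, e2', e]
    set i := Nat.log 2 H with hi
    have hiN : i ∈ Finset.range N := Finset.mem_range.2
      (Nat.lt_succ_of_le (Nat.log_mono_right hHle))
    have hlt : (H : ℝ) ≤ 2 ^ (i + 1) := by
      exact_mod_cast (Nat.lt_pow_succ_log_self one_lt_two H).le
    have hge : (2 : ℝ) ^ i ≤ H := by exact_mod_cast Nat.pow_log_le_self 2 hH0.ne'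
    refine le_trans ?_ (Finset.single_le_sum hnn hiN)
    rw [if_pos ⟨le_trans (by exact_mod_cast le_max_right (qd v v') (qd v' v)) hlt,
      le_trans (by exact_mod_cast le_max_left (qd v v') (qd v' v)) hlt⟩]
    refine mul_le_mul_of_nonneg_right ?_ (mul_nonneg (hF v) (hF v'))
    rw [Nat.Ioc_filter_dvd_card_eq_div] at hc
    calc (cnt v v' : ℝ) ≤ ((⌊2 * E⌋₊ / H / s : ℕ) : ℝ) := by exact_mod_cast hc
      _ ≤ (⌊2 * E⌋₊ : ℝ) / H / s := by
          refine Nat.cast_div_le.trans ?_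
          gcongr
          exact Nat.cast_div_le
      _ ≤ 2 * E / (2 : ℝ) ^ i / s := by
          gcongr
          exact Nat.floor_le (by linarith)
      _ = _ := by rw [div_div, mul_comm ((2 : ℝ) ^ i)]
  rw [hre]
  calc ∑ v ∈ V, ∑ v' ∈ V, (cnt v v' : ℝ) * (F v * F v')
      ≤ ∑ i ∈ Finset.range N, 2 * E / (s * 2 ^ i) *
          (∑ v ∈ V, ∑ v' ∈ V.filter (fun v' => (qd v' v : ℝ) ≤ 2 ^ (i + 1) ∧
            (qd v v' : ℝ) ≤ 2 ^ (i + 1)), F v * F v') := by
        refine le_trans (Finset.sum_le_sum fun v hv => Finset.sum_le_sum (hcount v hv)) ?_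
        simp only [Finset.mul_sum, Finset.sum_filter, mul_ite, mul_zero]
        refine le_of_eq (Eq.trans (Finset.sum_congr rfl fun v _ => Finset.sum_comm) ?_)
        exact Finset.sum_comm
    _ ≤ ∑ _i ∈ Finset.range N, 4 * Lam * (η * E / s) * m := by
        refine Finset.sum_le_sum fun i hi => ?_
        have hi4 : (2 : ℝ) ^ (i + 1) ≤ 4 * E := by
          have hfl : 1 ≤ ⌊2 * E⌋₊ := Nat.le_floor (by push_cast; linarith)
          have h1 : (2 : ℕ) ^ i ≤ ⌊2 * E⌋₊ :=
            le_trans (Nat.pow_le_pow_right (by norm_num)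
              (Nat.lt_succ_iff.1 (Finset.mem_range.1 hi)))
              (Nat.pow_log_le_self 2 (Nat.one_le_iff_ne_zero.1 hfl))
          have h2 : (2 : ℝ) ^ i ≤ (⌊2 * E⌋₊ : ℝ) := by exact_mod_cast h1
          have h3 := Nat.floor_le (show (0 : ℝ) ≤ 2 * E by linarith)
          rw [pow_succ]
          linarith
        refine le_trans (mul_le_mul_of_nonneg_left (hself _ (by positivity) hi4) (by positivity))
          (le_of_eq ?_)
        rw [pow_succ]
        field_simp
        ring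
    _ = (N : ℝ) * (4 * Lam * (η * E / s) * m) := by
        rw [Finset.sum_const, Finset.card_range, nsmul_eq_mul]
    _ ≤ (10 * Real.log (2 + E)) * (4 * Lam * (η * E / s) * m) := by
        refine mul_le_mul_of_nonneg_right ?_ (by positivity)
        have hfl : 1 ≤ ⌊2 * E⌋₊ := Nat.le_floor (by push_cast; linarith)
        have h1 : (2 : ℝ) ^ (Nat.log 2 ⌊2 * E⌋₊) ≤ (2 + E) ^ 2 := by
          have hp : (2 : ℝ) ^ (Nat.log 2 ⌊2 * E⌋₊) ≤ (⌊2 * E⌋₊ : ℝ) := by
            exact_mod_cast Nat.pow_log_le_self 2 (Nat.one_le_iff_ne_zero.1 hfl)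
          refine le_trans hp ?_
          exact (Nat.floor_le (by linarith)).trans (by nlinarith)
        have h2 := Real.log_le_log (by positivity) h1
        rw [Real.log_pow, Real.log_pow] at h2
        push_cast at h2
        have h3 : (0.69 : ℝ) < Real.log 2 := by linarith [Real.log_two_gt_d9]
        have h4 : Real.log 2 ≤ Real.log (2 + E) := Real.log_le_log (by norm_num) (by linarith)
        simp only [hN, Nat.cast_add, Nat.cast_one]
        nlinarith [Nat.cast_nonneg (α := ℝ) (Nat.log 2 ⌊2 * E⌋₊)]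
    _ = _ := by ring

end Vale.Agent.P028.Lift
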