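import Vale.Agent.P028.Rec
import Vale.Agent.P028.Lift.BilPool
import Vale.Agent.P028.Lift.Sums

/-!
Pairs inside one family whose ratio data have divisors in a set which is sparse on progressions:
in a final state one of the four variables lies in few progressions.
-/

noncomputable section

namespace Vale.Agent.P028.Lift.SideSelfAux

open Finset BilinearAux

/-- `S` lies in the interval `e < a ≤ 2 e` and has at most `κ e / r` multiples of `r`, as long as `r P0 ≤ 2 e`. -/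
structure Sparse (S : Finset ℕ) (e P0 κ : ℝ) : Prop where
  lower : ∀ a ∈ S, e < (a : ℝ)
  upper : ∀ a ∈ S, (a : ℝ) ≤ 2 * e
  thin : ∀ r : ℕ, 0 < r → (r : ℝ) * P0 ≤ 2 * e →
    ((S.filter (fun a => r ∣ a)).card : ℝ) ≤ κ * (e / r)

/-- `z` has a factor at least `P0` which lifts by a divisor of `n` to a member of `S`. -/
def Piece (S : Finset ℕ) (P0 : ℝ) (n z : ℕ) : Prop :=
  ∃ a ∈ S, P0 ≤ (Nat.gcd a z : ℝ) ∧ a / Nat.gcd a z ∣ n

/-- The support of a kernel. -/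
def Supp (f : ℕ → ℝ) (r : ℝ) (D0 : ℕ) (S : Finset ℕ) (v w : ℕ) : Prop :=
  f v * (qd w v : ℝ) ≤ r ∧ f w * (qd v w : ℝ) ≤ r ∧ qd w v ≤ D0 ∧ qd v w ≤ D0 ∧
    (∃ a ∈ S, a ∣ qd w v) ∧ ∃ a ∈ S, a ∣ qd v w

theorem Supp.symm {f : ℕ → ℝ} {r : ℝ} {D0 : ℕ} {S : Finset ℕ} {v w : ℕ}
    (h : Supp f r D0 S v w) : Supp f r D0 S w v := by
  obtain ⟨h1, h2, h3, h4, h5, h6⟩ := h
  exact ⟨h2, h1, h4, h3, h6, h5⟩

theorem div_gcd_dvd {a z n : ℕ} (ha : 0 < a) (h : a ∣ z * n) : a / Nat.gcd a z ∣ n := by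
  rw [Nat.div_dvd_iff_dvd_mul (Nat.gcd_dvd_left a z) (Nat.gcd_pos_of_pos_left z ha)]
  exact (Nat.dvd_gcd dvd_rfl h).trans
    ((gcd_mul_dvd_mul_gcd a z n).trans (mul_dvd_mul_left _ (Nat.gcd_dvd_right a n)))

/-- A block of positive numbers with pieces has density `2 τ κ`. -/
theorem piece_block_le {S : Finset ℕ} {e P0 κ : ℝ} (hS : Sparse S e P0 κ) (he : 0 < e)
    (hκ : 0 ≤ κ) (n : ℕ) (hn : 0 < n) {τ : ℝ} (hτ : (n.divisors.card : ℝ) ≤ τ) (T : Finset ℕ)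
    (hT : ∀ z ∈ T, 0 < z ∧ Piece S P0 n z) (j : ℕ) :
    ((T.filter (fun z => Nat.log 2 z = j)).card : ℝ) ≤ 2 * τ * κ * 2 ^ j := by
  classical
  set Dv := n.divisors.filter (fun r : ℕ => (r : ℝ) * P0 ≤ 2 * e) with hDv
  have hsub : T.filter (fun z => Nat.log 2 z = j) ⊆ Dv.biUnion fun r =>
      (S.filter (fun a => r ∣ a)).biUnion fun a =>
        (Finset.Ioc 0 (2 ^ (j + 1))).filter (fun z => a / r ∣ z) := by
    intro z hz
    obtain ⟨hzT, hlog⟩ := Finset.mem_filter.1 hz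
    obtain ⟨hz0, a, ha, hP, hdvd⟩ := hT z hzT
    have ha0 : 0 < a := by exact_mod_cast he.trans (hS.lower a ha)
    set g := Nat.gcd a z with hg
    have hg0 : 0 < g := Nat.gcd_pos_of_pos_left z ha0
    have hga : g ∣ a := Nat.gcd_dvd_left a z
    have hr0 : 0 < a / g := Nat.div_pos (Nat.le_of_dvd ha0 hga) hg0
    have hag : a / (a / g) = g := Nat.div_div_self hga ha0.ne'
    simp only [Finset.mem_biUnion, Finset.mem_filter, hDv, Nat.mem_divisors]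
    refine ⟨a / g, ⟨⟨hdvd, hn.ne'⟩, ?_⟩, a, ⟨ha, Nat.div_dvd_of_dvd hga⟩,
      Finset.mem_Ioc.2 ⟨hz0, ?_⟩, ?_⟩
    · refine le_trans (mul_le_mul_of_nonneg_left hP (Nat.cast_nonneg _)) ?_
      rw [← Nat.cast_mul, Nat.div_mul_cancel hga]
      exact hS.upper a ha
    · exact (hlog ▸ Nat.lt_pow_succ_log_self one_lt_two z).le
    · rw [hag]; exact Nat.gcd_dvd_right a z
  have h1 : ((T.filter (fun z => Nat.log 2 z = j)).card : ℝ) ≤
      ∑ r ∈ Dv, ∑ a ∈ S.filter (fun a => r ∣ a), (2 : ℝ) ^ (j + 1) * (r / e) := by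
    refine (Nat.cast_le.2 (Finset.card_le_card hsub)).trans ?_
    refine (Nat.cast_le.2 Finset.card_biUnion_le).trans ?_
    rw [Nat.cast_sum]
    refine Finset.sum_le_sum fun r hr => ?_
    refine (Nat.cast_le.2 Finset.card_biUnion_le).trans ?_
    rw [Nat.cast_sum]
    refine Finset.sum_le_sum fun a ha => ?_
    obtain ⟨haS, hra⟩ := Finset.mem_filter.1 ha
    have hr0 : (0 : ℝ) < r := by
      exact_mod_cast Nat.pos_of_mem_divisors (Finset.mem_filter.1 hr).1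
    have hea := hS.lower a haS
    rw [Nat.Ioc_filter_dvd_card_eq_div]
    refine Nat.cast_div_le.trans ?_
    rw [Nat.cast_div hra hr0.ne', div_div_eq_mul_div, mul_div_assoc, Nat.cast_pow, Nat.cast_ofNat]
    exact mul_le_mul_of_nonneg_left
      (div_le_div_of_nonneg_left hr0.le he hea.le) (by positivity)
  refine h1.trans ?_
  have h2 : ∀ r ∈ Dv, ∑ a ∈ S.filter (fun a => r ∣ a), (2 : ℝ) ^ (j + 1) * (r / e) ≤
      2 * κ * 2 ^ j := by
    intro r hr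
    obtain ⟨hrn, hrP⟩ := Finset.mem_filter.1 hr
    have hr0 : (0 : ℝ) < r := by exact_mod_cast Nat.pos_of_mem_divisors hrn
    rw [Finset.sum_const, nsmul_eq_mul]
    refine (mul_le_mul_of_nonneg_right (hS.thin r (Nat.pos_of_mem_divisors hrn) hrP)
      (by positivity)).trans_eq ?_
    rw [pow_succ]
    field_simp
  refine (Finset.sum_le_card_nsmul Dv _ _ h2).trans ?_
  rw [nsmul_eq_mul]
  refine (mul_le_mul_of_nonneg_right ((Nat.cast_le.2 (Finset.card_filter_le _ _)).trans hτ)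
    (by positivity)).trans_eq (by ring)

/-- One of four variables carries a piece. -/
theorem exists_piece {e P0 : ℝ} (he : 0 < e) (hP0 : 0 ≤ P0) {A A' Q a d R c b : ℕ}
    (hA : e < (A : ℝ)) (hA' : e < (A' : ℝ))
    (hpos : 0 < Q ∧ 0 < R ∧ 0 < a ∧ 0 < d ∧ 0 < c ∧ 0 < b)
    (h : A ∣ R * (c * b)) (h' : A' ∣ Q * (a * d))
    (hsmall : ((Q * R : ℕ) : ℝ) * P0 ^ 4 ≤ e ^ 2) :
    P0 ≤ (Nat.gcd A c : ℝ) ∨ P0 ≤ (Nat.gcd A b : ℝ) ∨ P0 ≤ (Nat.gcd A' a : ℝ) ∨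
      P0 ≤ (Nat.gcd A' d : ℝ) := by
  obtain ⟨hQ, hR, ha, hd, hc, hb⟩ := hpos
  have hA0 : 0 < A := by exact_mod_cast he.trans hA
  have hA0' : 0 < A' := by exact_mod_cast he.trans hA'
  have key : ∀ {A R c b : ℕ}, 0 < A → 0 < R → A ∣ R * (c * b) →
      (A : ℝ) ≤ (R : ℝ) * ((Nat.gcd A c : ℝ) * Nat.gcd A b) := by
    intro A R c b hA hR h
    have h1 : A ∣ R * (Nat.gcd A c * Nat.gcd A b) :=
      (Nat.dvd_gcd dvd_rfl h).trans ((gcd_mul_dvd_mul_gcd A R (c * b)).trans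
        (mul_dvd_mul (Nat.gcd_dvd_right A R) (gcd_mul_dvd_mul_gcd A c b)))
    have h2 := Nat.le_of_dvd (Nat.mul_pos hR (Nat.mul_pos (Nat.gcd_pos_of_pos_left c hA)
      (Nat.gcd_pos_of_pos_left b hA))) h1
    exact_mod_cast h2
  have k1 := key hA0 hR h
  have k2 := key hA0' hQ h'
  by_contra hcon
  push Not at hcon
  obtain ⟨h1, h2, h3, h4⟩ := hcon
  have e1 : (A : ℝ) * A' ≤ ((Q * R : ℕ) : ℝ) * P0 ^ 4 := by
    refine (mul_le_mul k1 k2 (Nat.cast_nonneg _) (by positivity)).trans ?_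
    push_cast
    calc (R : ℝ) * ((Nat.gcd A c : ℝ) * Nat.gcd A b) * ((Q : ℝ) * ((Nat.gcd A' a : ℝ) * Nat.gcd A' d))
        ≤ (R : ℝ) * (P0 * P0) * ((Q : ℝ) * (P0 * P0)) := by gcongr
      _ = _ := by ring
  nlinarith [mul_lt_mul'' hA hA' he.le he.le]

theorem downDev_mem_centreY {U : Finset ℕ} (hU : ∀ p ∈ U, p.Prime) (k : ℕ → ℕ) (Y v : ℕ)
    (h : ∀ p ∈ (downDev U k v).primeFactors, p ≤ Y) :
    downDev U k v ∈ (centreY U k Y).divisors := by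
  have hU' : ∀ p ∈ U.filter (fun p => p ≤ Y), p.Prime := fun p hp => hU p (Finset.mem_filter.1 hp).1
  refine Nat.mem_divisors.2 ⟨?_, (prodPow_pos hU' k).ne'⟩
  refine (Nat.factorization_le_iff_dvd (downDev_pos hU k v).ne' (prodPow_pos hU' k).ne').1 fun p => ?_
  by_cases h0 : (downDev U k v).factorization p = 0
  · omega
  have hpY : p ≤ Y := h p (by rw [← Nat.support_factorization, Finsupp.mem_support_iff]; exact h0)
  rw [downDev, factorization_prodPow hU] at h0 ⊢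
  change _ ≤ (∏ q ∈ U.filter (fun q => q ≤ Y), q ^ k q).factorization p
  rw [factorization_prodPow hU']
  by_cases hp : p ∈ U
  · rw [if_pos (Finset.mem_filter.2 ⟨hp, hpY⟩), if_pos hp]; omega
  · rw [if_neg hp] at h0; exact absurd rfl h0

theorem pDown_nonneg (N d : ℕ) : 0 ≤ pDown N d := by unfold pDown; positivity

theorem pDown_le (N d : ℕ) : pDown N d ≤ 1 / (Nat.totient d : ℝ) := by
  rw [pDown]
  exact div_le_div_of_nonneg_right (div_le_one_of_le₀ (Nat.cast_le.2 (Nat.totient_le N))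
    (Nat.cast_nonneg N)) (Nat.cast_nonneg _)

/-- A sum over the members of a state factors through the two deviations. -/
theorem sum_dev_le {U W : Finset ℕ} {k : ℕ → ℕ}
    (hinj : Set.InjOn (fun w => (upDev U k w, downDev U k w)) W) (W' : Finset ℕ) (hsub : W' ⊆ W)
    (h g : ℕ → ℝ) (hh : ∀ c, 0 ≤ h c) (hg : ∀ d, 0 ≤ g d) {A B : ℝ} (hA0 : 0 ≤ A)
    (hA : ∑ d ∈ W'.image (downDev U k), g d ≤ A) (hB : ∑ c ∈ W'.image (upDev U k), h c ≤ B) :
    ∑ w ∈ W', g (downDev U k w) * h (upDev U k w) ≤ A * B := by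
  calc ∑ w ∈ W', g (downDev U k w) * h (upDev U k w)
      = ∑ q ∈ W'.image (fun w => (upDev U k w, downDev U k w)), g q.2 * h q.1 :=
        (Finset.sum_image (g := fun w => (upDev U k w, downDev U k w))
          (f := fun q : ℕ × ℕ => g q.2 * h q.1) (hinj.mono (by exact_mod_cast hsub))).symm
    _ ≤ ∑ q ∈ W'.image (upDev U k) ×ˢ W'.image (downDev U k), g q.2 * h q.1 := by
        refine Finset.sum_le_sum_of_subset_of_nonneg ?_ fun q _ _ => mul_nonneg (hg _) (hh _)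
        intro q hq
        obtain ⟨w, hw, rfl⟩ := Finset.mem_image.1 hq
        exact Finset.mem_product.2 ⟨Finset.mem_image_of_mem _ hw, Finset.mem_image_of_mem _ hw⟩
    _ = (∑ d ∈ W'.image (downDev U k), g d) * ∑ c ∈ W'.image (upDev U k), h c := by
        rw [Finset.sum_product, Finset.mul_sum]
        refine Finset.sum_congr rfl fun c _ => ?_
        rw [Finset.sum_mul]
    _ ≤ A * B := mul_le_mul hA hB (Finset.sum_nonneg fun c _ => hh c) hA0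

theorem block_one (T : Finset ℕ) (hT : ∀ z ∈ T, 0 < z) (j : ℕ) :
    ((T.filter (fun z => Nat.log 2 z = j)).card : ℝ) ≤ 1 * 2 ^ j := by
  have h : (T.filter (fun z => Nat.log 2 z = j)).card ≤ (Finset.Ico (2 ^ j) (2 ^ (j + 1))).card := by
    refine Finset.card_le_card fun z hz => ?_
    obtain ⟨hzT, hlog⟩ := Finset.mem_filter.1 hz
    exact Finset.mem_Ico.2 ⟨hlog ▸ Nat.pow_log_le_self 2 (hT z hzT).ne',
      hlog ▸ Nat.lt_pow_succ_log_self one_lt_two z⟩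
  rw [Nat.card_Ico, show 2 ^ (j + 1) - 2 ^ j = 2 ^ j by rw [pow_succ]; omega] at h
  rw [one_mul]
  exact_mod_cast h

/-- A kernel on a final state, supported on the pairs with `c ≤ a`. -/
structure HalfData (P W0 U V W : Finset ℕ) (i j k : ℕ → ℕ) (F f : ℕ → ℝ) (k0 : ℕ → ℕ) (Y D0 : ℕ)
    (r : ℝ) (S : Finset ℕ) (K : ℕ → ℕ → ℝ) : Prop where
  st : FinState P W0 U V W i j
  pool : Pool F f W0 k0 Y
  r_pos : 0 < r
  D_le : D0 ≤ Y
  K_nonneg : ∀ v w, 0 ≤ K v w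
  K_le : ∀ v w, K v w ≤ 1
  supp : ∀ v ∈ V, ∀ w ∈ W, K v w ≠ 0 →
    NoCoDev U k v w ∧ Supp f r D0 S v w ∧ upDev U k w ≤ upDev U k v

theorem HalfData.dev {P W0 U V W : Finset ℕ} {i j k : ℕ → ℕ} {F f : ℕ → ℝ} {k0 : ℕ → ℕ} {Y D0 : ℕ}
    {r : ℝ} {S : Finset ℕ} {K : ℕ → ℕ → ℝ} (hd : HalfData P W0 U V W i j k F f k0 Y D0 r S K)
    {v : ℕ} (hv : v ∈ V) {w : ℕ} (hw : w ∈ W) (hK : K v w ≠ 0) :
    qd v w = fixedPart (P \ U) i j * (upDev U k v * downDev U k w) ∧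
      qd w v = fixedPart (P \ U) j i * (upDev U k w * downDev U k v) ∧
      upDev U k v * downDev U k w ≤ D0 ∧ upDev U k w * downDev U k v ≤ D0 ∧
      (∀ p ∈ (downDev U k w).primeFactors, p ≤ Y) ∧ ∀ p ∈ (downDev U k v).primeFactors, p ≤ Y := by
  have hU := hd.st.prime_U
  have hQ1 := fixedPart_pos hd.st.prime_sdiff i j
  have hQ2 := fixedPart_pos hd.st.prime_sdiff j i
  obtain ⟨hnc, ⟨_, _, h3, h4, _, _⟩, _⟩ := hd.supp v hv w hw hK
  obtain ⟨e1, e2⟩ := qd_eq_of_finState hd.st hv hw hnc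
  have hle : ∀ {Q a b : ℕ}, 0 < Q → a ∣ b → 0 < b → Q * b ≤ D0 →
      b ≤ D0 ∧ ∀ p ∈ a.primeFactors, p ≤ Y := by
    intro Q a b hQ hab hb hQb
    have hb' : b ≤ D0 := le_trans (Nat.le_mul_of_pos_left b hQ) hQb
    exact ⟨hb', fun p hp => ((Nat.le_of_mem_primeFactors hp).trans
      (Nat.le_of_dvd hb hab)).trans (hb'.trans hd.D_le)⟩
  have r1 := hle (b := upDev U k v * downDev U k w) hQ1 (dvd_mul_left (downDev U k w) _)
    (Nat.mul_pos (upDev_pos hU k v) (downDev_pos hU k w)) (e1 ▸ h4)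
  have r2 := hle (b := upDev U k w * downDev U k v) hQ2 (dvd_mul_left (downDev U k v) _)
    (Nat.mul_pos (upDev_pos hU k w) (downDev_pos hU k v)) (e2 ▸ h3)
  exact ⟨e1, e2, r1.1, r2.1, r1.2, r2.2⟩

theorem half_part {P W0 U V W : Finset ℕ} {i j k : ℕ → ℕ} {F f : ℕ → ℝ} {k0 : ℕ → ℕ} {Y D0 : ℕ}
    {r : ℝ} {S : Finset ℕ} {K : ℕ → ℕ → ℝ} (hd : HalfData P W0 U V W i j k F f k0 Y D0 r S K)
    {C0 : ℝ} (hC0p : 0 < C0) (K1 : ℕ → ℕ → ℝ) (G1 G2 : ℝ) (hK10 : ∀ v w, 0 ≤ K1 v w)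
    (hK1K : ∀ v w, K1 v w ≤ K v w) (hG1 : 0 ≤ G1) (hG2 : 0 ≤ G2)
    (hb1 : ∀ v ∈ V, ∑ w ∈ W.filter (fun w => K1 v w ≠ 0),
      pDown (centreY U k Y) (downDev U k w) *
        (((upDev U k v : ℝ) / upDev U k w) ^ sL / upDev U k v) ≤ C0 * G1)
    (hb2 : ∀ w ∈ W, ∑ v ∈ V.filter (fun v => K1 v w ≠ 0),
      pDown (centreY U k Y) (downDev U k v) *
        (((upDev U k w : ℝ) / upDev U k v) ^ tL / upDev U k w) ≤ C0 * G2) :
    ∑ v ∈ V, ∑ w ∈ W, K1 v w * (F v * F w) ≤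
      C0 ^ alL1 * C0 ^ alL2 * r ^ (1 - delL) * (G1 ^ alL1 * G2 ^ alL2) *
        ((∑ v ∈ W0, F v) ^ omL * ((∑ v ∈ V, F v) * ∑ w ∈ W, F w) ^ thL) /
        ((fixedPart (P \ U) i j * fixedPart (P \ U) j i : ℕ) : ℝ) ^ alL2 := by
  have h := hd.st
  have hpool := hd.pool
  have hr := hd.r_pos
  have hK1 := hd.K_le
  have hdev := fun v hv w hw hK => hd.dev (v := v) hv (w := w) hw hK
  have hsupp := hd.supp
  have h01 : 0 < alL1 := by norm_num [alL1, delL, omL]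
  have h02 : 0 < alL2 := by norm_num [alL2, delL, omL]
  have hst : sL * alL1 = tL * alL2 := by rw [tL]; field_simp
  set Q1 := fixedPart (P \ U) i j with hQ1d
  set Q2 := fixedPart (P \ U) j i with hQ2d
  have hQ1 : 0 < Q1 := fixedPart_pos h.prime_sdiff i j
  have hQ2 : 0 < Q2 := fixedPart_pos h.prime_sdiff j i
  set mV := ∑ v ∈ V, F v with hmV
  set mW := ∑ w ∈ W, F w with hmW
  set M := ∑ v ∈ W0, F v with hM
  have hmV0 : 0 ≤ mV := Finset.sum_nonneg fun v _ => hpool.F_nonneg v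
  have hmW0 : 0 ≤ mW := Finset.sum_nonneg fun v _ => hpool.F_nonneg v
  have hmVM : mV ≤ M := Finset.sum_le_sum_of_subset_of_nonneg h.V_sub fun v _ _ => hpool.F_nonneg v
  have hfin : FinState P (V ∪ W) U V W i j :=
    ⟨h.prime_mem, fun q hq => h.pos_of_mem q (Finset.union_subset h.V_sub h.W_sub hq),
      fun q hq => h.factors_le q (Finset.union_subset h.V_sub h.W_sub hq), h.U_sub,
      Finset.subset_union_left, Finset.subset_union_right, h.V_fix, h.W_fix⟩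
  have hb := final2_le hfin F F f f Y alL1 alL2 sL tL r r hpool.F_nonneg hpool.F_nonneg
    (fun v hv => hpool.F_le v (h.V_sub hv)) (fun v hv => hpool.F_le v (h.W_sub hv))
    hpool.f_nonneg hpool.f_nonneg h02 h01 (by norm_num [alL1, alL2, delL, omL]) hst hr hr K1
    hK10 (fun v w => (hK1K v w).trans (hK1 v w)) (fun v hv w hw hne => by
      have hne' : K v w ≠ 0 := fun h0 => hne (le_antisymm (h0 ▸ hK1K v w) (hK10 v w))
      obtain ⟨hnc, ⟨g1, g2, _⟩, _⟩ := hsupp v hv w hw hne'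
      exact ⟨hnc, g1, g2, (hdev v hv w hw hne').2.2.2.2.1, (hdev v hv w hw hne').2.2.2.2.2⟩)
    (C0 * G1) (C0 * G2) (by positivity) (by positivity) hb1 hb2
  refine hb.trans ?_
  simp only [← hQ1d, ← hQ2d, ← hmV, ← hmW]
  have hQ1' : (1 : ℝ) ≤ Q1 := by exact_mod_cast hQ1
  have hQ2' : (1 : ℝ) ≤ Q2 := by exact_mod_cast hQ2
  rw [Real.mul_rpow hmV0 hmW0, Real.mul_rpow hmV0 (by positivity),
    Real.mul_rpow hmW0 (by positivity), Real.mul_rpow (by positivity) (by positivity),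
    Real.mul_rpow (by positivity) (by positivity : 0 ≤ C0 * G2),
    Real.div_rpow hr.le (by positivity), Real.div_rpow hr.le (by positivity),
    Real.mul_rpow hC0p.le hG1, Real.mul_rpow hC0p.le hG2,
    Real.mul_rpow hmV0 hmW0, Nat.cast_mul, Real.mul_rpow (by positivity) (by positivity)]
  have ee : (1 : ℝ) - delL = alL1 + alL2 := by norm_num [alL1, alL2, delL, omL]
  rw [ee, Real.rpow_add hr]
  have e1 : mV ^ (1 - alL1 - alL2) * mV ^ alL1 = mV ^ omL * mV ^ thL := by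
    rw [← Real.rpow_add' hmV0 (by norm_num [alL1, alL2, delL, omL]),
      ← Real.rpow_add' hmV0 (by norm_num [thL, alL1, delL, omL])]
    congr 1
    norm_num [thL, alL1, alL2, delL, omL]
  have e2 : mW ^ (1 - alL1 - alL2) * mW ^ alL2 = mW ^ thL := by
    rw [← Real.rpow_add' hmW0 (by norm_num [alL1, alL2, delL, omL])]
    congr 1
    norm_num [thL, alL1, alL2, delL, omL]
  have e3 : (Q1 : ℝ) ^ alL2 ≤ (Q1 : ℝ) ^ alL1 :=
    Real.rpow_le_rpow_of_exponent_le hQ1' (by norm_num [alL1, alL2, delL, omL])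
  calc _ = (mV ^ (1 - alL1 - alL2) * mV ^ alL1) * (mW ^ (1 - alL1 - alL2) * mW ^ alL2) *
        (C0 ^ alL1 * C0 ^ alL2 * (G1 ^ alL1 * G2 ^ alL2) * (r ^ alL1 * r ^ alL2) /
          ((Q1 : ℝ) ^ alL1 * (Q2 : ℝ) ^ alL2)) := by ring
    _ = (mV ^ omL * mV ^ thL) * mW ^ thL *
        (C0 ^ alL1 * C0 ^ alL2 * (G1 ^ alL1 * G2 ^ alL2) * (r ^ alL1 * r ^ alL2) /
          ((Q1 : ℝ) ^ alL1 * (Q2 : ℝ) ^ alL2)) := by rw [e1, e2]
    _ ≤ (M ^ omL * mV ^ thL) * mW ^ thL *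
        (C0 ^ alL1 * C0 ^ alL2 * (G1 ^ alL1 * G2 ^ alL2) * (r ^ alL1 * r ^ alL2) /
          ((Q1 : ℝ) ^ alL2 * (Q2 : ℝ) ^ alL2)) := by
        gcongr
        · exact mul_nonneg (mul_nonneg (Real.rpow_nonneg (hmV0.trans hmVM) _) (Real.rpow_nonneg hmV0 _))
            (Real.rpow_nonneg hmW0 _)
        · norm_num [omL]
    _ = _ := by ring

theorem HalfData.mem1 {P W0 U V W : Finset ℕ} {i j k : ℕ → ℕ} {F f : ℕ → ℝ} {k0 : ℕ → ℕ} {Y D0 : ℕ}
    {r : ℝ} {S : Finset ℕ} {K : ℕ → ℕ → ℝ} (hd : HalfData P W0 U V W i j k F f k0 Y D0 r S K)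
    {L : ℝ} (hlogD : Real.log D0 ≤ L)
    {v : ℕ} (hv : v ∈ V) {W' : Finset ℕ} (hW' : W' ⊆ W.filter (fun w => K v w ≠ 0)) :
      W'.image (downDev U k) ⊆ (centreY U k Y).divisors ∧
      (∀ c ∈ W'.image (upDev U k), 0 < c ∧ c ≤ upDev U k v) ∧
      ∀ d ∈ W'.image (downDev U k), 0 < d ∧ Real.log d ≤ L := by
  have hU := hd.st.prime_U
  have hdev := fun v hv w hw hK => hd.dev (v := v) hv (w := w) hw hK
  have hsupp := hd.supp
  refine ⟨fun d hd => ?_, fun c hc => ?_, fun d hd => ?_⟩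
  · obtain ⟨w, hw, rfl⟩ := Finset.mem_image.1 hd
    obtain ⟨hwW, hne⟩ := Finset.mem_filter.1 (hW' hw)
    exact downDev_mem_centreY hU k Y w (hdev v hv w hwW hne).2.2.2.2.1
  · obtain ⟨w, hw, rfl⟩ := Finset.mem_image.1 hc
    obtain ⟨hwW, hne⟩ := Finset.mem_filter.1 (hW' hw)
    exact ⟨upDev_pos hU k w, (hsupp v hv w hwW hne).2.2⟩
  · obtain ⟨w, hw, rfl⟩ := Finset.mem_image.1 hd
    obtain ⟨hwW, hne⟩ := Finset.mem_filter.1 (hW' hw)
    refine ⟨downDev_pos hU k w, (Real.log_le_log (Nat.cast_pos.2 (downDev_pos hU k w))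
      (Nat.cast_le.2 ?_)).trans hlogD⟩
    exact le_trans (Nat.le_mul_of_pos_left _ (upDev_pos hU k v)) (hdev v hv w hwW hne).2.2.1

theorem HalfData.mem2 {P W0 U V W : Finset ℕ} {i j k : ℕ → ℕ} {F f : ℕ → ℝ} {k0 : ℕ → ℕ} {Y D0 : ℕ}
    {r : ℝ} {S : Finset ℕ} {K : ℕ → ℕ → ℝ} (hd : HalfData P W0 U V W i j k F f k0 Y D0 r S K)
    {L : ℝ} (hlogD : Real.log D0 ≤ L)
    {w : ℕ} (hw : w ∈ W) {V' : Finset ℕ} (hV' : V' ⊆ V.filter (fun v => K v w ≠ 0)) :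
      V'.image (downDev U k) ⊆ (centreY U k Y).divisors ∧
      (∀ a ∈ V'.image (upDev U k), upDev U k w ≤ a) ∧
      ∀ d ∈ V'.image (downDev U k), 0 < d ∧ Real.log d ≤ L := by
  have hU := hd.st.prime_U
  have hdev := fun v hv w hw hK => hd.dev (v := v) hv (w := w) hw hK
  have hsupp := hd.supp
  refine ⟨fun d hd => ?_, fun a ha => ?_, fun d hd => ?_⟩
  · obtain ⟨v, hv, rfl⟩ := Finset.mem_image.1 hd
    obtain ⟨hvV, hne⟩ := Finset.mem_filter.1 (hV' hv)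
    exact downDev_mem_centreY hU k Y v (hdev v hvV w hw hne).2.2.2.2.2
  · obtain ⟨v, hv, rfl⟩ := Finset.mem_image.1 ha
    obtain ⟨hvV, hne⟩ := Finset.mem_filter.1 (hV' hv)
    exact (hsupp v hvV w hw hne).2.2
  · obtain ⟨v, hv, rfl⟩ := Finset.mem_image.1 hd
    obtain ⟨hvV, hne⟩ := Finset.mem_filter.1 (hV' hv)
    refine ⟨downDev_pos hU k v, (Real.log_le_log (Nat.cast_pos.2 (downDev_pos hU k v))
      (Nat.cast_le.2 ?_)).trans hlogD⟩
    exact le_trans (Nat.le_mul_of_pos_left _ (upDev_pos hU k w)) (hdev v hvV w hw hne).2.2.2.1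


/-- The constants of the sums over the variables. -/
structure SumConsts (Cb Ca Cd D C0 : ℝ) : Prop where
  Cb_pos : 0 < Cb
  Ca_pos : 0 < Ca
  Cd_pos : 0 < Cd
  one_le_D : 1 ≤ D
  C0_eq : C0 = 2 * ((Cb + Ca + 1) * (D + Cd))
  below : ∀ (a : ℕ) (T : Finset ℕ) (e : ℝ), 0 < a → 0 ≤ e → (∀ c ∈ T, 0 < c ∧ c ≤ a) →
    (∀ j : ℕ, ((T.filter (fun c => Nat.log 2 c = j)).card : ℝ) ≤ e * 2 ^ j) →
    ∑ c ∈ T, ((a : ℝ) / c) ^ sL / a ≤ Cb * e
  above : ∀ (c : ℕ) (T : Finset ℕ) (e : ℝ), 0 < c → 0 ≤ e → (∀ a ∈ T, c ≤ a) →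
    (∀ j : ℕ, ((T.filter (fun a => Nat.log 2 a = j)).card : ℝ) ≤ e * 2 ^ j) →
    ∑ a ∈ T, ((c : ℝ) / a) ^ tL / c ≤ Ca * e
  down : ∀ (T : Finset ℕ) (e L : ℝ), 0 ≤ e → 1 ≤ L → (∀ d ∈ T, 0 < d ∧ Real.log d ≤ L) →
    (∀ j : ℕ, ((T.filter (fun d => Nat.log 2 d = j)).card : ℝ) ≤ e * 2 ^ j) →
    ∑ d ∈ T, 1 / (Nat.totient d : ℝ) ≤ Cd * e * L ^ 2
  centre : ∀ N : ℕ, 0 < N → ∀ T : Finset ℕ, T ⊆ N.divisors → ∑ d ∈ T, pDown N d ≤ D

theorem SumConsts.bounds {Cb Ca Cd D C0 : ℝ} (c : SumConsts Cb Ca Cd D C0) :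
    0 < C0 ∧ D * Cb ≤ C0 ∧ D * Ca ≤ C0 ∧ 2 * (Cb * D) ≤ C0 ∧ 2 * (Cb * Cd) ≤ C0 ∧
      2 * (Ca * D) ≤ C0 ∧ 2 * (Ca * Cd) ≤ C0 := by
  have hD : 0 < D := one_pos.trans_le c.one_le_D
  have e : C0 = 2 * (Cb * D) + 2 * (Cb * Cd) + 2 * (Ca * D) + 2 * (Ca * Cd) + 2 * (D + Cd) := by
    rw [c.C0_eq]; ring
  have h1 := mul_pos c.Cb_pos hD
  have h2 := mul_pos c.Cb_pos c.Cd_pos
  have h3 := mul_pos c.Ca_pos hD
  have h4 := mul_pos c.Ca_pos c.Cd_pos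
  have h5 := c.Cd_pos
  refine ⟨?_, ?_, ?_, ?_, ?_, ?_, ?_⟩ <;> linarith

theorem centreY_pos {U : Finset ℕ} (hU : ∀ p ∈ U, p.Prime) (k : ℕ → ℕ) (Y : ℕ) :
    0 < centreY U k Y :=
  prodPow_pos (fun p hp => hU p (Finset.mem_filter.1 hp).1) k

theorem HalfData.sum1 {P W0 U V W : Finset ℕ} {i j k : ℕ → ℕ} {F f : ℕ → ℝ} {k0 : ℕ → ℕ} {Y D0 : ℕ}
    {r : ℝ} {S : Finset ℕ} {K : ℕ → ℕ → ℝ} (hd : HalfData P W0 U V W i j k F f k0 Y D0 r S K)
    (v : ℕ) {W' : Finset ℕ} (hW' : W' ⊆ W.filter (fun w => K v w ≠ 0)) {A B : ℝ} (hA : 0 ≤ A)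
    (hA' : (∑ d ∈ W'.image (downDev U k), pDown (centreY U k Y) d) ≤ A)
    (hB' : (∑ c ∈ W'.image (upDev U k), ((upDev U k v : ℝ) / c) ^ sL / upDev U k v) ≤ B) :
    ∑ w ∈ W', pDown (centreY U k Y) (downDev U k w) *
      (((upDev U k v : ℝ) / upDev U k w) ^ sL / upDev U k v) ≤ A * B :=
  sum_dev_le (dev_injOn hd.st).2 W' (hW'.trans (Finset.filter_subset _ _))
    (fun c => ((upDev U k v : ℝ) / c) ^ sL / upDev U k v) (pDown (centreY U k Y))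
    (fun c => by positivity) (pDown_nonneg _) hA hA' hB'

theorem HalfData.sum2 {P W0 U V W : Finset ℕ} {i j k : ℕ → ℕ} {F f : ℕ → ℝ} {k0 : ℕ → ℕ} {Y D0 : ℕ}
    {r : ℝ} {S : Finset ℕ} {K : ℕ → ℕ → ℝ} (hd : HalfData P W0 U V W i j k F f k0 Y D0 r S K)
    (w : ℕ) {V' : Finset ℕ} (hV' : V' ⊆ V.filter (fun v => K v w ≠ 0)) {A B : ℝ} (hA : 0 ≤ A)
    (hA' : (∑ d ∈ V'.image (downDev U k), pDown (centreY U k Y) d) ≤ A)
    (hB' : (∑ c ∈ V'.image (upDev U k), ((upDev U k w : ℝ) / c) ^ tL / upDev U k w) ≤ B) :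
    ∑ v ∈ V', pDown (centreY U k Y) (downDev U k v) *
      (((upDev U k w : ℝ) / upDev U k v) ^ tL / upDev U k w) ≤ A * B :=
  sum_dev_le (dev_injOn hd.st).1 V' (hV'.trans (Finset.filter_subset _ _))
    (fun c => ((upDev U k w : ℝ) / c) ^ tL / upDev U k w) (pDown (centreY U k Y))
    (fun c => by positivity) (pDown_nonneg _) hA hA' hB'

theorem HalfData.up1 {P W0 U V W : Finset ℕ} {i j k : ℕ → ℕ} {F f : ℕ → ℝ} {k0 : ℕ → ℕ} {Y D0 : ℕ}
    {r : ℝ} {S : Finset ℕ} {K : ℕ → ℕ → ℝ} (hd : HalfData P W0 U V W i j k F f k0 Y D0 r S K)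
    {Cb Ca Cd D C0 L : ℝ} (hc : SumConsts Cb Ca Cd D C0) (hlogD : Real.log D0 ≤ L)
    {v : ℕ} (hv : v ∈ V) {W' : Finset ℕ} (hW' : W' ⊆ W.filter (fun w => K v w ≠ 0)) :
    ∑ c ∈ W'.image (upDev U k), ((upDev U k v : ℝ) / c) ^ sL / upDev U k v ≤ Cb := by
  have hm := (hd.mem1 hlogD hv hW').2.1
  simpa using hc.below (upDev U k v) _ 1 (upDev_pos hd.st.prime_U k v) zero_le_one hm
    (block_one _ fun c hc => (hm c hc).1)

theorem HalfData.up2 {P W0 U V W : Finset ℕ} {i j k : ℕ → ℕ} {F f : ℕ → ℝ} {k0 : ℕ → ℕ} {Y D0 : ℕ}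
    {r : ℝ} {S : Finset ℕ} {K : ℕ → ℕ → ℝ} (hd : HalfData P W0 U V W i j k F f k0 Y D0 r S K)
    {Cb Ca Cd D C0 L : ℝ} (hc : SumConsts Cb Ca Cd D C0) (hlogD : Real.log D0 ≤ L)
    {w : ℕ} (hw : w ∈ W) {V' : Finset ℕ} (hV' : V' ⊆ V.filter (fun v => K v w ≠ 0)) :
    ∑ c ∈ V'.image (upDev U k), ((upDev U k w : ℝ) / c) ^ tL / upDev U k w ≤ Ca := by
  have hm := (hd.mem2 hlogD hw hV').2.1
  simpa using hc.above (upDev U k w) _ 1 (upDev_pos hd.st.prime_U k w) zero_le_one hm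
    (block_one _ fun c hc => (upDev_pos hd.st.prime_U k w).trans_le (hm c hc))

theorem HalfData.plain1 {P W0 U V W : Finset ℕ} {i j k : ℕ → ℕ} {F f : ℕ → ℝ} {k0 : ℕ → ℕ} {Y D0 : ℕ}
    {r : ℝ} {S : Finset ℕ} {K : ℕ → ℕ → ℝ} (hd : HalfData P W0 U V W i j k F f k0 Y D0 r S K)
    {Cb Ca Cd D C0 L : ℝ} (hc : SumConsts Cb Ca Cd D C0) (hlogD : Real.log D0 ≤ L)
    (K1 : ℕ → ℕ → ℝ) (hK1' : ∀ v w, K1 v w ≠ 0 → K v w ≠ 0) {v : ℕ} (hv : v ∈ V) :
    ∑ w ∈ W.filter (fun w => K1 v w ≠ 0), pDown (centreY U k Y) (downDev U k w) *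
      (((upDev U k v : ℝ) / upDev U k w) ^ sL / upDev U k v) ≤ C0 * 1 := by
  have hsub : W.filter (fun w => K1 v w ≠ 0) ⊆ W.filter (fun w => K v w ≠ 0) :=
    fun w hw => Finset.mem_filter.2 ⟨(Finset.mem_filter.1 hw).1, hK1' v w (Finset.mem_filter.1 hw).2⟩
  refine (hd.sum1 v hsub (zero_le_one.trans hc.one_le_D)
    (hc.centre _ (centreY_pos hd.st.prime_U k Y) _ (hd.mem1 hlogD hv hsub).1)
    (hd.up1 hc hlogD hv hsub)).trans ?_
  rw [mul_one]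
  exact hc.bounds.2.1

theorem HalfData.plain2 {P W0 U V W : Finset ℕ} {i j k : ℕ → ℕ} {F f : ℕ → ℝ} {k0 : ℕ → ℕ} {Y D0 : ℕ}
    {r : ℝ} {S : Finset ℕ} {K : ℕ → ℕ → ℝ} (hd : HalfData P W0 U V W i j k F f k0 Y D0 r S K)
    {Cb Ca Cd D C0 L : ℝ} (hc : SumConsts Cb Ca Cd D C0) (hlogD : Real.log D0 ≤ L)
    (K1 : ℕ → ℕ → ℝ) (hK1' : ∀ v w, K1 v w ≠ 0 → K v w ≠ 0) {w : ℕ} (hw : w ∈ W) :
    ∑ v ∈ V.filter (fun v => K1 v w ≠ 0), pDown (centreY U k Y) (downDev U k v) *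
      (((upDev U k w : ℝ) / upDev U k v) ^ tL / upDev U k w) ≤ C0 * 1 := by
  have hsub : V.filter (fun v => K1 v w ≠ 0) ⊆ V.filter (fun v => K v w ≠ 0) :=
    fun v hv => Finset.mem_filter.2 ⟨(Finset.mem_filter.1 hv).1, hK1' v w (Finset.mem_filter.1 hv).2⟩
  refine (hd.sum2 w hsub (zero_le_one.trans hc.one_le_D)
    (hc.centre _ (centreY_pos hd.st.prime_U k Y) _ (hd.mem2 hlogD hw hsub).1)
    (hd.up2 hc hlogD hw hsub)).trans ?_
  rw [mul_one]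
  exact hc.bounds.2.2.1

theorem HalfData.piece1 {P W0 U V W : Finset ℕ} {i j k : ℕ → ℕ} {F f : ℕ → ℝ} {k0 : ℕ → ℕ} {Y D0 : ℕ}
    {r : ℝ} {S : Finset ℕ} {K : ℕ → ℕ → ℝ} (hd : HalfData P W0 U V W i j k F f k0 Y D0 r S K)
    {e P0 κ τ L Cb Ca Cd D C0 : ℝ} (hc : SumConsts Cb Ca Cd D C0) (he : 0 < e) (hκ : 0 ≤ κ)
    (hL : 1 ≤ L) (hlogD : Real.log D0 ≤ L)
    (hτ : ∀ n : ℕ, 0 < n → n ≤ D0 → (n.divisors.card : ℝ) ≤ τ) (hτ1 : 1 ≤ τ)
    (hS : Sparse S e P0 κ) (K1 : ℕ → ℕ → ℝ)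
    (hne1 : ∀ v w, K1 v w ≠ 0 → Piece S P0 (fixedPart (P \ U) j i * downDev U k v) (upDev U k w) ∧ K v w ≠ 0)
    (v : ℕ) (hv : v ∈ V) :
    ∑ w ∈ W.filter (fun w => K1 v w ≠ 0), pDown (centreY U k Y) (downDev U k w) *
      (((upDev U k v : ℝ) / upDev U k w) ^ sL / upDev U k v) ≤ C0 * (τ * κ * L ^ 2) := by
  have hU := hd.st.prime_U
  have hsupp := hd.supp
  have hdev := fun v hv w hw hK => hd.dev (v := v) hv (w := w) hw hK
  set Q1 := fixedPart (P \ U) i j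
  set Q2 := fixedPart (P \ U) j i
  have hQ1 : 0 < Q1 := fixedPart_pos hd.st.prime_sdiff i j
  have hQ2 : 0 < Q2 := fixedPart_pos hd.st.prime_sdiff j i
  have hτκ : τ * κ ≤ τ * κ * L ^ 2 := le_mul_of_one_le_right (by positivity) (one_le_pow₀ hL)
  have hΓ0 : 0 ≤ τ * κ * L ^ 2 := by positivity
  have hD0 : 0 < D := one_pos.trans_le hc.one_le_D
  have := hc.Cb_pos
  have := hc.Ca_pos
  have := hc.Cd_pos
  obtain ⟨hC0p, -, -, hC0a, hC0b, hC0c, hC0d⟩ := hc.bounds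
  by_cases hne : ∃ w ∈ W, K v w ≠ 0
  swap
  · push Not at hne
    rw [Finset.sum_eq_zero fun w hw => absurd (hne w (Finset.mem_filter.1 hw).1)
      (hne1 v w (Finset.mem_filter.1 hw).2).2]
    positivity
  obtain ⟨w0, hw0, hw0'⟩ := hne
  have hn : (Q2 * downDev U k v).divisors.card ≤ τ := by
    obtain ⟨-, ⟨-, -, h3, -⟩, -⟩ := hsupp v hv w0 hw0 hw0'
    refine hτ _ (Nat.mul_pos hQ2 (downDev_pos hU k v)) (le_trans ?_ h3)
    rw [(hdev v hv w0 hw0 hw0').2.1]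
    exact Nat.mul_le_mul_left _ (Nat.le_mul_of_pos_left _ (upDev_pos hU k w0))
  have hsub : W.filter (fun w => K1 v w ≠ 0) ⊆ W.filter (fun w => K v w ≠ 0) :=
    fun w hw => Finset.mem_filter.2
      ⟨(Finset.mem_filter.1 hw).1, (hne1 v w (Finset.mem_filter.1 hw).2).2⟩
  refine (hd.sum1 v hsub (A := D) (B := (Cb * (2 * τ * κ))) (by linarith) (hc.centre _ (centreY_pos hU k Y) _ (hd.mem1 hlogD hv hsub).1)
    (hc.below _ _ _ (upDev_pos hU k v) (by positivity) (hd.mem1 hlogD hv hsub).2.1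
      (piece_block_le hS he hκ _ (Nat.mul_pos hQ2 (downDev_pos hU k v)) hn _ fun z hz => ?_))).trans ?_
  · obtain ⟨w, hw, rfl⟩ := Finset.mem_image.1 hz
    exact ⟨upDev_pos hU k w, (hne1 v w (Finset.mem_filter.1 hw).2).1⟩
  · refine le_trans (le_of_eq (by ring : D * (Cb * (2 * τ * κ)) = 2 * (Cb * D) * (τ * κ))) ?_
    exact mul_le_mul hC0a hτκ (by positivity) hC0p.le

theorem HalfData.piece2 {P W0 U V W : Finset ℕ} {i j k : ℕ → ℕ} {F f : ℕ → ℝ} {k0 : ℕ → ℕ} {Y D0 : ℕ}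
    {r : ℝ} {S : Finset ℕ} {K : ℕ → ℕ → ℝ} (hd : HalfData P W0 U V W i j k F f k0 Y D0 r S K)
    {e P0 κ τ L Cb Ca Cd D C0 : ℝ} (hc : SumConsts Cb Ca Cd D C0) (he : 0 < e) (hκ : 0 ≤ κ)
    (hL : 1 ≤ L) (hlogD : Real.log D0 ≤ L)
    (hτ : ∀ n : ℕ, 0 < n → n ≤ D0 → (n.divisors.card : ℝ) ≤ τ) (hτ1 : 1 ≤ τ)
    (hS : Sparse S e P0 κ) (K1 : ℕ → ℕ → ℝ)
    (hne1 : ∀ v w, K1 v w ≠ 0 → Piece S P0 (fixedPart (P \ U) i j * upDev U k v) (downDev U k w) ∧ K v w ≠ 0)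
    (v : ℕ) (hv : v ∈ V) :
    ∑ w ∈ W.filter (fun w => K1 v w ≠ 0), pDown (centreY U k Y) (downDev U k w) *
      (((upDev U k v : ℝ) / upDev U k w) ^ sL / upDev U k v) ≤ C0 * (τ * κ * L ^ 2) := by
  have hU := hd.st.prime_U
  have hsupp := hd.supp
  have hdev := fun v hv w hw hK => hd.dev (v := v) hv (w := w) hw hK
  set Q1 := fixedPart (P \ U) i j
  set Q2 := fixedPart (P \ U) j i
  have hQ1 : 0 < Q1 := fixedPart_pos hd.st.prime_sdiff i j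
  have hQ2 : 0 < Q2 := fixedPart_pos hd.st.prime_sdiff j i
  have hτκ : τ * κ ≤ τ * κ * L ^ 2 := le_mul_of_one_le_right (by positivity) (one_le_pow₀ hL)
  have hΓ0 : 0 ≤ τ * κ * L ^ 2 := by positivity
  have hD0 : 0 < D := one_pos.trans_le hc.one_le_D
  have := hc.Cb_pos
  have := hc.Ca_pos
  have := hc.Cd_pos
  obtain ⟨hC0p, -, -, hC0a, hC0b, hC0c, hC0d⟩ := hc.bounds
  by_cases hne : ∃ w ∈ W, K v w ≠ 0
  swap
  · push Not at hne
    rw [Finset.sum_eq_zero fun w hw => absurd (hne w (Finset.mem_filter.1 hw).1)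
      (hne1 v w (Finset.mem_filter.1 hw).2).2]
    positivity
  obtain ⟨w0, hw0, hw0'⟩ := hne
  have hn : (Q1 * upDev U k v).divisors.card ≤ τ := by
    obtain ⟨-, ⟨-, -, -, h4, -⟩, -⟩ := hsupp v hv w0 hw0 hw0'
    refine hτ _ (Nat.mul_pos hQ1 (upDev_pos hU k v)) (le_trans ?_ h4)
    rw [(hdev v hv w0 hw0 hw0').1]
    exact Nat.mul_le_mul_left _ (Nat.le_mul_of_pos_right _ (downDev_pos hU k w0))
  have hsub : W.filter (fun w => K1 v w ≠ 0) ⊆ W.filter (fun w => K v w ≠ 0) :=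
    fun w hw => Finset.mem_filter.2
      ⟨(Finset.mem_filter.1 hw).1, (hne1 v w (Finset.mem_filter.1 hw).2).2⟩
  refine (hd.sum1 v hsub (A := (Cd * (2 * τ * κ) * L ^ 2)) (B := Cb) (by positivity)
    ((Finset.sum_le_sum fun d _ => pDown_le _ d).trans (hc.down _ _ L (by positivity) hL
      (hd.mem1 hlogD hv hsub).2.2 (piece_block_le hS he hκ _ (Nat.mul_pos hQ1 (upDev_pos hU k v)) hn _
        fun z hz => ?_))) (hd.up1 hc hlogD hv hsub)).trans ?_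
  · obtain ⟨w, hw, rfl⟩ := Finset.mem_image.1 hz
    exact ⟨downDev_pos hU k w, (hne1 v w (Finset.mem_filter.1 hw).2).1⟩
  · refine le_trans (le_of_eq (by ring :
      Cd * (2 * τ * κ) * L ^ 2 * Cb = 2 * (Cb * Cd) * (τ * κ * L ^ 2))) ?_
    exact mul_le_mul_of_nonneg_right hC0b hΓ0

theorem HalfData.piece3 {P W0 U V W : Finset ℕ} {i j k : ℕ → ℕ} {F f : ℕ → ℝ} {k0 : ℕ → ℕ} {Y D0 : ℕ}
    {r : ℝ} {S : Finset ℕ} {K : ℕ → ℕ → ℝ} (hd : HalfData P W0 U V W i j k F f k0 Y D0 r S K)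
    {e P0 κ τ L Cb Ca Cd D C0 : ℝ} (hc : SumConsts Cb Ca Cd D C0) (he : 0 < e) (hκ : 0 ≤ κ)
    (hL : 1 ≤ L) (hlogD : Real.log D0 ≤ L)
    (hτ : ∀ n : ℕ, 0 < n → n ≤ D0 → (n.divisors.card : ℝ) ≤ τ) (hτ1 : 1 ≤ τ)
    (hS : Sparse S e P0 κ) (K1 : ℕ → ℕ → ℝ)
    (hne1 : ∀ v w, K1 v w ≠ 0 → Piece S P0 (fixedPart (P \ U) i j * downDev U k w) (upDev U k v) ∧ K v w ≠ 0)
    (w : ℕ) (hw : w ∈ W) :
    ∑ v ∈ V.filter (fun v => K1 v w ≠ 0), pDown (centreY U k Y) (downDev U k v) *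
      (((upDev U k w : ℝ) / upDev U k v) ^ tL / upDev U k w) ≤ C0 * (τ * κ * L ^ 2) := by
  have hU := hd.st.prime_U
  have hsupp := hd.supp
  have hdev := fun v hv w hw hK => hd.dev (v := v) hv (w := w) hw hK
  set Q1 := fixedPart (P \ U) i j
  set Q2 := fixedPart (P \ U) j i
  have hQ1 : 0 < Q1 := fixedPart_pos hd.st.prime_sdiff i j
  have hQ2 : 0 < Q2 := fixedPart_pos hd.st.prime_sdiff j i
  have hτκ : τ * κ ≤ τ * κ * L ^ 2 := le_mul_of_one_le_right (by positivity) (one_le_pow₀ hL)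
  have hΓ0 : 0 ≤ τ * κ * L ^ 2 := by positivity
  have hD0 : 0 < D := one_pos.trans_le hc.one_le_D
  have := hc.Cb_pos
  have := hc.Ca_pos
  have := hc.Cd_pos
  obtain ⟨hC0p, -, -, hC0a, hC0b, hC0c, hC0d⟩ := hc.bounds
  by_cases hne : ∃ v ∈ V, K v w ≠ 0
  swap
  · push Not at hne
    rw [Finset.sum_eq_zero fun v hv => absurd (hne v (Finset.mem_filter.1 hv).1)
      (hne1 v w (Finset.mem_filter.1 hv).2).2]
    positivity
  obtain ⟨v0, hv0, hv0'⟩ := hne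
  have hn : (Q1 * downDev U k w).divisors.card ≤ τ := by
    obtain ⟨-, ⟨-, -, -, h4, -⟩, -⟩ := hsupp v0 hv0 w hw hv0'
    refine hτ _ (Nat.mul_pos hQ1 (downDev_pos hU k w)) (le_trans ?_ h4)
    rw [(hdev v0 hv0 w hw hv0').1]
    exact Nat.mul_le_mul_left _ (Nat.le_mul_of_pos_left _ (upDev_pos hU k v0))
  have hsub : V.filter (fun v => K1 v w ≠ 0) ⊆ V.filter (fun v => K v w ≠ 0) :=
    fun v hv => Finset.mem_filter.2
      ⟨(Finset.mem_filter.1 hv).1, (hne1 v w (Finset.mem_filter.1 hv).2).2⟩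
  refine (hd.sum2 w hsub (A := D) (B := (Ca * (2 * τ * κ))) (by linarith) (hc.centre _ (centreY_pos hU k Y) _ (hd.mem2 hlogD hw hsub).1)
    (hc.above _ _ _ (upDev_pos hU k w) (by positivity) (hd.mem2 hlogD hw hsub).2.1
      (piece_block_le hS he hκ _ (Nat.mul_pos hQ1 (downDev_pos hU k w)) hn _ fun z hz => ?_))).trans ?_
  · obtain ⟨v, hv, rfl⟩ := Finset.mem_image.1 hz
    exact ⟨upDev_pos hU k v, (hne1 v w (Finset.mem_filter.1 hv).2).1⟩
  · refine le_trans (le_of_eq (by ring : D * (Ca * (2 * τ * κ)) = 2 * (Ca * D) * (τ * κ))) ?_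
    exact mul_le_mul hC0c hτκ (by positivity) hC0p.le

theorem HalfData.piece4 {P W0 U V W : Finset ℕ} {i j k : ℕ → ℕ} {F f : ℕ → ℝ} {k0 : ℕ → ℕ} {Y D0 : ℕ}
    {r : ℝ} {S : Finset ℕ} {K : ℕ → ℕ → ℝ} (hd : HalfData P W0 U V W i j k F f k0 Y D0 r S K)
    {e P0 κ τ L Cb Ca Cd D C0 : ℝ} (hc : SumConsts Cb Ca Cd D C0) (he : 0 < e) (hκ : 0 ≤ κ)
    (hL : 1 ≤ L) (hlogD : Real.log D0 ≤ L)
    (hτ : ∀ n : ℕ, 0 < n → n ≤ D0 → (n.divisors.card : ℝ) ≤ τ) (hτ1 : 1 ≤ τ)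
    (hS : Sparse S e P0 κ) (K1 : ℕ → ℕ → ℝ)
    (hne1 : ∀ v w, K1 v w ≠ 0 → Piece S P0 (fixedPart (P \ U) j i * upDev U k w) (downDev U k v) ∧ K v w ≠ 0)
    (w : ℕ) (hw : w ∈ W) :
    ∑ v ∈ V.filter (fun v => K1 v w ≠ 0), pDown (centreY U k Y) (downDev U k v) *
      (((upDev U k w : ℝ) / upDev U k v) ^ tL / upDev U k w) ≤ C0 * (τ * κ * L ^ 2) := by
  have hU := hd.st.prime_U
  have hsupp := hd.supp
  have hdev := fun v hv w hw hK => hd.dev (v := v) hv (w := w) hw hK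
  set Q1 := fixedPart (P \ U) i j
  set Q2 := fixedPart (P \ U) j i
  have hQ1 : 0 < Q1 := fixedPart_pos hd.st.prime_sdiff i j
  have hQ2 : 0 < Q2 := fixedPart_pos hd.st.prime_sdiff j i
  have hτκ : τ * κ ≤ τ * κ * L ^ 2 := le_mul_of_one_le_right (by positivity) (one_le_pow₀ hL)
  have hΓ0 : 0 ≤ τ * κ * L ^ 2 := by positivity
  have hD0 : 0 < D := one_pos.trans_le hc.one_le_D
  have := hc.Cb_pos
  have := hc.Ca_pos
  have := hc.Cd_pos
  obtain ⟨hC0p, -, -, hC0a, hC0b, hC0c, hC0d⟩ := hc.bounds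
  by_cases hne : ∃ v ∈ V, K v w ≠ 0
  swap
  · push Not at hne
    rw [Finset.sum_eq_zero fun v hv => absurd (hne v (Finset.mem_filter.1 hv).1)
      (hne1 v w (Finset.mem_filter.1 hv).2).2]
    positivity
  obtain ⟨v0, hv0, hv0'⟩ := hne
  have hn : (Q2 * upDev U k w).divisors.card ≤ τ := by
    obtain ⟨-, ⟨-, -, h3, -⟩, -⟩ := hsupp v0 hv0 w hw hv0'
    refine hτ _ (Nat.mul_pos hQ2 (upDev_pos hU k w)) (le_trans ?_ h3)
    rw [(hdev v0 hv0 w hw hv0').2.1]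
    exact Nat.mul_le_mul_left _ (Nat.le_mul_of_pos_right _ (downDev_pos hU k v0))
  have hsub : V.filter (fun v => K1 v w ≠ 0) ⊆ V.filter (fun v => K v w ≠ 0) :=
    fun v hv => Finset.mem_filter.2
      ⟨(Finset.mem_filter.1 hv).1, (hne1 v w (Finset.mem_filter.1 hv).2).2⟩
  refine (hd.sum2 w hsub (A := (Cd * (2 * τ * κ) * L ^ 2)) (B := Ca) (by positivity)
    ((Finset.sum_le_sum fun d _ => pDown_le _ d).trans (hc.down _ _ L (by positivity) hL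
      (hd.mem2 hlogD hw hsub).2.2 (piece_block_le hS he hκ _ (Nat.mul_pos hQ2 (upDev_pos hU k w)) hn _
        fun z hz => ?_))) (hd.up2 hc hlogD hw hsub)).trans ?_
  · obtain ⟨v, hv, rfl⟩ := Finset.mem_image.1 hz
    exact ⟨downDev_pos hU k v, (hne1 v w (Finset.mem_filter.1 hv).2).1⟩
  · refine le_trans (le_of_eq (by ring :
      Cd * (2 * τ * κ) * L ^ 2 * Ca = 2 * (Ca * Cd) * (τ * κ * L ^ 2))) ?_
    exact mul_le_mul_of_nonneg_right hC0d hΓ0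

open Classical in
theorem half_main {P W0 U V W : Finset ℕ} {i j k : ℕ → ℕ} {F f : ℕ → ℝ} {k0 : ℕ → ℕ} {Y D0 : ℕ}
    {r e P0 κ τ L : ℝ} {S : Finset ℕ} {K : ℕ → ℕ → ℝ}
    (hd : HalfData P W0 U V W i j k F f k0 Y D0 r S K) (he : 0 < e) (hP0 : 0 ≤ P0) (hκ : 0 ≤ κ)
    (hL : 1 ≤ L) (hlogD : Real.log D0 ≤ L)
    (hτ : ∀ n : ℕ, 0 < n → n ≤ D0 → (n.divisors.card : ℝ) ≤ τ) (hτ1 : 1 ≤ τ)
    (hS : Sparse S e P0 κ) {Cb Ca Cd D C0 : ℝ} (hc : SumConsts Cb Ca Cd D C0)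
    (H : ℝ) (hH : H = 1 ∨ (H = (τ * κ * L ^ 2) ^ alL1 + (τ * κ * L ^ 2) ^ alL2 ∧
        ((fixedPart (P \ U) i j * fixedPart (P \ U) j i : ℕ) : ℝ) * P0 ^ 4 ≤ e ^ 2)) :
    ∑ v ∈ V, ∑ w ∈ W, K v w * (F v * F w) ≤
      4 * (C0 ^ alL1 * C0 ^ alL2) * r ^ (1 - delL) * H * ((∑ v ∈ W0, F v) ^ omL *
        ((∑ v ∈ V, F v) * ∑ w ∈ W, F w) ^ thL) /
        ((fixedPart (P \ U) i j * fixedPart (P \ U) j i : ℕ) : ℝ) ^ alL2 := by
  have hpool := hd.pool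
  have hr := hd.r_pos
  have hK0 := hd.K_nonneg
  have hsupp := hd.supp
  have hU := hd.st.prime_U
  have hdev := fun v hv w hw hK => hd.dev (v := v) hv (w := w) hw hK
  have hC0p := hc.bounds.1
  have part := half_part hd hC0p
  set Γ := τ * κ * L ^ 2 with hΓ
  have hΓ0 : 0 ≤ Γ := by positivity
  set Q1 := fixedPart (P \ U) i j with hQ1d
  set Q2 := fixedPart (P \ U) j i with hQ2d
  have hQ1 : 0 < Q1 := fixedPart_pos hd.st.prime_sdiff i j
  have hQ2 : 0 < Q2 := fixedPart_pos hd.st.prime_sdiff j i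
  set mV := ∑ v ∈ V, F v with hmV
  set mW := ∑ w ∈ W, F w with hmW
  set M := ∑ v ∈ W0, F v with hM
  have hmV0 : 0 ≤ mV := Finset.sum_nonneg fun v _ => hpool.F_nonneg v
  have hmW0 : 0 ≤ mW := Finset.sum_nonneg fun v _ => hpool.F_nonneg v
  have hM0 : 0 ≤ M := Finset.sum_nonneg fun v _ => hpool.F_nonneg v
  rcases hH with rfl | ⟨rfl, hsmall⟩
  · refine (part K 1 1 hK0 (fun _ _ => le_rfl) zero_le_one zero_le_one
      (fun v hv => hd.plain1 hc hlogD K (fun _ _ h => h) hv)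
      (fun w hw => hd.plain2 hc hlogD K (fun _ _ h => h) hw)).trans ?_
    rw [Real.one_rpow, Real.one_rpow, one_mul]
    refine div_le_div_of_nonneg_right (mul_le_mul_of_nonneg_right (mul_le_mul_of_nonneg_right
      (mul_le_mul_of_nonneg_right ?_ (by positivity)) zero_le_one) (by positivity)) (by positivity)
    exact le_mul_of_one_le_left (by positivity) (by norm_num)
  -- the four parts
  let q1 : ℕ → ℕ → Prop := fun v w => Piece S P0 (Q2 * downDev U k v) (upDev U k w)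
  let q2 : ℕ → ℕ → Prop := fun v w => Piece S P0 (Q1 * upDev U k v) (downDev U k w)
  let q3 : ℕ → ℕ → Prop := fun v w => Piece S P0 (Q1 * downDev U k w) (upDev U k v)
  let q4 : ℕ → ℕ → Prop := fun v w => Piece S P0 (Q2 * upDev U k w) (downDev U k v)
  let cut : (ℕ → ℕ → Prop) → ℕ → ℕ → ℝ := fun q v w => if q v w then K v w else 0
  have hcut0 : ∀ q v w, 0 ≤ cut q v w := fun q v w => by
    simp only [cut]; split_ifs; exacts [hK0 v w, le_rfl]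
  have hcutK : ∀ q v w, cut q v w ≤ K v w := fun q v w => by
    simp only [cut]; split_ifs; exacts [le_rfl, hK0 v w]
  have hcutne : ∀ q v w, cut q v w ≠ 0 → q v w ∧ K v w ≠ 0 := fun q v w hne => by
    by_cases hq : q v w
    · exact ⟨hq, by simpa [cut, hq] using hne⟩
    · simp [cut, hq] at hne
  have hsplit : ∀ v ∈ V, ∀ w ∈ W, K v w ≤ cut q1 v w + cut q2 v w + cut q3 v w + cut q4 v w := by
    intro v hv w hw
    have n1 := hcut0 q1 v w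
    have n2 := hcut0 q2 v w
    have n3 := hcut0 q3 v w
    have n4 := hcut0 q4 v w
    by_cases hne : K v w = 0
    · linarith
    obtain ⟨-, ⟨-, -, -, -, ⟨A, hA, hAd⟩, A', hA', hAd'⟩, -⟩ := hsupp v hv w hw hne
    obtain ⟨e1, e2, -⟩ := hdev v hv w hw hne
    rw [e2] at hAd
    rw [e1] at hAd'
    have hA0 : 0 < A := by exact_mod_cast he.trans (hS.lower A hA)
    have hA0' : 0 < A' := by exact_mod_cast he.trans (hS.lower A' hA')
    rcases exists_piece he hP0 (hS.lower A hA) (hS.lower A' hA') ⟨hQ1, hQ2, upDev_pos hU k v,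
      downDev_pos hU k w, upDev_pos hU k w, downDev_pos hU k v⟩ hAd hAd' hsmall with
      hp | hp | hp | hp
    · have : q1 v w := ⟨A, hA, hp, div_gcd_dvd hA0 (hAd.trans (dvd_of_eq (by ring)))⟩
      have e : cut q1 v w = K v w := if_pos this
      linarith
    · have : q4 v w := ⟨A, hA, hp, div_gcd_dvd hA0 (hAd.trans (dvd_of_eq (by ring)))⟩
      have e : cut q4 v w = K v w := if_pos this
      linarith
    · have : q3 v w := ⟨A', hA', hp, div_gcd_dvd hA0' (hAd'.trans (dvd_of_eq (by ring)))⟩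
      have e : cut q3 v w = K v w := if_pos this
      linarith
    · have : q2 v w := ⟨A', hA', hp, div_gcd_dvd hA0' (hAd'.trans (dvd_of_eq (by ring)))⟩
      have e : cut q2 v w = K v w := if_pos this
      linarith
  have p1 := part (cut q1) Γ 1 (hcut0 _) (hcutK _) hΓ0 zero_le_one
    (hd.piece1 hc he hκ hL hlogD hτ hτ1 hS (cut q1) fun v w h => hcutne q1 v w h)
    (fun w hw => hd.plain2 hc hlogD _ (fun v w h => (hcutne q1 v w h).2) hw)
  have p2 := part (cut q2) Γ 1 (hcut0 _) (hcutK _) hΓ0 zero_le_one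
    (hd.piece2 hc he hκ hL hlogD hτ hτ1 hS (cut q2) fun v w h => hcutne q2 v w h)
    (fun w hw => hd.plain2 hc hlogD _ (fun v w h => (hcutne q2 v w h).2) hw)
  have p3 := part (cut q3) 1 Γ (hcut0 _) (hcutK _) zero_le_one hΓ0
    (fun v hv => hd.plain1 hc hlogD _ (fun v w h => (hcutne q3 v w h).2) hv)
    (hd.piece3 hc he hκ hL hlogD hτ hτ1 hS (cut q3) fun v w h => hcutne q3 v w h)
  have p4 := part (cut q4) 1 Γ (hcut0 _) (hcutK _) zero_le_one hΓ0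
    (fun v hv => hd.plain1 hc hlogD _ (fun v w h => (hcutne q4 v w h).2) hv)
    (hd.piece4 hc he hκ hL hlogD hτ hτ1 hS (cut q4) fun v w h => hcutne q4 v w h)
  simp only [Real.one_rpow, mul_one, one_mul] at p1 p2 p3 p4
  calc ∑ v ∈ V, ∑ w ∈ W, K v w * (F v * F w)
      ≤ (∑ v ∈ V, ∑ w ∈ W, cut q1 v w * (F v * F w)) + (∑ v ∈ V, ∑ w ∈ W, cut q2 v w * (F v * F w)) +
        (∑ v ∈ V, ∑ w ∈ W, cut q3 v w * (F v * F w)) + ∑ v ∈ V, ∑ w ∈ W, cut q4 v w * (F v * F w) := by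
        simp only [← Finset.sum_add_distrib, ← add_mul]
        exact Finset.sum_le_sum fun v hv => Finset.sum_le_sum fun w hw =>
          mul_le_mul_of_nonneg_right (hsplit v hv w hw)
            (mul_nonneg (hpool.F_nonneg v) (hpool.F_nonneg w))
    _ ≤ _ := add_le_add (add_le_add (add_le_add p1 p2) p3) p4
    _ ≤ _ := by
        have t1 : 0 ≤ Γ ^ alL1 := by positivity
        have t2 : 0 ≤ Γ ^ alL2 := by positivity
        set Z := C0 ^ alL1 * C0 ^ alL2 * r ^ (1 - delL) * (M ^ omL * (mV * mW) ^ thL) /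
          ((Q1 * Q2 : ℕ) : ℝ) ^ alL2 with hZ
        have hZ0 : 0 ≤ Z := by positivity
        refine le_of_eq_of_le (b := Z * (2 * Γ ^ alL1 + 2 * Γ ^ alL2)) (by rw [hZ]; ring) ?_
        refine le_trans (mul_le_mul_of_nonneg_left
          (by linarith : 2 * Γ ^ alL1 + 2 * Γ ^ alL2 ≤ 4 * (Γ ^ alL1 + Γ ^ alL2)) hZ0) (le_of_eq ?_)
        rw [hZ]; ring

open Classical in
/-- The final state estimate for the pairs with `c ≤ a`. -/
theorem exists_half_le :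
    ∃ C : ℝ, 0 < C ∧ ∀ (P W0 U V W : Finset ℕ) (i j k : ℕ → ℕ) (F f : ℕ → ℝ) (k0 : ℕ → ℕ)
      (Y D0 : ℕ) (r e P0 κ τ L : ℝ) (S : Finset ℕ),
      FinState P W0 U V W i j → Pool F f W0 k0 Y → 0 < r → D0 ≤ Y → 0 < e → 0 ≤ P0 → 0 ≤ κ →
      1 ≤ L → Real.log D0 ≤ L → (∀ n : ℕ, 0 < n → n ≤ D0 → (n.divisors.card : ℝ) ≤ τ) → 1 ≤ τ →
      Sparse S e P0 κ →
      ∀ K : ℕ → ℕ → ℝ, (∀ v w, 0 ≤ K v w) → (∀ v w, K v w ≤ 1) →
      (∀ v ∈ V, ∀ w ∈ W, K v w ≠ 0 →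
        NoCoDev U k v w ∧ Supp f r D0 S v w ∧ upDev U k w ≤ upDev U k v) →
      ∀ H : ℝ, (H = 1 ∨ (H = (τ * κ * L ^ 2) ^ alL1 + (τ * κ * L ^ 2) ^ alL2 ∧
          ((fixedPart (P \ U) i j * fixedPart (P \ U) j i : ℕ) : ℝ) * P0 ^ 4 ≤ e ^ 2)) →
      ∑ v ∈ V, ∑ w ∈ W, K v w * (F v * F w) ≤
        C * r ^ (1 - delL) * H * ((∑ v ∈ W0, F v) ^ omL *
          ((∑ v ∈ V, F v) * ∑ w ∈ W, F w) ^ thL) /
          ((fixedPart (P \ U) i j * fixedPart (P \ U) j i : ℕ) : ℝ) ^ alL2 := by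
  obtain ⟨Cc, hCc⟩ := exists_centre_sum_le
  obtain ⟨Cb, hCb0, hCb⟩ := exists_block_below_le sL (by norm_num [sL, omL]) (by norm_num [sL, omL])
  obtain ⟨Ca, hCa0, hCa⟩ := exists_block_above_le tL (by norm_num [tL, sL, omL, alL1, alL2, delL])
  obtain ⟨Cd, hCd0, hCd⟩ := exists_block_down_le
  have hc : SumConsts Cb Ca Cd (max Cc 1) (2 * ((Cb + Ca + 1) * (max Cc 1 + Cd))) := by
    refine ⟨hCb0, hCa0, hCd0, le_max_right _ _, rfl, hCb, hCa, hCd, fun N hN T hT => ?_⟩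
    refine (Finset.sum_le_sum_of_subset_of_nonneg hT fun d _ _ => pDown_nonneg N d).trans ?_
    refine le_trans (le_of_eq ?_) ((hCc N hN).trans (le_max_left _ _))
    rw [Finset.mul_sum]
    exact Finset.sum_congr rfl fun d _ => by rw [pDown]; ring
  generalize 2 * ((Cb + Ca + 1) * (max Cc 1 + Cd)) = C0 at hc
  have hC0p := hc.bounds.1
  refine ⟨4 * (C0 ^ alL1 * C0 ^ alL2), by positivity, ?_⟩
  intro P W0 U V W i j k F f k0 Y D0 r e P0 κ τ L S h hpool hr hDY he hP0 hκ hL hlogD hτ hτ1 hS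
    K hK0 hK1 hsupp H hH
  exact half_main ⟨h, hpool, hr, hDY, hK0, hK1, hsupp⟩ he hP0 hκ hL hlogD hτ hτ1 hS hc H hH

open Classical in
/-- The pairs with a sparse divisor on both sides gain. -/
theorem exists_sparse_le :
    ∃ C : ℝ, 0 < C ∧ ∀ (F f : ℕ → ℝ) (W : Finset ℕ) (k : ℕ → ℕ) (Y D0 : ℕ)
      (r e P0 κ τ L T : ℝ) (S : Finset ℕ),
      Pool F f W k Y → 0 < r → D0 ≤ Y → 0 < e → 0 ≤ P0 → 0 ≤ κ → 1 ≤ L → Real.log D0 ≤ L →
      (∀ n : ℕ, 0 < n → n ≤ D0 → (n.divisors.card : ℝ) ≤ τ) → 1 ≤ τ → Sparse S e P0 κ →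
      1 ≤ T → T * P0 ^ 4 ≤ e ^ 2 →
      ∀ K : ℕ → ℕ → ℝ, (∀ v w, 0 ≤ K v w) → (∀ v w, K v w ≤ 1) →
      (∀ v w, K v w ≠ 0 → Supp f r D0 S v w) →
      ∑ v ∈ W, ∑ w ∈ W, K v w * (F v * F w) ≤
        C * r ^ (1 - delL) *
          (T ^ (-(alL2 - beL)) + ((τ * κ * L ^ 2) ^ alL1 + (τ * κ * L ^ 2) ^ alL2)) *
          (∑ v ∈ W, F v) ^ (2 * thL + omL) := by
  have hb : 0 < beL := by norm_num [beL, thL, alL1, omL, delL]
  obtain ⟨Cr, hCr⟩ := exists_split_bound2 thL beL (by norm_num [thL, alL1, omL, delL])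
    (by norm_num [thL, alL1, omL, delL]) hb (by norm_num [beL, thL, alL1, omL, delL])
  obtain ⟨C1, hC1, hhalf⟩ := exists_half_le
  refine ⟨max Cr 1 * (2 * C1), by positivity, ?_⟩
  intro F f W k Y D0 r e P0 κ τ L T S hpool hr hDY he hP0 hκ hL hlogD hτ hτ1 hS hT hTe K hK0 hK1 hsupp
  set P := W.biUnion Nat.primeFactors with hP
  set Γ := τ * κ * L ^ 2 with hΓ
  set M := ∑ v ∈ W, F v with hM
  have hM0 : 0 ≤ M := Finset.sum_nonneg fun v _ => hpool.F_nonneg v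
  have hΓ0 : 0 ≤ Γ := by positivity
  set Ξ := T ^ (-(alL2 - beL)) + (Γ ^ alL1 + Γ ^ alL2) with hΞ
  have hΞ0 : 0 ≤ Ξ := by positivity
  set G := 2 * C1 * r ^ (1 - delL) * Ξ * M ^ omL with hG
  have hG0 : 0 ≤ G := by positivity
  have hfinal : FinalBound2 thL beL G P W F F K := by
    intro U V V' i j k' hU hV hV' hfix hfix' K' hK'0 hK'K hnc
    have hst : FinState P W U V V' i j :=
      ⟨fun p hp => by
        obtain ⟨q, -, hq⟩ := Finset.mem_biUnion.1 hp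
        exact Nat.prime_of_mem_primeFactors hq,
        hpool.pos, fun q hq => Finset.subset_biUnion_of_mem Nat.primeFactors hq,
        hU, hV, hV', hfix, hfix'⟩
    have hK'ne : ∀ v w, K' v w ≠ 0 → Supp f r D0 S v w := fun v w hne =>
      hsupp v w fun h0 => hne (le_antisymm (h0 ▸ hK'K v w) (hK'0 v w))
    set n : ℕ := fixedPart (P \ U) i j * fixedPart (P \ U) j i with hn
    have hn1 : (1 : ℝ) ≤ n := by
      exact_mod_cast Nat.mul_pos (fixedPart_pos hst.prime_sdiff i j) (fixedPart_pos hst.prime_sdiff j i)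
    have hgain : 0 ≤ alL2 - beL := by norm_num [beL, thL, alL1, alL2, omL, delL]
    obtain ⟨H, hH0, hH, hHΞ⟩ : ∃ H : ℝ, 0 ≤ H ∧
        (H = 1 ∨ (H = Γ ^ alL1 + Γ ^ alL2 ∧ (n : ℝ) * P0 ^ 4 ≤ e ^ 2)) ∧
        H / (n : ℝ) ^ alL2 ≤ Ξ / (n : ℝ) ^ beL := by
      rcases le_or_gt T (n : ℝ) with hTn | hTn
      · refine ⟨1, zero_le_one, Or.inl rfl, ?_⟩
        rw [div_le_div_iff₀ (by positivity) (by positivity), one_mul]
        have e1 : (n : ℝ) ^ beL = (n : ℝ) ^ (-(alL2 - beL)) * (n : ℝ) ^ alL2 := by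
          rw [← Real.rpow_add (by linarith)]; congr 1; ring
        rw [e1]
        refine mul_le_mul_of_nonneg_right ((Real.rpow_le_rpow_of_nonpos (by linarith) hTn
          (by linarith)).trans (le_add_of_nonneg_right (by positivity))) (by positivity)
      · refine ⟨_, by positivity, Or.inr ⟨rfl, le_trans
          (mul_le_mul_of_nonneg_right hTn.le (by positivity)) hTe⟩, ?_⟩
        exact div_le_div₀ hΞ0 (le_add_of_nonneg_left (by positivity)) (by positivity)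
          (Real.rpow_le_rpow_of_exponent_le hn1 (by linarith))
    let K1 : ℕ → ℕ → ℝ := fun v w => if upDev U k' w ≤ upDev U k' v then K' v w else 0
    let K2 : ℕ → ℕ → ℝ := fun w v => if upDev U k' v ≤ upDev U k' w then K' v w else 0
    have b1 := hhalf P W U V V' i j k' F f k Y D0 r e P0 κ τ L S hst hpool hr hDY he hP0 hκ hL hlogD
      hτ hτ1 hS K1 (fun v w => by simp only [K1]; split_ifs; exacts [hK'0 v w, le_rfl])
      (fun v w => by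
        simp only [K1]; split_ifs
        exacts [(hK'K v w).trans (hK1 v w), zero_le_one])
      (fun v _ w _ hne => by
        by_cases hc : upDev U k' w ≤ upDev U k' v
        · have hne' : K' v w ≠ 0 := by simpa [K1, hc] using hne
          exact ⟨hnc v w hne', hK'ne v w hne', hc⟩
        · simp [K1, hc] at hne) H hH
    have b2 := hhalf P W U V' V j i k' F f k Y D0 r e P0 κ τ L S hst.symm hpool hr hDY he hP0 hκ hL
      hlogD hτ hτ1 hS K2 (fun w v => by simp only [K2]; split_ifs; exacts [hK'0 v w, le_rfl])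
      (fun w v => by
        simp only [K2]; split_ifs
        exacts [(hK'K v w).trans (hK1 v w), zero_le_one])
      (fun w _ v _ hne => by
        by_cases hc : upDev U k' v ≤ upDev U k' w
        · have hne' : K' v w ≠ 0 := by simpa [K2, hc] using hne
          exact ⟨fun p hp => (hnc v w hne' p hp).symm, (hK'ne v w hne').symm, hc⟩
        · simp [K2, hc] at hne) H (by rwa [mul_comm (fixedPart (P \ U) j i)])
    rw [mul_comm (fixedPart (P \ U) j i), mul_comm (∑ v ∈ V', F v)] at b2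
    rw [← hn] at b1 b2
    set mm := ((∑ v ∈ V, F v) * ∑ w ∈ V', F w) ^ thL with hmm
    have hmm0 : 0 ≤ mm := Real.rpow_nonneg (mul_nonneg
      (Finset.sum_nonneg fun v _ => hpool.F_nonneg v) (Finset.sum_nonneg fun v _ => hpool.F_nonneg v)) _
    calc ∑ v ∈ V, ∑ w ∈ V', K' v w * (F v * F w)
        ≤ ∑ v ∈ V, ∑ w ∈ V', K1 v w * (F v * F w) + ∑ w ∈ V', ∑ v ∈ V, K2 w v * (F w * F v) := by
          rw [Finset.sum_comm (s := V') (t := V), ← Finset.sum_add_distrib]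
          refine Finset.sum_le_sum fun v _ => ?_
          rw [← Finset.sum_add_distrib]
          refine Finset.sum_le_sum fun w _ => ?_
          have := mul_nonneg (hK'0 v w) (mul_nonneg (hpool.F_nonneg v) (hpool.F_nonneg w))
          simp only [K1, K2, mul_comm (F w) (F v)]
          rcases le_total (upDev U k' w) (upDev U k' v) with hc | hc
          · rw [if_pos hc]
            split_ifs <;> linarith
          · rw [if_pos hc]
            split_ifs <;> linarith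
      _ ≤ _ := add_le_add b1 b2
      _ = 2 * C1 * r ^ (1 - delL) * (M ^ omL * mm) * (H / (n : ℝ) ^ alL2) := by ring
      _ ≤ 2 * C1 * r ^ (1 - delL) * (M ^ omL * mm) * (Ξ / (n : ℝ) ^ beL) :=
          mul_le_mul_of_nonneg_left hHΞ (by positivity)
      _ = G * mm / (n : ℝ) ^ beL := by rw [hG]; ring
  have hzero : ∀ q ∈ W, ∀ p, p ∉ P → q.factorization p = (fun _ => 0 : ℕ → ℕ) p := by
    intro q hq p hp
    by_contra hne
    refine hp (Finset.mem_biUnion.2 ⟨q, hq, ?_⟩)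
    rw [← Nat.support_factorization]
    exact Finsupp.mem_support_iff.2 hne
  have := hCr P W F F K G (fun p hp => by
      obtain ⟨q, -, hq⟩ := Finset.mem_biUnion.1 hp
      exact Nat.prime_of_mem_primeFactors hq) hpool.F_nonneg hpool.F_nonneg hK0 hG0 hfinal
    P W W (fun _ => 0) (fun _ => 0) subset_rfl subset_rfl subset_rfl hzero hzero
  simp only [fixedPart, Finset.sdiff_self, Finset.prod_empty, mul_one, Nat.cast_one,
    Real.one_rpow, div_one] at this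
  refine this.trans ?_
  rw [← hM, show (M * M) ^ thL = M ^ thL * M ^ thL from Real.mul_rpow hM0 hM0]
  calc Cr * G * (M ^ thL * M ^ thL) ≤ max Cr 1 * G * (M ^ thL * M ^ thL) := by
        gcongr; exact le_max_left _ _
    _ = max Cr 1 * (2 * C1) * r ^ (1 - delL) * Ξ * (M ^ omL * (M ^ thL * M ^ thL)) := by
        rw [hG]; ring
    _ = _ := by
        rw [← Real.rpow_add' hM0 (by norm_num [thL, alL1, omL, delL]),
          ← Real.rpow_add' hM0 (by norm_num [thL, alL1, omL, delL]),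
          show omL + (thL + thL) = 2 * thL + omL by ring]

end Vale.Agent.P028.Lift.SideSelfAux
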