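import Vale.Agent.P028.Lift.SideLink
import Vale.Agent.P028.Lift.SideSelfState
import Vale.Agent.P028.Lift.Matching
import Vale.Agent.P028.NumberLemmas

/-!
The three ranges of the pairs inside one family: a large common factor, a small height, and the
sparse range.
-/

noncomputable section

namespace Vale.Agent.P028.Lift.SideSelfAux

open Finset BilinearAux

/-- The loss of the divisor bound. -/
def etaS : ℝ := 1 / 10 ^ 18

/-- `τ(n) ≤ C n ^ δ`. -/
theorem exists_divisors_le_rpow (δ : ℝ) (hδ : 0 < δ) :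
    ∃ C : ℝ, 1 ≤ C ∧ ∀ n : ℕ, 0 < n → (n.divisors.card : ℝ) ≤ C * (n : ℝ) ^ δ := by
  obtain ⟨C, L0, _, hdiv⟩ := exists_divisors_card_le
  set L1 : ℝ := max (max L0 2) (Real.exp (C / δ)) with hL1
  have hL10 : 2 ≤ L1 := (le_max_right _ _).trans (le_max_left _ _)
  refine ⟨Real.exp (δ * L1), Real.one_le_exp (by positivity), fun n hn => ?_⟩
  have hn1 : (1 : ℝ) ≤ n := by exact_mod_cast hn
  have hlog : 0 ≤ Real.log (n : ℝ) := Real.log_nonneg hn1
  set L : ℝ := max L1 (Real.log n) with hL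
  have hLe : L0 ≤ L := ((le_max_left _ _).trans (le_max_left _ _)).trans (le_max_left _ _)
  have hL2 : 2 ≤ L := hL10.trans (le_max_left _ _)
  have hLexp : Real.exp (C / δ) ≤ L := (le_max_right _ _).trans (le_max_left _ _)
  have hnL : (n : ℝ) ≤ Real.exp L :=
    ((Real.exp_log (by linarith)).symm.le).trans (Real.exp_le_exp.2 (le_max_right _ _))
  refine (hdiv L hLe n hn hnL).trans ?_
  rw [Real.rpow_def_of_pos (by linarith : (0 : ℝ) < n), ← Real.exp_add, Real.exp_le_exp]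
  have h1 : C / δ ≤ Real.log L := (Real.le_log_iff_exp_le (by linarith)).2 hLexp
  rw [div_le_iff₀ hδ] at h1
  have hlogL : 0 < Real.log L := Real.log_pos (by linarith)
  have h2 : C * L / Real.log L ≤ δ * L := by
    rw [div_le_iff₀ hlogL]
    calc C * L ≤ Real.log L * δ * L := mul_le_mul_of_nonneg_right h1 (by linarith)
      _ = δ * L * Real.log L := by ring
  refine h2.trans ?_
  rw [mul_comm (Real.log _) δ, ← mul_add]
  exact mul_le_mul_of_nonneg_left (max_le (by linarith) (by linarith)) hδ.le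

/-- The numerical data of the pairs. -/
structure Data (F f : ℕ → ℝ) (W : Finset ℕ) (k : ℕ → ℕ) (Y : ℕ) (x E : ℝ) : Prop where
  pool : Pool F f W k Y
  x_pos : 0 < x
  x_small : x ≤ 1 / 256 ^ 100
  Y_ge : x ^ (-(9 : ℝ)) ≤ (Y : ℝ)
  E_ge : x ^ (-(899 / 1000 : ℝ)) ≤ E
  E_le : E ≤ x ^ (-(22 / 10 : ℝ))
  f_le : ∀ w ∈ W, f w * E ≤ x

theorem Data.x_le_one {F f : ℕ → ℝ} {W : Finset ℕ} {k : ℕ → ℕ} {Y : ℕ} {x E : ℝ}
    (h : Data F f W k Y x E) : x ≤ 1 :=
  h.x_small.trans (by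
    rw [div_le_one (by positivity)]
    exact one_le_pow₀ (by norm_num))

theorem Data.one_le_pow {F f : ℕ → ℝ} {W : Finset ℕ} {k : ℕ → ℕ} {Y : ℕ} {x E : ℝ}
    (h : Data F f W k Y x E) {a : ℝ} (ha : 0 ≤ a) : 1 ≤ x ^ (-a) :=
  Real.one_le_rpow_of_pos_of_le_one_of_nonpos h.x_pos h.x_le_one (by linarith)

theorem Data.E_pos {F f : ℕ → ℝ} {W : Finset ℕ} {k : ℕ → ℕ} {Y : ℕ} {x E : ℝ}
    (h : Data F f W k Y x E) : 0 < E :=
  (Real.rpow_pos_of_pos h.x_pos _).trans_le h.E_ge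

/-- The height of a pair. -/
def ht (v w : ℕ) : ℕ := max (qd w v) (qd v w)

/-- The largest height. -/
def topD (x : ℝ) : ℕ := ⌊x ^ (-(8 : ℝ))⌋₊

theorem topD_le {F f : ℕ → ℝ} {W : Finset ℕ} {k : ℕ → ℕ} {Y : ℕ} {x E : ℝ}
    (h : Data F f W k Y x E) : topD x ≤ Y := by
  refine Nat.floor_le_of_le (le_trans ?_ h.Y_ge)
  exact Real.rpow_le_rpow_of_exponent_ge h.x_pos h.x_le_one (by norm_num)

/-- `8 log (1/x) + 1`. -/
def logTop (x : ℝ) : ℝ := 8 * Real.log (1 / x) + 1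

theorem logTop_facts {x : ℝ} (hx : 0 < x) (hx1 : x ≤ 1) :
    1 ≤ logTop x ∧ logTop x ≤ (8 / etaS + 1) * x ^ (-etaS) ∧
      Real.log (topD x) ≤ logTop x ∧ ((Nat.log 2 (topD x) + 1 : ℕ) : ℝ) ≤ 2 * logTop x := by
  have hη : (0 : ℝ) < etaS := by norm_num [etaS]
  have hX1 : 1 ≤ 1 / x := by rw [le_div_iff₀ hx]; linarith
  have hl0 : 0 ≤ Real.log (1 / x) := Real.log_nonneg hX1
  have hpow : (1 / x) ^ etaS = x ^ (-etaS) := by
    rw [one_div, Real.inv_rpow hx.le, Real.rpow_neg hx.le]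
  have h1 : (1 : ℝ) ≤ x ^ (-etaS) :=
    Real.one_le_rpow_of_pos_of_le_one_of_nonpos hx hx1 (by linarith)
  have h2 : Real.log (1 / x) ≤ x ^ (-etaS) / etaS :=
    hpow ▸ Real.log_le_rpow_div (by positivity) hη
  have h8 : (topD x : ℝ) ≤ x ^ (-(8 : ℝ)) := Nat.floor_le (Real.rpow_nonneg hx.le _)
  have h8' : 1 ≤ topD x := by
    refine Nat.le_floor ?_
    rw [Nat.cast_one]
    exact Real.one_le_rpow_of_pos_of_le_one_of_nonpos hx hx1 (by norm_num)
  have hlogD : Real.log (topD x) ≤ 8 * Real.log (1 / x) := by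
    refine (Real.log_le_log (Nat.cast_pos.2 h8') h8).trans (le_of_eq ?_)
    rw [Real.log_rpow hx, one_div, Real.log_inv]
    ring
  refine ⟨by unfold logTop; linarith, ?_, by unfold logTop; linarith, ?_⟩
  · have h3 := mul_le_mul_of_nonneg_left h2 (show (0 : ℝ) ≤ 8 by norm_num)
    calc logTop x ≤ 8 * (x ^ (-etaS) / etaS) + x ^ (-etaS) := by unfold logTop; linarith
      _ = (8 / etaS + 1) * x ^ (-etaS) := by ring
  · have h4 : (2 : ℝ) ^ (Nat.log 2 (topD x)) ≤ (topD x : ℝ) := by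
      exact_mod_cast Nat.pow_log_le_self 2 (Nat.one_le_iff_ne_zero.1 h8')
    have h5 := Real.log_le_log (by positivity) h4
    rw [Real.log_pow] at h5
    have h6 : (1 / 2 : ℝ) ≤ Real.log 2 := by linarith [Real.log_two_gt_d9]
    have h7 := mul_le_mul_of_nonneg_left h6 (Nat.cast_nonneg (α := ℝ) (Nat.log 2 (topD x)))
    push_cast
    unfold logTop
    linarith

open Classical in
/-- The pairs split by the dyadic size of the height. -/
theorem sum_pairs_dyadic (W : Finset ℕ) (x : ℝ) (G : ℕ → ℕ → ℝ) :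
    ∑ w ∈ W, ∑ w' ∈ W.filter (fun w' => max (qd w' w : ℝ) (qd w w') ≤ x ^ (-(8 : ℝ))), G w w' =
      ∑ j ∈ Finset.range (Nat.log 2 (topD x) + 1), ∑ w ∈ W,
        ∑ w' ∈ W.filter (fun w' => max (qd w' w : ℝ) (qd w w') ≤ x ^ (-(8 : ℝ)) ∧
          Nat.log 2 (ht w w') = j), G w w' := by
  rw [Finset.sum_comm]
  refine Finset.sum_congr rfl fun w _ => ?_
  rw [← Finset.sum_fiberwise_of_maps_to (g := fun w' => Nat.log 2 (ht w w'))
    (t := Finset.range (Nat.log 2 (topD x) + 1)) ?_]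
  · refine Finset.sum_congr rfl fun j _ => ?_
    rw [Finset.filter_filter]
  · intro w' hw'
    have h : (ht w w' : ℝ) ≤ x ^ (-(8 : ℝ)) := by
      rw [ht, Nat.cast_max]; exact (Finset.mem_filter.1 hw').2
    exact Finset.mem_range.2 (Nat.lt_succ_of_le (Nat.log_mono_right (Nat.le_floor h)))

/-- The radius of a block. -/
def radJ (x E : ℝ) (j : ℕ) : ℝ := 2 ^ (j + 1) * (x / E)

theorem radJ_pos {x E : ℝ} (hx : 0 < x) (hE : 0 < E) (j : ℕ) : 0 < radJ x E j := by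
  unfold radJ; positivity

theorem radJ_ge {x E : ℝ} (hx : 0 < x) (hx1 : x ≤ 1) (hE : 0 < E)
    (hE2 : E ≤ x ^ (-(22 / 10 : ℝ))) (j : ℕ) : x ^ (4 : ℝ) ≤ radJ x E j := by
  have h1 : x ^ (4 : ℝ) * E ≤ x ^ (4 : ℝ) * x ^ (-(22 / 10 : ℝ)) :=
    mul_le_mul_of_nonneg_left hE2 (Real.rpow_nonneg hx.le _)
  rw [← Real.rpow_add hx] at h1
  have h2 : x ^ ((4 : ℝ) + -(22 / 10 : ℝ)) ≤ x ^ (1 : ℝ) :=
    Real.rpow_le_rpow_of_exponent_ge hx hx1 (by norm_num)
  rw [Real.rpow_one] at h2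
  have h3 : x ^ (4 : ℝ) ≤ x / E := by rw [le_div_iff₀ hE]; linarith
  refine h3.trans ?_
  unfold radJ
  exact le_mul_of_one_le_left (by positivity) (one_le_pow₀ (by norm_num))

theorem radJ_rpow_le {x E : ℝ} (hx : 0 < x) (hx1 : x ≤ 1) (hE : 0 < E)
    (hE2 : E ≤ x ^ (-(22 / 10 : ℝ))) (j : ℕ) :
    radJ x E j ^ (1 - delL) ≤ radJ x E j * x ^ (-(4 * delL)) := by
  have hr := radJ_pos hx hE j
  rw [sub_eq_add_neg, Real.rpow_add hr, Real.rpow_one]
  refine mul_le_mul_of_nonneg_left ?_ hr.le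
  rw [show -(4 * delL) = (4 : ℝ) * -delL by ring, Real.rpow_mul hx.le]
  exact Real.rpow_le_rpow_of_nonpos (Real.rpow_pos_of_pos hx _) (radJ_ge hx hx1 hE hE2 j)
    (by norm_num [delL])

theorem Data.mem_block {F f : ℕ → ℝ} {W : Finset ℕ} {k : ℕ → ℕ} {Y : ℕ} {x E : ℝ}
    (h : Data F f W k Y x E) {w w' : ℕ} (hw : w ∈ W) (hw' : w' ∈ W) {j : ℕ}
    (hH : max (qd w' w : ℝ) (qd w w') ≤ x ^ (-(8 : ℝ))) (hj : Nat.log 2 (ht w w') = j) :
    f w * (qd w' w : ℝ) ≤ radJ x E j ∧ f w' * (qd w w' : ℝ) ≤ radJ x E j ∧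
      qd w' w ≤ topD x ∧ qd w w' ≤ topD x ∧ (2 : ℝ) ^ j ≤ ht w w' ∧
      (ht w w' : ℝ) < 2 ^ (j + 1) := by
  have hE := h.E_pos
  have hp : 0 < ht w w' :=
    lt_of_lt_of_le (qd_pos (h.pool.pos w' hw')) (le_max_left _ _)
  have hlo : (2 : ℝ) ^ j ≤ ht w w' := by
    rw [← hj]; exact_mod_cast Nat.pow_log_le_self 2 hp.ne'
  have hhi : (ht w w' : ℝ) < 2 ^ (j + 1) := by
    rw [← hj]; exact_mod_cast Nat.lt_pow_succ_log_self one_lt_two (ht w w')
  have hf : ∀ v ∈ W, ∀ z : ℕ, z ≤ ht w w' → f v * (z : ℝ) ≤ radJ x E j := by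
    intro v hv z hz
    have h1 : f v ≤ x / E := by rw [le_div_iff₀ hE]; exact h.f_le v hv
    refine (mul_le_mul h1 ((Nat.cast_le.2 hz).trans hhi.le) (Nat.cast_nonneg _)
      (div_nonneg h.x_pos.le hE.le)).trans_eq ?_
    rw [radJ]; ring
  exact ⟨hf w hw _ (le_max_left _ _), hf w' hw' _ (le_max_right _ _),
    Nat.le_floor ((le_max_left _ _).trans hH), Nat.le_floor ((le_max_right _ _).trans hH), hlo, hhi⟩

open Classical in
/-- The pairs weighted by `1 / H`. -/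
theorem exists_pairs_inv_le :
    ∃ C : ℝ, 0 < C ∧ ∀ (F f : ℕ → ℝ) (W : Finset ℕ) (k : ℕ → ℕ) (Y : ℕ) (x E : ℝ),
      Data F f W k Y x E →
      ∑ w ∈ W, ∑ w' ∈ W.filter (fun w' => max (qd w' w : ℝ) (qd w w') ≤ x ^ (-(8 : ℝ))),
          F w * F w' * (1 / max (qd w' w : ℝ) (qd w w')) ≤
        C * logTop x * (x / E) * x ^ (-(4 * delL)) * (∑ w ∈ W, F w) ^ (2 * thL + omL) := by
  obtain ⟨C, hC, hbil⟩ := exists_bilPool_le
  refine ⟨16 * C, by positivity, ?_⟩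
  intro F f W k Y x E h
  have hx := h.x_pos
  have hx1 := h.x_le_one
  have hE := h.E_pos
  set M := ∑ w ∈ W, F w with hM
  have hM0 : 0 ≤ M := Finset.sum_nonneg fun v _ => h.pool.F_nonneg v
  have hY2 : 2 ≤ Y := by
    have h1 : (2 : ℝ) ≤ x ^ (-(9 : ℝ)) := by
      have h2 : (2 : ℝ) ≤ x⁻¹ := by
        rw [le_inv_comm₀ (by norm_num) hx]
        exact h.x_small.trans (by norm_num)
      refine h2.trans ?_
      rw [← Real.rpow_neg_one]
      exact Real.rpow_le_rpow_of_exponent_ge hx hx1 (by norm_num)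
    exact_mod_cast h1.trans h.Y_ge
  have hshape : bilShape M M = 2 * M ^ (2 * thL + omL) := by
    rw [bilShape, Real.mul_rpow hM0 hM0,
      show 2 * thL + omL = omL + (thL + thL) by ring,
      Real.rpow_add' hM0 (by norm_num [thL, alL1, omL, delL]),
      Real.rpow_add' hM0 (by norm_num [thL, alL1, omL, delL])]
    ring
  rw [sum_pairs_dyadic]
  refine le_trans (Finset.sum_le_card_nsmul _ _
    (8 * C * (x / E) * x ^ (-(4 * delL)) * M ^ (2 * thL + omL)) fun j _ => ?_) ?_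
  · set r := radJ x E j with hr
    have hr0 : 0 < r := radJ_pos hx hE j
    calc ∑ w ∈ W, ∑ w' ∈ W.filter (fun w' => max (qd w' w : ℝ) (qd w w') ≤ x ^ (-(8 : ℝ)) ∧
            Nat.log 2 (ht w w') = j), F w * F w' * (1 / max (qd w' w : ℝ) (qd w w'))
        ≤ ∑ w ∈ W, ∑ w' ∈ W.filter (fun w' => f w * (qd w' w : ℝ) ≤ r ∧
            f w' * (qd w w' : ℝ) ≤ r ∧
            (Linked k Y w w' ∨ (qd w' w ≤ Y ∧ qd w w' ≤ Y))), F w * F w' * (1 / 2 ^ j) := by
          refine Finset.sum_le_sum fun w hw => ?_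
          refine le_trans (Finset.sum_le_sum (g := fun w' => F w * F w' * (1 / 2 ^ j))
            fun w' hw' => ?_) (Finset.sum_le_sum_of_subset_of_nonneg (fun w' hw' => ?_) ?_)
          · obtain ⟨hw'W, hH, hj⟩ := Finset.mem_filter.1 hw'
            obtain ⟨-, -, -, -, hlo, -⟩ := h.mem_block hw hw'W hH hj
            refine mul_le_mul_of_nonneg_left (one_div_le_one_div_of_le (by positivity) ?_)
              (mul_nonneg (h.pool.F_nonneg _) (h.pool.F_nonneg _))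
            rwa [ht, Nat.cast_max] at hlo
          · obtain ⟨hw'W, hH, hj⟩ := Finset.mem_filter.1 hw'
            obtain ⟨h1, h2, h3, h4, -, -⟩ := h.mem_block hw hw'W hH hj
            exact Finset.mem_filter.2
              ⟨hw'W, h1, h2, Or.inr ⟨h3.trans (topD_le h), h4.trans (topD_le h)⟩⟩
          · exact fun w' _ _ => mul_nonneg (mul_nonneg (h.pool.F_nonneg _) (h.pool.F_nonneg _))
              (by positivity)
      _ = (∑ w ∈ W, ∑ w' ∈ W.filter (fun w' => f w * (qd w' w : ℝ) ≤ r ∧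
            f w' * (qd w w' : ℝ) ≤ r ∧
            (Linked k Y w w' ∨ (qd w' w ≤ Y ∧ qd w w' ≤ Y))), F w * F w') * (1 / 2 ^ j) := by
          simp only [Finset.sum_mul]
      _ ≤ C * ((r ^ alL1 * r ^ alL2) + (r ^ alL1 * r ^ alL2)) * bilShape M M * (1 / 2 ^ j) :=
          mul_le_mul_of_nonneg_right (hbil F F f f W W k Y r r hr0 hr0 hY2 h.pool h.pool)
            (by positivity)
      _ = 4 * C * (r ^ (1 - delL) * (1 / 2 ^ j)) * M ^ (2 * thL + omL) := by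
          rw [hshape, ← Real.rpow_add hr0,
            show alL1 + alL2 = 1 - delL by norm_num [alL1, alL2, omL, delL]]
          ring
      _ ≤ 4 * C * (r * x ^ (-(4 * delL)) * (1 / 2 ^ j)) * M ^ (2 * thL + omL) := by
          refine mul_le_mul_of_nonneg_right (mul_le_mul_of_nonneg_left
            (mul_le_mul_of_nonneg_right (radJ_rpow_le hx hx1 hE h.E_le j) (by positivity))
            (by positivity)) (Real.rpow_nonneg hM0 _)
      _ = _ := by
          rw [hr, radJ, pow_succ]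
          field_simp
          ring
  · rw [nsmul_eq_mul, Finset.card_range]
    refine (mul_le_mul_of_nonneg_right (logTop_facts hx hx1).2.2.2 (by positivity)).trans_eq ?_
    ring

open Classical in
/-- The pairs of `B` with ratio data dividing `p`. -/
def qSet (B : Finset ℕ) (p : ℕ × ℕ) : Finset (ℕ × ℕ) :=
  (B ×ˢ B).filter (fun q => qd q.1 q.2 ∣ p.1 ∧ qd q.2 q.1 ∣ p.2)

theorem selfK_eq (B : Finset ℕ) (E : ℝ) (p : ℕ × ℕ) :
    selfK B E p = ∑ q ∈ qSet B p, E / (Nat.gcd q.1 q.2 : ℝ) / max (p.1 : ℝ) p.2 := by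
  classical
  rw [selfK, qSet]

theorem pair_facts {E : ℝ} (hE : 0 < E) {B : Finset ℕ}
    (hB : ∀ a ∈ B, E < (a : ℝ) ∧ (a : ℝ) ≤ 2 * E) {a a' : ℕ} (ha : a ∈ B) (ha' : a' ∈ B) :
    0 < Nat.gcd a a' ∧ qd a a' * Nat.gcd a a' = a ∧ qd a' a * Nat.gcd a a' = a' ∧
      0 < qd a a' ∧ 0 < qd a' a ∧ E / (Nat.gcd a a' : ℝ) < qd a a' ∧
      (qd a a' : ℝ) ≤ 2 * E / (Nat.gcd a a' : ℝ) ∧ E / (Nat.gcd a a' : ℝ) < qd a' a ∧
      (qd a' a : ℝ) ≤ 2 * E / (Nat.gcd a a' : ℝ) := by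
  have h1 : 0 < a := by exact_mod_cast hE.trans (hB a ha).1
  have h2 : 0 < a' := by exact_mod_cast hE.trans (hB a' ha').1
  have hg : 0 < Nat.gcd a a' := Nat.gcd_pos_of_pos_left _ h1
  have hgR : (0 : ℝ) < Nat.gcd a a' := by exact_mod_cast hg
  have e1 := qd_mul_gcd a a'
  have e2 : qd a' a * Nat.gcd a a' = a' := Nat.gcd_comm a a' ▸ qd_mul_gcd a' a
  have c1 : (qd a a' : ℝ) * Nat.gcd a a' = a := by exact_mod_cast e1
  have c2 : (qd a' a : ℝ) * Nat.gcd a a' = a' := by exact_mod_cast e2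
  refine ⟨hg, e1, e2, qd_pos h1, qd_pos h2, ?_, ?_, ?_, ?_⟩
  · rw [div_lt_iff₀ hgR, c1]; exact (hB a ha).1
  · rw [le_div_iff₀ hgR, c1]; exact (hB a ha).2
  · rw [div_lt_iff₀ hgR, c2]; exact (hB a' ha').1
  · rw [le_div_iff₀ hgR, c2]; exact (hB a' ha').2

open Classical in
/-- The pairs with a large common factor. -/
theorem kA_le {E : ℝ} (hE : 0 < E) {B : Finset ℕ}
    (hB : ∀ a ∈ B, E < (a : ℝ) ∧ (a : ℝ) ≤ 2 * E) {κ G τ : ℝ} (hκ : 0 ≤ κ) (_hG : 0 < G)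
    (hthin : ∀ p : ℕ, 0 < p → G / 2 ≤ E / p →
      ((B.filter (fun a => p ∣ a)).card : ℝ) ≤ E / p * κ)
    (p : ℕ × ℕ) (hp1 : 0 < p.1) (hp2 : 0 < p.2) (hτ1 : (p.1.divisors.card : ℝ) ≤ τ)
    (hτ2 : (p.2.divisors.card : ℝ) ≤ τ) :
    ∑ q ∈ (qSet B p).filter (fun q => G ≤ (Nat.gcd q.1 q.2 : ℝ)),
        E / (Nat.gcd q.1 q.2 : ℝ) / max (p.1 : ℝ) p.2 ≤
      τ * τ * (E * κ) * (1 / max (p.1 : ℝ) p.2) := by
  have hτ0 : 0 ≤ τ := (Nat.cast_nonneg _).trans hτ1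
  have hH : 0 < max (p.1 : ℝ) p.2 := lt_max_of_lt_left (by exact_mod_cast hp1)
  rw [← Finset.sum_div, mul_one_div]
  refine div_le_div_of_nonneg_right ?_ hH.le
  set Q := (qSet B p).filter (fun q => G ≤ (Nat.gcd q.1 q.2 : ℝ)) with hQ
  have hmem : ∀ q ∈ Q, q.1 ∈ B ∧ q.2 ∈ B ∧ qd q.1 q.2 ∣ p.1 ∧ qd q.2 q.1 ∣ p.2 ∧
      G ≤ (Nat.gcd q.1 q.2 : ℝ) := by
    intro q hq
    obtain ⟨h1, h2⟩ := Finset.mem_filter.1 hq
    obtain ⟨h3, h4⟩ := Finset.mem_filter.1 h1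
    exact ⟨(Finset.mem_product.1 h3).1, (Finset.mem_product.1 h3).2, h4.1, h4.2, h2⟩
  rw [← Finset.sum_fiberwise_of_maps_to (g := fun q => (qd q.1 q.2, qd q.2 q.1))
    (t := p.1.divisors ×ˢ p.2.divisors) fun q hq => Finset.mem_product.2
      ⟨Nat.mem_divisors.2 ⟨(hmem q hq).2.2.1, hp1.ne'⟩,
        Nat.mem_divisors.2 ⟨(hmem q hq).2.2.2.1, hp2.ne'⟩⟩]
  refine (Finset.sum_le_card_nsmul _ _ (E * κ) fun d _ => ?_).trans ?_
  · set Qd := Q.filter (fun q => (qd q.1 q.2, qd q.2 q.1) = d) with hQd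
    rcases Finset.eq_empty_or_nonempty Qd with h0 | ⟨q0, hq0⟩
    · rw [h0, Finset.sum_empty]; positivity
    obtain ⟨hq0Q, he0⟩ := Finset.mem_filter.1 hq0
    obtain ⟨hb1, hb2, -, -, hg0⟩ := hmem q0 hq0Q
    obtain ⟨hg, -, -, hpos, -, hlo, hhi, -, -⟩ := pair_facts hE hB hb1 hb2
    have hd1 : d.1 = qd q0.1 q0.2 := by rw [← he0]
    have hd1R : (0 : ℝ) < d.1 := by rw [hd1]; exact_mod_cast hpos
    have hterm : ∀ q ∈ Qd, E / (Nat.gcd q.1 q.2 : ℝ) ≤ (d.1 : ℝ) := by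
      intro q hq
      obtain ⟨hqQ, he⟩ := Finset.mem_filter.1 hq
      obtain ⟨b1, b2, -, -, -⟩ := hmem q hqQ
      obtain ⟨-, -, -, -, -, hlo', -, -, -⟩ := pair_facts hE hB b1 b2
      rw [← he]; exact hlo'.le
    refine (Finset.sum_le_card_nsmul _ _ _ hterm).trans ?_
    rw [nsmul_eq_mul]
    have hcard : Qd.card ≤ (B.filter (fun a => d.1 ∣ a)).card := by
      refine Finset.card_le_card_of_injOn Prod.fst (fun q hq => ?_) ?_
      · obtain ⟨hqQ, he⟩ := Finset.mem_filter.1 hq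
        obtain ⟨b1, b2, -, -, -⟩ := hmem q hqQ
        refine Finset.mem_coe.2 (Finset.mem_filter.2 ⟨b1, ?_⟩)
        rw [← he]
        exact Dvd.intro _ (qd_mul_gcd q.1 q.2)
      · intro q hq q' hq' e
        obtain ⟨hqQ, he⟩ := Finset.mem_filter.1 hq
        obtain ⟨hqQ', he'⟩ := Finset.mem_filter.1 hq'
        obtain ⟨b1, b2, -, -, -⟩ := hmem q hqQ
        obtain ⟨b1', b2', -, -, -⟩ := hmem q' hqQ'
        obtain ⟨-, k1, k2, k3, -⟩ := pair_facts hE hB b1 b2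
        obtain ⟨-, k1', k2', -⟩ := pair_facts hE hB b1' b2'
        have ee := he.trans he'.symm
        simp only [Prod.mk.injEq] at ee
        have e1 : q.1 = q'.1 := e
        have hgg : Nat.gcd q.1 q.2 = Nat.gcd q'.1 q'.2 := by
          apply Nat.eq_of_mul_eq_mul_left k3
          rw [k1, ee.1, k1', e1]
        refine Prod.ext e1 ?_
        rw [← k2, ← k2', hgg, ee.2]
    have hlen : G / 2 ≤ E / (d.1 : ℝ) := by
      rw [le_div_iff₀ hd1R, hd1]
      rw [le_div_iff₀ (by exact_mod_cast hg)] at hhi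
      nlinarith [mul_le_mul_of_nonneg_right hg0 hd1R.le, hd1 ▸ hd1R]
    refine (mul_le_mul_of_nonneg_right ((Nat.cast_le.2 hcard).trans
      (hthin d.1 (by exact_mod_cast hd1R) hlen)) hd1R.le).trans (le_of_eq ?_)
    field_simp
  · rw [nsmul_eq_mul, Finset.card_product, Nat.cast_mul]
    exact mul_le_mul_of_nonneg_right (mul_le_mul hτ1 hτ2 (Nat.cast_nonneg _) hτ0) (by positivity)

open Classical in
theorem sum_inv_max_le (N : ℕ) :
    ∑ k ∈ Finset.Icc 1 N, ∑ k' ∈ Finset.Icc 1 N, 1 / max (k : ℝ) k' ≤ 2 * N := by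
  have h : ∀ k ∈ Finset.Icc 1 N,
      ∑ k' ∈ Finset.Icc 1 N, (if k' ≤ k then 1 / (k : ℝ) else 0) ≤ 1 := by
    intro k hk
    rw [← Finset.sum_filter]
    have hk1 : 1 ≤ k := (Finset.mem_Icc.1 hk).1
    have e : (Finset.Icc 1 N).filter (fun k' => k' ≤ k) = Finset.Icc 1 k := by
      ext z; simp only [Finset.mem_filter, Finset.mem_Icc]
      have := (Finset.mem_Icc.1 hk).2
      omega
    rw [e, Finset.sum_const, Nat.card_Icc, Nat.add_sub_cancel, nsmul_eq_mul, mul_one_div,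
      div_self (by exact_mod_cast (show k ≠ 0 by omega))]
  calc ∑ k ∈ Finset.Icc 1 N, ∑ k' ∈ Finset.Icc 1 N, 1 / max (k : ℝ) k'
      ≤ ∑ k ∈ Finset.Icc 1 N, ∑ k' ∈ Finset.Icc 1 N, ((if k' ≤ k then 1 / (k : ℝ) else 0) +
          (if k ≤ k' then 1 / (k' : ℝ) else 0)) := by
        refine Finset.sum_le_sum fun k _ => Finset.sum_le_sum fun k' _ => ?_
        rcases le_total k k' with hh | hh
        · rw [max_eq_right (Nat.cast_le.2 hh), if_pos hh]
          exact le_add_of_nonneg_left (by split_ifs <;> positivity)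
        · rw [max_eq_left (Nat.cast_le.2 hh), if_pos hh]
          exact le_add_of_nonneg_right (by split_ifs <;> positivity)
    _ = (∑ k ∈ Finset.Icc 1 N, ∑ k' ∈ Finset.Icc 1 N, (if k' ≤ k then 1 / (k : ℝ) else 0)) +
          ∑ k' ∈ Finset.Icc 1 N, ∑ k ∈ Finset.Icc 1 N, (if k ≤ k' then 1 / (k' : ℝ) else 0) := by
        simp only [Finset.sum_add_distrib]
        congr 1
        exact Finset.sum_comm
    _ ≤ ((Finset.Icc 1 N).card : ℝ) + ((Finset.Icc 1 N).card : ℝ) := by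
        refine add_le_add ?_ ?_
        all_goals
          refine (Finset.sum_le_card_nsmul _ _ 1 h).trans_eq ?_
          simp
    _ = 2 * N := by simp; ring

open Classical in
/-- The pairs of small height: one ratio is a matching. -/
theorem kB_sum_le {F f : ℕ → ℝ} {W : Finset ℕ} {k : ℕ → ℕ} {Y : ℕ} {x E : ℝ}
    (h : Data F f W k Y x E) {B : Finset ℕ} (hB : ∀ a ∈ B, E < (a : ℝ) ∧ (a : ℝ) ≤ 2 * E)
    {K : ℝ} (hK : 0 ≤ K) :
    ∑ w ∈ W, ∑ w' ∈ W, F w * F w' *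
      (∑ q ∈ (qSet B (qd w' w, qd w w')).filter
          (fun q => (ht w w' : ℝ) ≤ E / (Nat.gcd q.1 q.2 : ℝ) * K),
        E / (Nat.gcd q.1 q.2 : ℝ) / max (qd w' w : ℝ) (qd w w')) ≤
      (B.card : ℝ) ^ 2 * (4 * K) * (x / E) * ∑ w ∈ W, F w := by
  have hx := h.x_pos
  have hE := h.E_pos
  set N := ⌊K⌋₊ with hN
  set I := Finset.Icc 1 N with hI
  let pt : ℕ × ℕ → ℕ → ℕ → ℕ × ℕ := fun q k k' => (qd q.1 q.2 * k, qd q.2 q.1 * k')
  have hpoint : ∀ w ∈ W, ∀ w' ∈ W,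
      ∑ q ∈ (qSet B (qd w' w, qd w w')).filter
          (fun q => (ht w w' : ℝ) ≤ E / (Nat.gcd q.1 q.2 : ℝ) * K),
        E / (Nat.gcd q.1 q.2 : ℝ) / max (qd w' w : ℝ) (qd w w') ≤
      ∑ q ∈ B ×ˢ B, ∑ k ∈ I, ∑ k' ∈ I,
        (if (qd w' w, qd w w') = pt q k k' then 1 / max (k : ℝ) k' else 0) := by
    intro w hw w' hw'
    refine le_trans (Finset.sum_le_sum fun q hq => ?_)
      (Finset.sum_le_sum_of_subset_of_nonneg
        ((Finset.filter_subset _ _).trans (Finset.filter_subset _ _))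
        fun q _ _ => Finset.sum_nonneg fun k _ => Finset.sum_nonneg fun k' _ => by
          split_ifs <;> positivity)
    obtain ⟨hq1, hHle⟩ := Finset.mem_filter.1 hq
    obtain ⟨hqB, d1, d2⟩ := Finset.mem_filter.1 hq1
    obtain ⟨b1, b2⟩ := Finset.mem_product.1 hqB
    obtain ⟨hg, -, -, ha1, ha2, hlo1, -, hlo2, -⟩ := pair_facts hE hB b1 b2
    obtain ⟨k1, hk1⟩ := d1
    obtain ⟨k2, hk2⟩ := d2
    have hA : 0 < qd w' w := qd_pos (h.pool.pos w' hw')
    have hC : 0 < qd w w' := qd_pos (h.pool.pos w hw)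
    simp only at hk1 hk2
    have hk10 : 0 < k1 := Nat.pos_of_mul_pos_left (hk1 ▸ hA)
    have hk20 : 0 < k2 := Nat.pos_of_mul_pos_left (hk2 ▸ hC)
    set e := E / (Nat.gcd q.1 q.2 : ℝ) with he
    have he0 : 0 < e := div_pos hE (by exact_mod_cast hg)
    have hH1 : e * k1 ≤ (qd w' w : ℝ) := by
      rw [hk1, Nat.cast_mul]
      exact mul_le_mul_of_nonneg_right hlo1.le (Nat.cast_nonneg _)
    have hH2 : e * k2 ≤ (qd w w' : ℝ) := by
      rw [hk2, Nat.cast_mul]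
      exact mul_le_mul_of_nonneg_right hlo2.le (Nat.cast_nonneg _)
    rw [ht, Nat.cast_max] at hHle
    have hk1K : (k1 : ℝ) ≤ K :=
      le_of_mul_le_mul_left ((hH1.trans (le_max_left _ _)).trans hHle) he0
    have hk2K : (k2 : ℝ) ≤ K :=
      le_of_mul_le_mul_left ((hH2.trans (le_max_right _ _)).trans hHle) he0
    have hm1 : k1 ∈ I := Finset.mem_Icc.2 ⟨hk10, Nat.le_floor hk1K⟩
    have hm2 : k2 ∈ I := Finset.mem_Icc.2 ⟨hk20, Nat.le_floor hk2K⟩
    have hmk : (0 : ℝ) < max (k1 : ℝ) k2 := lt_max_of_lt_left (by exact_mod_cast hk10)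
    refine le_trans ?_ ((Finset.single_le_sum (f := fun k' =>
        (if (qd w' w, qd w w') = pt q k1 k' then 1 / max (k1 : ℝ) k' else 0))
        (fun k' _ => by split_ifs <;> positivity) hm2).trans
      (Finset.single_le_sum (f := fun k => ∑ k' ∈ I,
        (if (qd w' w, qd w w') = pt q k k' then 1 / max (k : ℝ) k' else 0))
        (fun k _ => Finset.sum_nonneg fun k' _ => by split_ifs <;> positivity) hm1))
    simp only [pt]
    rw [if_pos (by rw [← hk1, ← hk2]), div_le_div_iff₀ (lt_max_of_lt_left (by exact_mod_cast hA)) hmk,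
      one_mul, mul_max_of_nonneg _ _ he0.le]
    exact max_le_max hH1 hH2
  have hfams : Fams F F W W 1 1 (x / (2 * E)) := by
    have hle : ∀ v ∈ W, F v ≤ 2 * (x / (2 * E)) / 1 := by
      intro v hv
      rw [div_one, show 2 * (x / (2 * E)) = x / E by field_simp, le_div_iff₀ hE]
      refine le_trans (mul_le_mul_of_nonneg_right (h.pool.F_le v hv) hE.le) ?_
      refine le_trans (mul_le_mul_of_nonneg_right
        (mul_le_of_le_one_right (h.pool.f_nonneg v) ?_) hE.le) (h.f_le v hv)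
      exact Finset.prod_le_one (fun p hp => by
        have h2 : (1 : ℝ) ≤ p := by
          exact_mod_cast (Nat.prime_of_mem_primeFactors (Finset.mem_filter.1 hp).1).pos
        rw [sub_nonneg, div_le_one (by linarith)]; exact h2)
        (fun p _ => by linarith [show (0 : ℝ) ≤ 1 / p by positivity])
    exact ⟨h.pool.pos, h.pool.pos, h.pool.F_nonneg, h.pool.F_nonneg, hle, hle, by norm_num,
      by norm_num, by positivity⟩
  have hone : ∀ p : ℕ × ℕ, ∑ w ∈ W, ∑ w' ∈ W,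
      (if (qd w' w, qd w w') = p then F w * F w' else 0) ≤ 2 * (x / E) * ∑ w ∈ W, F w := by
    intro p
    have hb := ratioWeight_le_card hfams {p}
    simp only [ratioWeight, Finset.mem_singleton, Finset.sum_filter, Finset.card_singleton,
      Nat.cast_one, one_mul, max_self, div_one] at hb
    refine hb.trans (le_of_eq ?_)
    field_simp
    ring
  calc ∑ w ∈ W, ∑ w' ∈ W, F w * F w' * _
      ≤ ∑ w ∈ W, ∑ w' ∈ W, F w * F w' * (∑ q ∈ B ×ˢ B, ∑ k ∈ I, ∑ k' ∈ I,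
          (if (qd w' w, qd w w') = pt q k k' then 1 / max (k : ℝ) k' else 0)) :=
        Finset.sum_le_sum fun w hw => Finset.sum_le_sum fun w' hw' =>
          mul_le_mul_of_nonneg_left (hpoint w hw w' hw')
            (mul_nonneg (h.pool.F_nonneg _) (h.pool.F_nonneg _))
    _ = ∑ q ∈ B ×ˢ B, ∑ k ∈ I, ∑ k' ∈ I, 1 / max (k : ℝ) k' * ∑ w ∈ W, ∑ w' ∈ W,
          (if (qd w' w, qd w w') = pt q k k' then F w * F w' else 0) := by
        simp only [Finset.mul_sum, mul_ite, mul_zero]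
        rw [Finset.sum_congr rfl fun w _ => Finset.sum_comm, Finset.sum_comm]
        refine Finset.sum_congr rfl fun q _ => ?_
        rw [Finset.sum_congr rfl fun w _ => Finset.sum_comm, Finset.sum_comm]
        refine Finset.sum_congr rfl fun k _ => ?_
        rw [Finset.sum_congr rfl fun w _ => Finset.sum_comm, Finset.sum_comm]
        refine Finset.sum_congr rfl fun k' _ => Finset.sum_congr rfl fun w _ =>
          Finset.sum_congr rfl fun w' _ => ?_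
        split_ifs <;> ring
    _ ≤ ∑ q ∈ B ×ˢ B, (∑ k ∈ I, ∑ k' ∈ I, 1 / max (k : ℝ) k') *
          (2 * (x / E) * ∑ w ∈ W, F w) := by
        refine Finset.sum_le_sum fun q _ => ?_
        rw [Finset.sum_mul]
        refine Finset.sum_le_sum fun k _ => ?_
        rw [Finset.sum_mul]
        exact Finset.sum_le_sum fun k' _ => mul_le_mul_of_nonneg_left (hone _) (by positivity)
    _ ≤ ∑ _q ∈ B ×ˢ B, 2 * K * (2 * (x / E) * ∑ w ∈ W, F w) := by
        refine Finset.sum_le_sum fun q _ => mul_le_mul_of_nonneg_right ?_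
          (mul_nonneg (by positivity) (Finset.sum_nonneg fun v _ => h.pool.F_nonneg v))
        refine (sum_inv_max_le N).trans ?_
        exact mul_le_mul_of_nonneg_left (Nat.floor_le hK) (by norm_num)
    _ = _ := by
        rw [Finset.sum_const, Finset.card_product, nsmul_eq_mul, Nat.cast_mul]; ring

open Classical in
/-- The members of `B` divided by `g`. -/
def divSet (E : ℝ) (B : Finset ℕ) (g : ℕ) : Finset ℕ :=
  (Finset.Icc 1 ⌊2 * E⌋₊).filter (fun a => g * a ∈ B)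

/-- The condition of the sparse range. -/
def SparseCase (x E : ℝ) (g : ℕ) (H : ℝ) : Prop :=
  x ^ (-(102 / 100 : ℝ)) < E ∨ E / g * x ^ (-(1 / 2 : ℝ)) < H

/-- The pairs of the sparse range with common factor `g`. -/
def SparsePair (x E : ℝ) (B : Finset ℕ) (g w w' : ℕ) : Prop :=
  (∃ a ∈ divSet E B g, a ∣ qd w' w) ∧ (∃ a ∈ divSet E B g, a ∣ qd w w') ∧
    SparseCase x E g (max (qd w' w : ℝ) (qd w w'))

open Classical in
/-- The pairs with a small common factor, classified by it. -/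
theorem kC_le {x E : ℝ} (hE : 0 < E) {B : Finset ℕ}
    (hB : ∀ a ∈ B, E < (a : ℝ) ∧ (a : ℝ) ≤ 2 * E) {G τ : ℝ} (w w' : ℕ) (hw : 0 < w) (hw' : 0 < w')
    (hτ1 : ((qd w' w).divisors.card : ℝ) ≤ τ) (hτ2 : ((qd w w').divisors.card : ℝ) ≤ τ) :
    ∑ q ∈ (qSet B (qd w' w, qd w w')).filter (fun q => ¬ G ≤ (Nat.gcd q.1 q.2 : ℝ) ∧
          SparseCase x E (Nat.gcd q.1 q.2) (max (qd w' w : ℝ) (qd w w'))),
        E / (Nat.gcd q.1 q.2 : ℝ) / max (qd w' w : ℝ) (qd w w') ≤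
      τ * τ * ∑ g ∈ Finset.Icc 1 ⌊G⌋₊,
        (if SparsePair x E B g w w' then E / (g : ℝ) / max (qd w' w : ℝ) (qd w w') else 0) := by
  have hτ0 : 0 ≤ τ := (Nat.cast_nonneg _).trans hτ1
  set Q := (qSet B (qd w' w, qd w w')).filter (fun q => ¬ G ≤ (Nat.gcd q.1 q.2 : ℝ) ∧
    SparseCase x E (Nat.gcd q.1 q.2) (max (qd w' w : ℝ) (qd w w'))) with hQ
  have hmem : ∀ q ∈ Q, q.1 ∈ B ∧ q.2 ∈ B ∧ qd q.1 q.2 ∣ qd w' w ∧ qd q.2 q.1 ∣ qd w w' ∧
      ¬ G ≤ (Nat.gcd q.1 q.2 : ℝ) ∧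
      SparseCase x E (Nat.gcd q.1 q.2) (max (qd w' w : ℝ) (qd w w')) := by
    intro q hq
    obtain ⟨h1, h2, h3⟩ := Finset.mem_filter.1 hq
    obtain ⟨h4, h5, h6⟩ := Finset.mem_filter.1 h1
    exact ⟨(Finset.mem_product.1 h4).1, (Finset.mem_product.1 h4).2, h5, h6, h2, h3⟩
  have hmaps : ∀ q ∈ Q, Nat.gcd q.1 q.2 ∈ Finset.Icc 1 ⌊G⌋₊ := by
    intro q hq
    obtain ⟨b1, b2, -, -, hg, -⟩ := hmem q hq
    exact Finset.mem_Icc.2 ⟨(pair_facts hE hB b1 b2).1, Nat.le_floor (not_le.1 hg).le⟩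
  rw [← Finset.sum_fiberwise_of_maps_to hmaps, Finset.mul_sum]
  refine Finset.sum_le_sum fun g hg => ?_
  set Qg := Q.filter (fun q => Nat.gcd q.1 q.2 = g) with hQg
  rcases Finset.eq_empty_or_nonempty Qg with h0 | ⟨q0, hq0⟩
  · rw [h0, Finset.sum_empty]
    refine mul_nonneg (mul_nonneg hτ0 hτ0) ?_
    split_ifs <;> positivity
  have hin : ∀ q ∈ Qg, qd q.1 q.2 ∈ divSet E B g ∧ qd q.2 q.1 ∈ divSet E B g := by
    intro q hq
    obtain ⟨hqQ, he⟩ := Finset.mem_filter.1 hq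
    obtain ⟨b1, b2, -⟩ := hmem q hqQ
    obtain ⟨-, e1, e2, p1, p2, -⟩ := pair_facts hE hB b1 b2
    rw [he] at e1 e2
    have hgp : 0 < g := (Finset.mem_Icc.1 hg).1
    refine ⟨Finset.mem_filter.2 ⟨Finset.mem_Icc.2 ⟨p1, Nat.le_floor ?_⟩, by rwa [mul_comm, e1]⟩,
      Finset.mem_filter.2 ⟨Finset.mem_Icc.2 ⟨p2, Nat.le_floor ?_⟩, by rwa [mul_comm, e2]⟩⟩
    · exact le_trans (Nat.cast_le.2 ((Nat.le_mul_of_pos_right _ hgp).trans_eq e1)) (hB _ b1).2
    · exact le_trans (Nat.cast_le.2 ((Nat.le_mul_of_pos_right _ hgp).trans_eq e2)) (hB _ b2).2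
  obtain ⟨hq0Q, he0⟩ := Finset.mem_filter.1 hq0
  obtain ⟨-, -, d1, d2, -, hcase⟩ := hmem q0 hq0Q
  rw [he0] at hcase
  rw [if_pos ⟨⟨_, (hin q0 hq0).1, d1⟩, ⟨_, (hin q0 hq0).2, d2⟩, hcase⟩]
  rw [Finset.sum_congr rfl fun q hq => by rw [(Finset.mem_filter.1 hq).2], Finset.sum_const,
    nsmul_eq_mul]
  refine mul_le_mul_of_nonneg_right ?_
    (div_nonneg (div_nonneg hE.le (Nat.cast_nonneg _)) (le_max_of_le_left (Nat.cast_nonneg _)))
  have hcard : Qg.card ≤ ((qd w' w).divisors ×ˢ (qd w w').divisors).card := by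
    refine Finset.card_le_card_of_injOn (fun q => (qd q.1 q.2, qd q.2 q.1)) (fun q hq => ?_) ?_
    · obtain ⟨-, -, c1, c2, -⟩ := hmem q (Finset.mem_filter.1 hq).1
      exact Finset.mem_coe.2 (Finset.mem_product.2 ⟨Nat.mem_divisors.2 ⟨c1, (qd_pos hw').ne'⟩,
        Nat.mem_divisors.2 ⟨c2, (qd_pos hw).ne'⟩⟩)
    · intro q hq q' hq' e
      obtain ⟨hqQ, he⟩ := Finset.mem_filter.1 hq
      obtain ⟨hqQ', he'⟩ := Finset.mem_filter.1 hq'
      obtain ⟨b1, b2, -⟩ := hmem q hqQ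
      obtain ⟨b1', b2', -⟩ := hmem q' hqQ'
      obtain ⟨-, k1, k2, -⟩ := pair_facts hE hB b1 b2
      obtain ⟨-, k1', k2', -⟩ := pair_facts hE hB b1' b2'
      simp only [Prod.mk.injEq] at e
      refine Prod.ext ?_ ?_
      · rw [← k1, ← k1', e.1, he, he']
      · rw [← k2, ← k2', e.2, he, he']
  rw [Finset.card_product] at hcard
  calc (Qg.card : ℝ) ≤ ((qd w' w).divisors.card : ℝ) * (qd w w').divisors.card := by
        exact_mod_cast hcard
    _ ≤ τ * τ := mul_le_mul hτ1 hτ2 (Nat.cast_nonneg _) hτ0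

theorem Data.sparse {F f : ℕ → ℝ} {W : Finset ℕ} {k : ℕ → ℕ} {Y : ℕ} {x E : ℝ}
    (_h : Data F f W k Y x E) {B : Finset ℕ} (hB : ∀ a ∈ B, E < (a : ℝ) ∧ (a : ℝ) ≤ 2 * E)
    (hthin : ∀ p : ℕ, 0 < p → x ^ (-(3 * tauL)) ≤ E / p →
      ((B.filter (fun a => p ∣ a)).card : ℝ) ≤ E / p * x ^ (sigR / 2))
    {g : ℕ} (hg : 0 < g) :
    Sparse (divSet E B g) (E / g) (2 * x ^ (-(3 * tauL))) (x ^ (sigR / 2)) := by
  classical
  have hgR : (0 : ℝ) < g := by exact_mod_cast hg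
  have hmem : ∀ a ∈ divSet E B g, g * a ∈ B := fun a ha => (Finset.mem_filter.1 ha).2
  have hb : ∀ a ∈ divSet E B g, E < (g : ℝ) * a ∧ (g : ℝ) * a ≤ 2 * E := fun a ha => by
    have := hB _ (hmem a ha)
    push_cast at this
    exact this
  refine ⟨fun a ha => by rw [div_lt_iff₀ hgR, mul_comm]; exact (hb a ha).1,
    fun a ha => by rw [← mul_div_assoc, le_div_iff₀ hgR, mul_comm]; exact (hb a ha).2,
    fun r hr hrP => ?_⟩
  have hrR : (0 : ℝ) < r := by exact_mod_cast hr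
  have hlen : x ^ (-(3 * tauL)) ≤ E / ((g * r : ℕ) : ℝ) := by
    rw [Nat.cast_mul, ← div_div, le_div_iff₀ hrR]
    linarith
  have hc : ((divSet E B g).filter (fun a => r ∣ a)).card ≤
      (B.filter (fun a => g * r ∣ a)).card := by
    refine Finset.card_le_card_of_injOn (fun a => g * a) (fun a ha => ?_) ?_
    · obtain ⟨haS, hra⟩ := Finset.mem_filter.1 ha
      exact Finset.mem_coe.2 (Finset.mem_filter.2 ⟨hmem a haS, mul_dvd_mul_left g hra⟩)
    · intro a _ b _ e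
      exact Nat.eq_of_mul_eq_mul_left hg e
  refine (Nat.cast_le.2 hc).trans ((hthin _ (Nat.mul_pos hg hr) hlen).trans (le_of_eq ?_))
  rw [Nat.cast_mul, ← div_div, mul_comm]

/-- The saving of the sparse range. -/
def gamS : ℝ := 1 / 10 ^ 14

theorem t_gain {x r : ℝ} (hx : 0 < x) (hx1 : x ≤ 1) (hr : 0 < r) (hr4 : x ^ (4 : ℝ) ≤ r) :
    (x ^ (-(1 / 1000 : ℝ)) * max 1 (1 / r ^ 2)) ^ (-(alL2 - beL)) * r ^ (-delL) ≤ x ^ gamS := by
  set G0 := alL2 - beL with hG0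
  have hG : 0 ≤ G0 := by rw [hG0]; norm_num [beL, thL, alL1, alL2, omL, delL]
  have hd : 2 * G0 - delL ≤ 0 := by rw [hG0]; norm_num [beL, thL, alL1, alL2, omL, delL]
  have he : gamS ≤ G0 / 1000 + 4 * (2 * G0 - delL) := by
    rw [hG0]; norm_num [gamS, beL, thL, alL1, alL2, omL, delL]
  have hxG : x ^ (G0 / 1000) * x ^ ((4 : ℝ) * (2 * G0 - delL)) ≤ x ^ gamS := by
    rw [← Real.rpow_add hx]; exact Real.rpow_le_rpow_of_exponent_ge hx hx1 he
  have hA : (x ^ (-(1 / 1000 : ℝ))) ^ (-G0) = x ^ (G0 / 1000) := by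
    rw [← Real.rpow_mul hx.le]; congr 1; ring
  rw [Real.mul_rpow (Real.rpow_nonneg hx.le _) (le_max_of_le_left zero_le_one), hA, mul_assoc]
  refine le_trans (mul_le_mul_of_nonneg_left ?_ (Real.rpow_nonneg hx.le _)) hxG
  rcases le_total 1 r with h1 | h1
  · rw [max_eq_left (by rw [div_le_one (by positivity)]; exact one_le_pow₀ h1), Real.one_rpow,
      one_mul]
    refine (Real.rpow_le_one_of_one_le_of_nonpos h1 (by norm_num [delL])).trans ?_
    exact Real.one_le_rpow_of_pos_of_le_one_of_nonpos hx hx1 (by linarith)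
  · have e : 1 / r ^ 2 = r ^ (-2 : ℝ) := by
      rw [Real.rpow_neg hr.le, Real.rpow_two, one_div]
    rw [max_eq_right (by rw [le_div_iff₀ (by positivity), one_mul]; exact pow_le_one₀ hr.le h1), e,
      ← Real.rpow_mul hr.le, ← Real.rpow_add hr, Real.rpow_mul hx.le]
    refine le_trans (le_of_eq ?_) (Real.rpow_le_rpow_of_nonpos (Real.rpow_pos_of_pos hx _) hr4 hd)
    congr 1; ring

theorem t_room {x E r : ℝ} {g j : ℕ} (hx : 0 < x) (hxs : x ≤ 1 / 256 ^ 100) (hg : 0 < g)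
    (hgG : (g : ℝ) ≤ 2 * x ^ (-(3 * tauL))) (hE : x ^ (-(899 / 1000 : ℝ)) ≤ E)
    (hr : r = 2 ^ (j + 1) * (x / E)) (hlow : E / g < 2 ^ (j + 1))
    (hcase : SparseCase x E g (2 ^ (j + 1))) :
    x ^ (-(1 / 1000 : ℝ)) * max 1 (1 / r ^ 2) * (2 * x ^ (-(3 * tauL))) ^ 4 ≤ (E / g) ^ 2 := by
  have hx1 : x ≤ 1 := hxs.trans (by rw [div_le_one (by positivity)]; exact one_le_pow₀ (by norm_num))
  have hp : ∀ a : ℝ, 0 < x ^ a := fun a => Real.rpow_pos_of_pos hx a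
  have hm : ∀ {a b : ℝ}, b ≤ a → x ^ a ≤ x ^ b := fun h =>
    Real.rpow_le_rpow_of_exponent_ge hx hx1 h
  have hbig : (256 : ℝ) * x ^ (0 : ℝ) ≤ x ^ (-(1 / 100 : ℝ)) := by
    rw [Real.rpow_zero, mul_one, Real.rpow_neg hx.le,
      le_inv_comm₀ (by norm_num) (hp _)]
    refine (Real.rpow_le_rpow hx.le hxs (by norm_num)).trans (le_of_eq ?_)
    rw [one_div, Real.inv_rpow (by positivity), ← Real.rpow_natCast, ← Real.rpow_mul (by norm_num)]
    norm_num
  have hgR : (0 : ℝ) < g := by exact_mod_cast hg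
  have hE0 : 0 < E := (hp _).trans_le hE
  have hP4 : (2 * x ^ (-(3 * tauL))) ^ 4 = 16 * x ^ (-(12 * tauL)) := by
    rw [mul_pow, ← Real.rpow_natCast (x ^ (-(3 * tauL))), ← Real.rpow_mul hx.le]
    norm_num
    congr 1; ring
  have he : ∀ {a : ℝ}, x ^ (-a) ≤ E → x ^ (-a + 3 * tauL) / 2 ≤ E / g := by
    intro a ha
    rw [le_div_iff₀ hgR]
    refine (mul_le_mul_of_nonneg_left hgG (by positivity)).trans (le_trans (le_of_eq ?_) ha)
    rw [div_mul_eq_mul_div, ← mul_assoc, mul_comm (x ^ (-a + 3 * tauL)) 2, mul_assoc,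
      ← Real.rpow_add hx, show -a + 3 * tauL + -(3 * tauL) = -a by ring]
    ring
  have hsq : ∀ {a : ℝ}, x ^ (-a) ≤ E → x ^ (2 * (-a + 3 * tauL)) / 4 ≤ (E / g) ^ 2 := by
    intro a ha
    refine le_trans (le_of_eq ?_) (pow_le_pow_left₀ (by positivity) (he ha) 2)
    rw [div_pow, ← Real.rpow_natCast (x ^ (-a + 3 * tauL)), ← Real.rpow_mul hx.le]
    norm_num
    congr 1; ring
  -- a bound `1 / r ≤ g x ^ (-c)`
  have hfin : ∀ {a c : ℝ}, x ^ (-a) ≤ E → 1 / r ≤ (g : ℝ) * x ^ (-c) → 0 ≤ c →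
      2 * (-a + 3 * tauL) + 1 / 100 ≤ -(1 / 1000) - 6 * tauL - 2 * c - 12 * tauL →
      x ^ (-(1 / 1000 : ℝ)) * max 1 (1 / r ^ 2) * (2 * x ^ (-(3 * tauL))) ^ 4 ≤ (E / g) ^ 2 := by
    intro a c ha hrg hc0 hexp
    refine le_trans ?_ (hsq ha)
    rw [hP4]
    have hr0 : 0 < r := by rw [hr]; positivity
    have h1 : 1 / r ≤ 2 * x ^ (-(3 * tauL) + -c) := by
      rw [Real.rpow_add hx, ← mul_assoc]
      exact hrg.trans (mul_le_mul_of_nonneg_right hgG (hp _).le)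
    have h2 : max 1 (1 / r ^ 2) ≤ 4 * x ^ (-(6 * tauL) - 2 * c) := by
      refine max_le ?_ ?_
      · refine le_trans ?_ (le_mul_of_one_le_left (hp _).le (by norm_num))
        exact Real.one_le_rpow_of_pos_of_le_one_of_nonpos hx hx1
          (by have : 0 ≤ tauL := (by norm_num [tauL]); linarith)
      · refine le_trans (le_of_eq (by rw [div_pow, one_pow]))
          ((pow_le_pow_left₀ (by positivity) h1 2).trans (le_of_eq ?_))
        rw [mul_pow, ← Real.rpow_natCast (x ^ (-(3 * tauL) + -c)), ← Real.rpow_mul hx.le]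
        norm_num
        congr 1; ring
    calc x ^ (-(1 / 1000 : ℝ)) * max 1 (1 / r ^ 2) * (16 * x ^ (-(12 * tauL)))
        ≤ x ^ (-(1 / 1000 : ℝ)) * (4 * x ^ (-(6 * tauL) - 2 * c)) * (16 * x ^ (-(12 * tauL))) := by
          gcongr
      _ = 64 * x ^ (-(1 / 1000) + (-(6 * tauL) - 2 * c) + -(12 * tauL)) := by
          rw [Real.rpow_add hx, Real.rpow_add hx]; ring
      _ ≤ 64 * x ^ (2 * (-a + 3 * tauL) + 1 / 100) := by
          refine mul_le_mul_of_nonneg_left (hm ?_) (by norm_num)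
          linarith
      _ ≤ _ := by
          rw [Real.rpow_add hx]
          have h5 : x ^ (1 / 100 : ℝ) * 256 ≤ 1 := by
            have h6 := mul_le_mul_of_nonneg_left hbig (hp (1 / 100)).le
            rw [Real.rpow_zero, mul_one, ← Real.rpow_add hx] at h6
            norm_num at h6
            exact h6
          have h7 := mul_le_mul_of_nonneg_left h5 (hp (2 * (-a + 3 * tauL))).le
          linarith
  have hbase : ∀ {c : ℝ}, E / g * x ^ (-c) ≤ 2 ^ (j + 1) → 1 / r ≤ (g : ℝ) * x ^ (-(1 - c)) := by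
    intro c hc
    rw [hr, one_div]
    refine inv_le_of_inv_le₀ (by positivity) (le_trans (le_of_eq ?_)
      (mul_le_mul_of_nonneg_right hc (by positivity)))
    rw [mul_inv, ← Real.rpow_neg hx.le, show -(-(1 - c)) = -c + 1 by ring, Real.rpow_add hx,
      Real.rpow_one]
    field_simp
  rcases hcase with hb | hb
  · refine hfin hb.le ?_ (zero_le_one' ℝ) (by norm_num [tauL])
    have := hbase (c := 0) (by rw [neg_zero, Real.rpow_zero, mul_one]; exact hlow.le)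
    rwa [sub_zero] at this
  · exact hfin hE (hbase hb.le) (by norm_num) (by norm_num [tauL])

open Classical in
/-- One dyadic block of the pairs of the sparse range with a fixed common factor. -/
theorem exists_block_sparse_le :
    ∃ C : ℝ, 0 < C ∧ ∀ (F f : ℕ → ℝ) (W : Finset ℕ) (k : ℕ → ℕ) (Y : ℕ) (x E : ℝ) (B : Finset ℕ)
      (τ : ℝ) (g j : ℕ), Data F f W k Y x E → (∀ a ∈ B, E < (a : ℝ) ∧ (a : ℝ) ≤ 2 * E) →
      (∀ p : ℕ, 0 < p → x ^ (-(3 * tauL)) ≤ E / p →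
        ((B.filter (fun a => p ∣ a)).card : ℝ) ≤ E / p * x ^ (sigR / 2)) →
      0 < g → (g : ℝ) ≤ 2 * x ^ (-(3 * tauL)) → 1 ≤ τ →
      (∀ n : ℕ, 0 < n → n ≤ topD x → (n.divisors.card : ℝ) ≤ τ) →
      ∑ w ∈ W, ∑ w' ∈ W.filter (fun w' => max (qd w' w : ℝ) (qd w w') ≤ x ^ (-(8 : ℝ)) ∧
          Nat.log 2 (ht w w') = j), F w * F w' *
          (if SparsePair x E B g w w' then E / (g : ℝ) / max (qd w' w : ℝ) (qd w w') else 0) ≤
        C * (x / g) * (x ^ gamS + x ^ (-(4 * delL)) *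
          ((τ * x ^ (sigR / 2) * logTop x ^ 2) ^ alL1 + (τ * x ^ (sigR / 2) * logTop x ^ 2) ^ alL2)) *
          (∑ w ∈ W, F w) ^ (2 * thL + omL) := by
  obtain ⟨C, hC, hsp⟩ := exists_sparse_le
  refine ⟨2 * C, by positivity, ?_⟩
  intro F f W k Y x E B τ g j h hB hthin hg hgG hτ1 hτ
  have hx := h.x_pos
  have hx1 := h.x_le_one
  have hE := h.E_pos
  set M := ∑ w ∈ W, F w with hM
  have hM0 : 0 ≤ M := Finset.sum_nonneg fun v _ => h.pool.F_nonneg v
  have hgR : (0 : ℝ) < g := by exact_mod_cast hg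
  set Γ := τ * x ^ (sigR / 2) * logTop x ^ 2 with hΓ
  have hL1 := (logTop_facts hx hx1).1
  have hΓ0 : 0 ≤ Γ := by
    have := Real.rpow_nonneg hx.le (sigR / 2)
    positivity
  let P : ℕ → ℕ → Prop := fun w w' => w ∈ W ∧ w' ∈ W ∧
    max (qd w' w : ℝ) (qd w w') ≤ x ^ (-(8 : ℝ)) ∧ Nat.log 2 (ht w w') = j ∧ SparsePair x E B g w w'
  let K : ℕ → ℕ → ℝ := fun w w' => if P w w' then 1 else 0
  have hK0 : ∀ w w', 0 ≤ K w w' := fun w w' => by simp only [K]; split_ifs <;> norm_num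
  have hle : ∑ w ∈ W, ∑ w' ∈ W.filter (fun w' => max (qd w' w : ℝ) (qd w w') ≤ x ^ (-(8 : ℝ)) ∧
      Nat.log 2 (ht w w') = j), F w * F w' *
      (if SparsePair x E B g w w' then E / (g : ℝ) / max (qd w' w : ℝ) (qd w w') else 0) ≤
      E / g / 2 ^ j * ∑ w ∈ W, ∑ w' ∈ W, K w w' * (F w * F w') := by
    rw [Finset.mul_sum]
    refine Finset.sum_le_sum fun w hw => ?_
    rw [Finset.mul_sum, Finset.sum_filter]
    refine Finset.sum_le_sum fun w' hw' => ?_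
    have hnn : 0 ≤ E / g / 2 ^ j * (K w w' * (F w * F w')) := mul_nonneg (by positivity)
      (mul_nonneg (hK0 _ _) (mul_nonneg (h.pool.F_nonneg _) (h.pool.F_nonneg _)))
    split_ifs with hc hs
    · obtain ⟨-, -, -, -, hlo, -⟩ := h.mem_block hw hw' hc.1 hc.2
      rw [show K w w' = 1 from if_pos ⟨hw, hw', hc.1, hc.2, hs⟩, one_mul, mul_comm (E / g / 2 ^ j)]
      refine mul_le_mul_of_nonneg_left (div_le_div_of_nonneg_left (by positivity) (by positivity) ?_)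
        (mul_nonneg (h.pool.F_nonneg _) (h.pool.F_nonneg _))
      rwa [ht, Nat.cast_max] at hlo
    · simpa using hnn
    · exact hnn
  refine hle.trans ?_
  by_cases hex : ∃ w w', P w w'
  swap
  · rw [Finset.sum_eq_zero fun w _ => Finset.sum_eq_zero fun w' _ => ?_, mul_zero]
    · positivity
    · rw [show K w w' = 0 from if_neg fun hp => hex ⟨w, w', hp⟩, zero_mul]
  obtain ⟨w0, w0', hw0, hw0', hH0, hj0, ⟨a, ha, had⟩, -, hcase⟩ := hex
  obtain ⟨-, -, -, -, -, hhi⟩ := h.mem_block hw0 hw0' hH0 hj0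
  rw [ht, Nat.cast_max] at hhi
  have hsparse := h.sparse hB hthin hg
  have hlow : E / g < 2 ^ (j + 1) := by
    refine lt_of_lt_of_le (hsparse.lower a ha) (le_trans ?_ hhi.le)
    exact le_trans (Nat.cast_le.2 (Nat.le_of_dvd (qd_pos (h.pool.pos w0' hw0')) had))
      (le_max_left _ _)
  have hcase' : SparseCase x E g (2 ^ (j + 1)) := hcase.imp_right fun hb => hb.trans hhi
  set r := radJ x E j with hr
  have hr0 : 0 < r := radJ_pos hx hE j
  have hr4 : x ^ (4 : ℝ) ≤ r := radJ_ge hx hx1 hE h.E_le j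
  have hT1 : 1 ≤ x ^ (-(1 / 1000 : ℝ)) * max 1 (1 / r ^ 2) :=
    one_le_mul_of_one_le_of_one_le (h.one_le_pow (by norm_num)) (le_max_left _ _)
  have hroom := t_room hx h.x_small hg hgG h.E_ge rfl hlow hcase'
  have hb := hsp F f W k Y (topD x) r (E / g) (2 * x ^ (-(3 * tauL))) (x ^ (sigR / 2)) τ (logTop x)
    (x ^ (-(1 / 1000 : ℝ)) * max 1 (1 / r ^ 2)) (divSet E B g) h.pool hr0 (topD_le h) (by positivity)
    (by positivity) (Real.rpow_nonneg hx.le _) hL1 (logTop_facts hx hx1).2.2.1 hτ hτ1 hsparse hT1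
    hroom K hK0 (fun w w' => by simp only [K]; split_ifs <;> norm_num) (fun w w' hne => by
      by_cases hp : P w w'
      · obtain ⟨hw, hw', hH, hj, ⟨s1, s2, -⟩⟩ := hp
        obtain ⟨u1, u2, u3, u4, -, -⟩ := h.mem_block hw hw' hH hj
        exact ⟨u1, u2, u3, u4, s1, s2⟩
      · exact absurd (if_neg hp) hne)
  refine (mul_le_mul_of_nonneg_left hb (by positivity)).trans ?_
  have hTg := t_gain hx hx1 hr0 hr4
  have hdel : r ^ (-delL) ≤ x ^ (-(4 * delL)) := by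
    rw [show -(4 * delL) = (4 : ℝ) * -delL by ring, Real.rpow_mul hx.le]
    exact Real.rpow_le_rpow_of_nonpos (Real.rpow_pos_of_pos hx _) hr4 (by norm_num [delL])
  set T := x ^ (-(1 / 1000 : ℝ)) * max 1 (1 / r ^ 2) with hT
  have hkey : r ^ (1 - delL) * (T ^ (-(alL2 - beL)) + (Γ ^ alL1 + Γ ^ alL2)) ≤
      r * (x ^ gamS + x ^ (-(4 * delL)) * (Γ ^ alL1 + Γ ^ alL2)) := by
    rw [sub_eq_add_neg (1 : ℝ), Real.rpow_add hr0, Real.rpow_one, mul_assoc]
    refine mul_le_mul_of_nonneg_left ?_ hr0.le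
    rw [mul_add, mul_comm (r ^ (-delL)) (T ^ (-(alL2 - beL)))]
    exact add_le_add hTg (mul_le_mul_of_nonneg_right hdel (by positivity))
  calc E / g / 2 ^ j * (C * r ^ (1 - delL) * (T ^ (-(alL2 - beL)) + (Γ ^ alL1 + Γ ^ alL2)) *
        M ^ (2 * thL + omL))
      = E / g / 2 ^ j * C * (r ^ (1 - delL) * (T ^ (-(alL2 - beL)) + (Γ ^ alL1 + Γ ^ alL2))) *
        M ^ (2 * thL + omL) := by ring
    _ ≤ E / g / 2 ^ j * C * (r * (x ^ gamS + x ^ (-(4 * delL)) * (Γ ^ alL1 + Γ ^ alL2))) *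
        M ^ (2 * thL + omL) := by gcongr
    _ = _ := by rw [hr, radJ, pow_succ]; field_simp

end Vale.Agent.P028.Lift.SideSelfAux
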