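import Vale.Agent.P028.Lift.Par

/-!
In a final state outside the boxes all large variables are on major arcs: then the relation is exact
between the two nodes, or a quotient is exceptional.
-/

noncomputable section

namespace Vale.Agent.P028.Lift

open Finset

/-- The witness `h` of a variable: on a major arc if the variable is large. -/
def Witness (x α : ℝ) (h z : ℕ) : Prop :=
  0 < h ∧ (h : ℝ) ≤ majW x ∧ (x ^ (-sigB) ≤ (z : ℝ) → MajorAt x α h z)

theorem majW_pos {x : ℝ} (hx : 0 < x) : 0 < majW x := Real.rpow_pos_of_pos hx _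

/-- The fraction of a quotient does not depend on the witness. -/
theorem frac_unique {x β : ℝ} {h1 h2 C : ℕ} {U1 U2 : ℤ} (hx : 0 < x)
    (hsm : 6 * majW x ^ 2 * x < 1) (h1W : (h1 : ℝ) ≤ majW x) (h2W : (h2 : ℝ) ≤ majW x)
    (e1 : |(h1 : ℝ) * C * β - U1| ≤ 3 * majW x * x)
    (e2 : |(h2 : ℝ) * C * β - U2| ≤ 3 * majW x * x) : (h2 : ℤ) * U1 = (h1 : ℤ) * U2 := by
  have hW := majW_pos hx
  have e : (h2 : ℝ) * U1 - h1 * U2 =
      h1 * ((h2 : ℝ) * C * β - U2) - h2 * ((h1 : ℝ) * C * β - U1) := by ring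
  have hlt : |(h2 : ℝ) * U1 - h1 * U2| < 1 := by
    rw [e]
    refine lt_of_le_of_lt (abs_sub _ _) ?_
    rw [abs_mul, abs_mul, Nat.abs_cast, Nat.abs_cast]
    have a1 := mul_le_mul h1W e2 (abs_nonneg _) hW.le
    have a2 := mul_le_mul h2W e1 (abs_nonneg _) hW.le
    calc _ ≤ majW x * (3 * majW x * x) + majW x * (3 * majW x * x) := add_le_add a1 a2
      _ = 6 * majW x ^ 2 * x := by ring
      _ < 1 := hsm
  have hz : |(h2 : ℤ) * U1 - h1 * U2| < 1 := by exact_mod_cast hlt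
  rw [Int.abs_lt_one_iff] at hz
  linarith

/-- The major arc of one variable gives a major arc of the whole quotient. -/
theorem major_lift {x β : ℝ} {h z m C : ℕ} (hz : 0 < z) (hC : m * z = C)
    (hmaj : MajorAt x (β * (m : ℝ)) h z) :
    ∃ V : ℤ, |(h : ℝ) * C * β - ((V * z : ℤ) : ℝ)| ≤ majW x * x ∧
      |(h : ℝ) * (β * m) - V| ≤ majW x * x / z := by
  obtain ⟨-, -, V, hV⟩ := hmaj
  refine ⟨V, ?_, hV⟩
  have hz' : (0 : ℝ) < z := by exact_mod_cast hz
  rw [← hC]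
  push_cast
  rw [show (h : ℝ) * (m * z) * β - V * z = (h * (β * m) - V) * z by ring, abs_mul, Nat.abs_cast]
  calc |(h : ℝ) * (β * m) - V| * z ≤ majW x * x / z * z := mul_le_mul_of_nonneg_right hV hz'.le
    _ = _ := div_mul_cancel₀ _ hz'.ne'

/-- The reduced fraction of one side, with its denominator bounded. -/
theorem side_frac {x β : ℝ} {R c b hc hb h : ℕ} {U : ℤ} (hx : 0 < x) (hx1 : x ≤ 1)
    (hsm : 6 * majW x ^ 2 * x < 1) (hR : 0 < R) (hc0 : 0 < c) (hb0 : 0 < b)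
    (hcb : Nat.Coprime c b) (hRle : (R : ℝ) ≤ x ^ (-(2 + kapL)))
    (hh : 0 < h) (hhW : (h : ℝ) ≤ majW x)
    (hU : |(h : ℝ) * ((R * (c * b) : ℕ) : ℝ) * β - U| ≤ 3 * majW x * x)
    (hwc : Witness x (β * ((R * b : ℕ) : ℝ)) hc c)
    (hwb : Witness x (β * ((R * c : ℕ) : ℝ)) hb b) :
    ∃ (P t : ℕ) (u : ℤ), 0 < P ∧ IsCoprime u (P : ℤ) ∧ h * (R * (c * b)) = P * t ∧
      u * ((h * (R * (c * b)) : ℕ) : ℤ) = U * P ∧
      |β - u / P| ≤ 3 * majW x * x / ((h : ℝ) * ((R * (c * b) : ℕ) : ℝ)) ∧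
      (P : ℝ) ≤ x ^ (-(2 + 3 / 10 ^ 4 : ℝ)) := by
  have hW := majW_pos hx
  set C := R * (c * b) with hCd
  have hC0 : 0 < C := by positivity
  have hN : 0 < h * C := by positivity
  obtain ⟨g, u, P', hg0, hco, eU, eN⟩ := Int.exists_gcd_one' (m := U) (n := ((h * C : ℕ) : ℤ))
    (Int.gcd_pos_of_ne_zero_right _ (by exact_mod_cast hN.ne'))
  have hP'0 : 0 < P' := by
    have : (0 : ℤ) < P' * g := by rw [← eN]; exact_mod_cast hN
    exact pos_of_mul_pos_left this (by positivity)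
  obtain ⟨P, rfl⟩ : ∃ P : ℕ, P' = P := ⟨P'.toNat, (Int.toNat_of_nonneg hP'0.le).symm⟩
  have hP0 : 0 < P := by exact_mod_cast hP'0
  have hcop : IsCoprime u (P : ℤ) := Int.isCoprime_iff_gcd_eq_one.2 hco
  have hrel : u * ((h * C : ℕ) : ℤ) = U * P := by rw [eN, eU]; ring
  have hNg : h * C = P * g := by exact_mod_cast eN
  -- a witness of a large variable divides the denominator
  have hdvd : ∀ (h' z m : ℕ), 0 < z → m * z = C → (h' : ℝ) ≤ majW x →
      MajorAt x (β * (m : ℝ)) h' z → P ∣ h' * m := by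
    intro h' z m hz hm hW' hmaj
    obtain ⟨V, hV, -⟩ := major_lift hz hm hmaj
    have hV3 : |(h' : ℝ) * C * β - ((V * z : ℤ) : ℝ)| ≤ 3 * majW x * x :=
      hV.trans (by nlinarith [mul_pos hW hx])
    have e := frac_unique hx hsm hhW hW' hU hV3
    have hzC : ((z : ℤ) * ((h' : ℤ) * (m : ℤ))) = (h' : ℤ) * C := by rw [← hm]; push_cast; ring
    have h2 : u * ((h' : ℤ) * m) = V * P := by
      refine mul_left_cancel₀ (show (z : ℤ) * h ≠ 0 by positivity) ?_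
      calc (z : ℤ) * h * (u * ((h' : ℤ) * m)) = (h' : ℤ) * (u * ((h * C : ℕ) : ℤ)) := by
            rw [← hm]; push_cast; ring
        _ = ((h' : ℤ) * U) * P := by rw [hrel]; ring
        _ = _ := by rw [e]; ring
    have : (P : ℤ) ∣ u * ((h' : ℤ) * m) := ⟨V, by rw [h2]; ring⟩
    exact_mod_cast hcop.symm.dvd_of_dvd_mul_left this
  have hbase : 1 ≤ x⁻¹ := (one_le_inv₀ hx).2 hx1
  have hmono : ∀ e : ℝ, e ≤ 2 + 3 / 10 ^ 4 → x ^ (-e) ≤ x ^ (-(2 + 3 / 10 ^ 4 : ℝ)) :=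
    fun e he => Real.rpow_le_rpow_of_exponent_ge hx hx1 (by linarith)
  have hbound : ∀ (m : ℕ) (e : ℝ), P ∣ m → 0 < m → (m : ℝ) ≤ x ^ (-e) → e ≤ 2 + 3 / 10 ^ 4 →
      (P : ℝ) ≤ x ^ (-(2 + 3 / 10 ^ 4 : ℝ)) := by
    intro m e hd hm0 hm he
    exact (Nat.cast_le.2 (Nat.le_of_dvd hm0 hd)).trans (hm.trans (hmono e he))
  have hWe : majW x = x ^ (-sig1) := rfl
  have hB0 : 0 ≤ x ^ (-sigB) := (Real.rpow_pos_of_pos hx _).le
  refine ⟨P, g, u, hP0, hcop, hNg, hrel, ?_, ?_⟩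
  · have hN' : (0 : ℝ) < (h : ℝ) * C := by exact_mod_cast hN
    have hr : (u : ℝ) / P = (U : ℝ) / ((h : ℝ) * C) := by
      rw [div_eq_div_iff (by exact_mod_cast hP0.ne') hN'.ne']
      exact_mod_cast hrel
    rw [hr, show β - (U : ℝ) / ((h : ℝ) * C) = ((h : ℝ) * C * β - U) / ((h : ℝ) * C) by
      field_simp, abs_div, abs_of_pos hN']
    exact div_le_div_of_nonneg_right hU hN'.le
  · obtain ⟨hc1, hc2, hc3⟩ := hwc
    obtain ⟨hb1, hb2, hb3⟩ := hwb
    rcases le_or_gt (x ^ (-sigB)) (c : ℝ) with hcB | hcB <;>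
      rcases le_or_gt (x ^ (-sigB)) (b : ℝ) with hbB | hbB
    · have d1 := hdvd hc c (R * b) hc0 (by rw [hCd]; ring) hc2 (hc3 hcB)
      have d2 := hdvd hb b (R * c) hb0 (by rw [hCd]; ring) hb2 (hb3 hbB)
      have d : P ∣ hc * hb * R := by
        have := Nat.dvd_gcd (d1.trans (Dvd.intro_left hb rfl)) (d2.trans (Dvd.intro_left hc rfl))
        rw [show hb * (hc * (R * b)) = (hc * hb * R) * b by ring,
          show hc * (hb * (R * c)) = (hc * hb * R) * c by ring, Nat.gcd_mul_left,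
          Nat.Coprime.gcd_eq_one hcb.symm, mul_one] at this
        exact this
      refine hbound _ (sig1 + sig1 + (2 + kapL)) d (by positivity) ?_
        (by norm_num [sig1, kapL])
      push_cast
      rw [neg_add, neg_add, Real.rpow_add hx, Real.rpow_add hx, ← hWe]
      exact mul_le_mul (mul_le_mul hc2 hb2 (Nat.cast_nonneg _) hW.le) hRle (Nat.cast_nonneg _)
        (mul_nonneg hW.le hW.le)
    · refine hbound _ (sig1 + (2 + kapL) + sigB) (hdvd hc c (R * b) hc0 (by rw [hCd]; ring) hc2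
        (hc3 hcB)) (by positivity) ?_ (by norm_num [sig1, kapL, sigB])
      push_cast
      rw [neg_add, neg_add, Real.rpow_add hx, Real.rpow_add hx, ← hWe, ← mul_assoc]
      exact mul_le_mul (mul_le_mul hc2 hRle (Nat.cast_nonneg _) hW.le) hbB.le (Nat.cast_nonneg _)
        (mul_nonneg hW.le (Real.rpow_pos_of_pos hx _).le)
    · refine hbound _ (sig1 + (2 + kapL) + sigB) (hdvd hb b (R * c) hb0 (by rw [hCd]; ring) hb2
        (hb3 hbB)) (by positivity) ?_ (by norm_num [sig1, kapL, sigB])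
      push_cast
      rw [neg_add, neg_add, Real.rpow_add hx, Real.rpow_add hx, ← hWe, ← mul_assoc]
      exact mul_le_mul (mul_le_mul hb2 hRle (Nat.cast_nonneg _) hW.le) hcB.le (Nat.cast_nonneg _)
        (mul_nonneg hW.le (Real.rpow_pos_of_pos hx _).le)
    · refine hbound (h * C) (sig1 + (2 + kapL) + sigB + sigB) ⟨g, hNg⟩ hN ?_
        (by norm_num [sig1, kapL, sigB])
      rw [hCd]
      push_cast
      rw [neg_add, neg_add, neg_add, Real.rpow_add hx, Real.rpow_add hx, Real.rpow_add hx, ← hWe,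
        ← mul_assoc, ← mul_assoc]
      exact mul_le_mul (mul_le_mul (mul_le_mul hhW hRle (Nat.cast_nonneg _) hW.le) hcB.le
        (Nat.cast_nonneg _) (by positivity)) hbB.le (Nat.cast_nonneg _) (by positivity)

/-- A side whose fraction is not a node is exceptional. -/
theorem node_or_exc {x β f : ℝ} {C h P t : ℕ} {u : ℤ} (hx : 0 < x)
    (hsm1 : x ^ (5 * sig1) < 1 / 64) (hsm2 : 9 * x ^ (2 * sig1) < 1 / 64)
    (hC : 0 < C) (hP : 0 < P) (hh : 0 < h) (hhW : (h : ℝ) ≤ majW x)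
    (hcop : IsCoprime u (P : ℤ)) (hN : h * C = P * t)
    (herr : |β - u / P| ≤ 3 * majW x * x / ((h : ℝ) * C))
    (hPle : (P : ℝ) ≤ x ^ (-(2 + 3 / 10 ^ 4 : ℝ)))
    (hf : f * (C : ℝ) ≤ x) (hf' : x ^ (1 + sig0) ≤ f * (C : ℝ)) :
    IsNode β f P u ∨ ExcMem β x C := by
  rcases lt_or_ge ((C : ℝ) * x ^ (-(1 - 5 * sig1))) ((P : ℝ) ^ 2) with hlt | hge
  · exact Or.inr ⟨h, P, t, u, hh, hhW, hP, hcop, hN, herr, hlt, hPle⟩
  have hC' : (0 : ℝ) < C := by exact_mod_cast hC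
  have hP' : (0 : ℝ) < P := by exact_mod_cast hP
  have hW := majW_pos hx
  have hf0 : 0 < f := pos_of_mul_pos_left ((Real.rpow_pos_of_pos hx _).trans_le hf') hC'.le
  refine Or.inl ⟨hP, hcop, ?_, ?_⟩
  · have h1 : f * (P : ℝ) ^ 2 ≤ x ^ (5 * sig1) := by
      calc f * (P : ℝ) ^ 2 ≤ f * ((C : ℝ) * x ^ (-(1 - 5 * sig1))) :=
            mul_le_mul_of_nonneg_left hge hf0.le
        _ = f * C * x ^ (-(1 - 5 * sig1)) := by ring
        _ ≤ x * x ^ (-(1 - 5 * sig1)) := mul_le_mul_of_nonneg_right hf (Real.rpow_pos_of_pos hx _).le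
        _ = _ := by rw [← Real.rpow_one_add' hx.le (by norm_num [sig1])]; congr 1; ring
    calc (f * P) ^ 2 = f * (f * (P : ℝ) ^ 2) := by ring
      _ < f * (1 / 64) := mul_lt_mul_of_pos_left (h1.trans_lt hsm1) hf0
      _ = _ := by ring
  · have h1 : |(P : ℝ) * β - u| ≤ P * (3 * majW x * x / C) := by
      have hh1 : (1 : ℝ) ≤ h := by exact_mod_cast hh
      rw [show (P : ℝ) * β - u = P * (β - u / P) by field_simp, abs_mul, Nat.abs_cast]
      refine mul_le_mul_of_nonneg_left (herr.trans ?_) hP'.le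
      exact div_le_div_of_nonneg_left (by positivity) hC' (le_mul_of_one_le_left hC'.le hh1)
    have hW2 : majW x ^ 2 = x ^ (-2 * sig1) := by
      rw [majW, ← Real.rpow_natCast, ← Real.rpow_mul hx.le]; congr 1; push_cast; ring
    calc ((P : ℝ) * β - u) ^ 2 ≤ ((P : ℝ) * (3 * majW x * x / C)) ^ 2 := by
          rw [← sq_abs]; exact pow_le_pow_left₀ (abs_nonneg _) h1 2
      _ = 9 * majW x ^ 2 * x ^ 2 * (P : ℝ) ^ 2 / (C : ℝ) ^ 2 := by ring
      _ ≤ 9 * majW x ^ 2 * x ^ 2 * ((C : ℝ) * x ^ (-(1 - 5 * sig1))) / (C : ℝ) ^ 2 := by gcongr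
      _ = 9 * x ^ (2 * sig1) * (x ^ (1 + sig0) / C) := by
          rw [hW2, ← Real.rpow_two x]
          field_simp
          rw [← Real.rpow_add hx, ← Real.rpow_add hx, ← Real.rpow_add hx]
          congr 1
          norm_num [sig0, sig1]
      _ ≤ 9 * x ^ (2 * sig1) * f := by
          refine mul_le_mul_of_nonneg_left ?_ (by positivity)
          rwa [div_le_iff₀ hC']
      _ < 1 / 64 * f := mul_lt_mul_of_pos_right hsm2 hf0
      _ = _ := by ring

/-- The classification. -/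
theorem exists_big_cases :
    ∃ x0 : ℝ, 0 < x0 ∧ ∀ (β β' x f f' : ℝ) (Q a d R c b ha hd hc hb : ℕ) (n : ℤ),
      0 < x → x ≤ x0 → 0 < Q → 0 < a → 0 < d → 0 < R → 0 < c → 0 < b →
      Nat.Coprime (R * (c * b)) (Q * (a * d)) → Nat.Coprime a d → Nat.Coprime c b →
      f * ((R * (c * b) : ℕ) : ℝ) ≤ x → x ^ (1 + sig0) ≤ f * ((R * (c * b) : ℕ) : ℝ) →
      f' * ((Q * (a * d) : ℕ) : ℝ) ≤ x → x ^ (1 + sig0) ≤ f' * ((Q * (a * d) : ℕ) : ℝ) →
      ((Q * R : ℕ) : ℝ) ≤ x ^ (-(2 + kapL)) →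
      x ^ (-(202 / 100 : ℝ)) < ((R * (c * b) : ℕ) : ℝ) * ((Q * (a * d) : ℕ) : ℝ) →
      Witness x (β * ((R * b : ℕ) : ℝ)) hc c → Witness x (β * ((R * c : ℕ) : ℝ)) hb b →
      Witness x (β' * ((Q * d : ℕ) : ℝ)) ha a → Witness x (β' * ((Q * a : ℕ) : ℝ)) hd d →
      |((R * (c * b) : ℕ) : ℝ) * β - ((Q * (a * d) : ℕ) : ℝ) * β' - n| < 2 * x →
      NodesExact β β' f f' (R * (c * b), Q * (a * d)) n ∨
        ExcMem β x (R * (c * b)) ∨ ExcMem β' x (Q * (a * d)) := by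
  have hpos : ∀ e δ : ℝ, 0 < e → 0 < δ → ∀ᶠ x in nhdsWithin (0 : ℝ) (Set.Ioi 0), x ^ e < δ := by
    intro e δ he hδ
    have := (Real.continuousAt_rpow_const 0 e (Or.inr he.le)).tendsto.mono_left
      (nhdsWithin_le_nhds (s := Set.Ioi (0 : ℝ)))
    rw [Real.zero_rpow he.ne'] at this
    exact this.eventually (eventually_lt_nhds hδ)
  have hev := (((hpos (5 * sig1) (1 / 64) (by norm_num [sig1]) (by norm_num)).and
    (hpos (2 * sig1) (1 / 600) (by norm_num [sig1]) (by norm_num))).and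
    (hpos (1 - 2 * sig1) (1 / 6) (by norm_num [sig1]) (by norm_num))).and
    (hpos 1 1 one_pos one_pos)
  obtain ⟨x0, hx00, hx0⟩ := mem_nhdsGT_iff_exists_Ioc_subset.1 hev
  refine ⟨x0, hx00, ?_⟩
  intro β β' x f f' Q a d R c b ha hd hc hb n hx hxx hQ ha0 hd0 hR hc0 hb0 _ hadc hcbc hf hf1 hg hg1
    hQR hbig hwc hwb hwa hwd hnear
  obtain ⟨⟨⟨s1, s2⟩, s3⟩, s4⟩ := hx0 ⟨hx, hxx⟩
  rw [Real.rpow_one] at s4
  have hW := majW_pos hx
  have hsm : 6 * majW x ^ 2 * x < 1 := by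
    have : majW x ^ 2 * x = x ^ (1 - 2 * sig1) := by
      rw [majW, ← Real.rpow_natCast, ← Real.rpow_mul hx.le,
        ← Real.rpow_add_one hx.ne']
      congr 1; push_cast; ring
    rw [mul_assoc, this]; linarith
  have hR1 : (1 : ℝ) ≤ (R : ℝ) := by exact_mod_cast hR
  have hQ1 : (1 : ℝ) ≤ (Q : ℝ) := by exact_mod_cast hQ
  have hQle : (Q : ℝ) ≤ x ^ (-(2 + kapL)) := by
    push_cast at hQR; exact (le_mul_of_one_le_right (by positivity) hR1).trans hQR
  have hRle : (R : ℝ) ≤ x ^ (-(2 + kapL)) := by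
    push_cast at hQR; exact (le_mul_of_one_le_left (by positivity) hQ1).trans hQR
  set C := R * (c * b) with hCd
  set A := Q * (a * d) with hAd
  -- the variable on a major arc gives both sides
  have hmajor : ∃ (h : ℕ) (U U' : ℤ), 0 < h ∧ (h : ℝ) ≤ majW x ∧ U - U' = h * n ∧
      |(h : ℝ) * (C : ℕ) * β - U| ≤ 3 * majW x * x ∧
      |(h : ℝ) * (A : ℕ) * β' - U'| ≤ 3 * majW x * x := by
    have hC1 : ∀ (h z m : ℕ), 0 < z → m * z = C → Witness x (β * (m : ℝ)) h z →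
        x ^ (-sigB) ≤ (z : ℝ) → ∃ (h : ℕ) (U U' : ℤ), 0 < h ∧ (h : ℝ) ≤ majW x ∧
          U - U' = h * n ∧ |(h : ℝ) * (C : ℕ) * β - U| ≤ 3 * majW x * x ∧
          |(h : ℝ) * (A : ℕ) * β' - U'| ≤ 3 * majW x * x := by
      intro h z m hz hm hw hzB
      obtain ⟨V, hV, -⟩ := major_lift hz hm (hw.2.2 hzB)
      refine ⟨h, V * z, V * z - h * n, hw.1, hw.2.1, by ring,
        hV.trans (by nlinarith [mul_pos hW hx]), ?_⟩
      have e : (h : ℝ) * (A : ℕ) * β' - ((V * z - h * n : ℤ) : ℝ) =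
          ((h : ℝ) * (C : ℕ) * β - ((V * z : ℤ) : ℝ)) - h * ((C : ℝ) * β - (A : ℝ) * β' - n) := by
        push_cast; ring
      rw [e]
      refine (abs_sub _ _).trans ?_
      rw [abs_mul, Nat.abs_cast]
      have := mul_le_mul hw.2.1 hnear.le (abs_nonneg _) hW.le
      linarith
    have hA1 : ∀ (h z m : ℕ), 0 < z → m * z = A → Witness x (β' * (m : ℝ)) h z →
        x ^ (-sigB) ≤ (z : ℝ) → ∃ (h : ℕ) (U U' : ℤ), 0 < h ∧ (h : ℝ) ≤ majW x ∧
          U - U' = h * n ∧ |(h : ℝ) * (C : ℕ) * β - U| ≤ 3 * majW x * x ∧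
          |(h : ℝ) * (A : ℕ) * β' - U'| ≤ 3 * majW x * x := by
      intro h z m hz hm hw hzB
      obtain ⟨V, hV, -⟩ := major_lift hz hm (hw.2.2 hzB)
      refine ⟨h, V * z + h * n, V * z, hw.1, hw.2.1, by ring, ?_,
        hV.trans (by nlinarith [mul_pos hW hx])⟩
      have e : (h : ℝ) * (C : ℕ) * β - ((V * z + h * n : ℤ) : ℝ) =
          ((h : ℝ) * (A : ℕ) * β' - ((V * z : ℤ) : ℝ)) + h * ((C : ℝ) * β - (A : ℝ) * β' - n) := by
        push_cast; ring
      rw [e]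
      refine (abs_add_le _ _).trans ?_
      rw [abs_mul, Nat.abs_cast]
      have := mul_le_mul hw.2.1 hnear.le (abs_nonneg _) hW.le
      linarith
    by_cases k1 : x ^ (-sigB) ≤ (c : ℝ)
    · exact hC1 hc c (R * b) hc0 (by rw [hCd]; ring) hwc k1
    by_cases k2 : x ^ (-sigB) ≤ (b : ℝ)
    · exact hC1 hb b (R * c) hb0 (by rw [hCd]; ring) hwb k2
    by_cases k3 : x ^ (-sigB) ≤ (a : ℝ)
    · exact hA1 ha a (Q * d) ha0 (by rw [hAd]; ring) hwa k3
    by_cases k4 : x ^ (-sigB) ≤ (d : ℝ)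
    · exact hA1 hd d (Q * a) hd0 (by rw [hAd]; ring) hwd k4
    exfalso
    push Not at k1 k2 k3 k4
    have hle : (C : ℝ) * (A : ℝ) ≤ x ^ (-(2 + kapL) + (-sigB + -sigB + (-sigB + -sigB))) := by
      rw [Real.rpow_add hx, Real.rpow_add hx, Real.rpow_add hx, hCd, hAd]
      push_cast
      push_cast at hQR
      calc (R : ℝ) * (c * b) * (Q * (a * d)) = Q * R * (c * b * (a * d)) := by ring
        _ ≤ _ := mul_le_mul hQR (mul_le_mul (mul_le_mul k1.le k2.le (by positivity) (by positivity))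
              (mul_le_mul k3.le k4.le (by positivity) (by positivity)) (by positivity) (by positivity))
              (by positivity) (by positivity)
    have := Real.rpow_le_rpow_of_exponent_ge hx s4.le
      (show (-(202 / 100) : ℝ) ≤ -(2 + kapL) + (-sigB + -sigB + (-sigB + -sigB)) by
        norm_num [kapL, sigB])
    linarith
  obtain ⟨h, U, U', hh, hhW, hUU, hUC, hUA⟩ := hmajor
  obtain ⟨P, t, u, hP, hco, hN, hrel, herr, hPle⟩ :=
    side_frac hx s4.le hsm hR hc0 hb0 hcbc hRle hh hhW hUC hwc hwb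
  obtain ⟨P', t', u', hP', hco', hN', hrel', herr', hPle'⟩ :=
    side_frac hx s4.le hsm hQ ha0 hd0 hadc hQle hh hhW hUA hwa hwd
  have hs2 : 9 * x ^ (2 * sig1) < 1 / 64 := by linarith
  rcases node_or_exc hx s1 hs2 (by positivity) hP hh hhW hco hN herr hPle hf hf1 with hn | he
  · rcases node_or_exc hx s1 hs2 (by positivity) hP' hh hhW hco' hN' herr' hPle' hg hg1 with
      hn' | he'
    · refine Or.inl ⟨P, P', u, u', hn, hn', ?_⟩
      refine mul_left_cancel₀ (show (h : ℤ) ≠ 0 by exact_mod_cast hh.ne') ?_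
      push_cast at hrel hrel'
      show (h : ℤ) * (n * P * P') = h * (((C : ℕ) : ℤ) * u * P' - ((A : ℕ) : ℤ) * u' * P)
      rw [hCd, hAd]
      push_cast
      linear_combination (-(P : ℤ) * P') * hUU - (P' : ℤ) * hrel + (P : ℤ) * hrel'
    · exact Or.inr (Or.inr he')
  · exact Or.inr (Or.inl he)

end Vale.Agent.P028.Lift
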