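import Vale.Agent.P028.Defs

/-!
The lifted module of the P028 proof: pairs of two scaled families attached to two shifts.

A pair `v ∈ V`, `w ∈ W` has the ratio data `c = qd w v` (the part `r'`), `a = qd v w` (the part
`q'`); it is near when `‖c β - a β'‖ < 2 x`.  The module bounds the weight of the near pairs of one
dyadic box `c ∈ (E₂, 2E₂]`, `a ∈ (E₁, 2E₁]`, apart from those satisfying an exact linear relation.
-/

noncomputable section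

namespace Vale.Agent.P028.Lift

open Finset

/-- `t` is within `w` of an integer. -/
def NearInt (t w : ℝ) : Prop := ∃ n : ℤ, |t - n| < w

/-- The coprime pairs of a dyadic box. -/
def InBox (E1 E2 : ℝ) (p : ℕ × ℕ) : Prop :=
  E2 < (p.1 : ℝ) ∧ (p.1 : ℝ) ≤ 2 * E2 ∧ E1 < (p.2 : ℝ) ∧ (p.2 : ℝ) ≤ 2 * E1 ∧ Nat.Coprime p.1 p.2

/-- `‖c β - a β'‖ < 2 x`. -/
def Near (β β' x : ℝ) (p : ℕ × ℕ) : Prop := NearInt ((p.1 : ℝ) * β - (p.2 : ℝ) * β') (2 * x)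

/-- The product part: one small multiplier makes both sides separately near. -/
def InProd (β β' x W : ℝ) (p : ℕ × ℕ) : Prop :=
  ∃ j : ℕ, 0 < j ∧ (j : ℝ) ≤ W ∧
    NearInt ((j : ℝ) * p.1 * β) (W * x) ∧ NearInt ((j : ℝ) * p.2 * β') (W * x)

/-- `p` satisfies an exact relation with denominator at most `Q` and errors at most `δ`, `δ'`. -/
def ExactRel (β β' x Q δ δ' : ℝ) (p : ℕ × ℕ) : Prop :=
  ∃ (P : ℕ) (u u' n : ℤ), 0 < P ∧ (P : ℝ) ≤ Q ∧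
    |(P : ℝ) * β - u| ≤ δ ∧ |(P : ℝ) * β' - u'| ≤ δ' ∧
    |(p.1 : ℝ) * β - (p.2 : ℝ) * β' - n| < 2 * x ∧
    (P : ℤ) * n = (p.1 : ℤ) * u - (p.2 : ℤ) * u'

/-- Two scaled families with the bounds of a box at level `x`. -/
structure Fams (F F' : ℕ → ℝ) (V W : Finset ℕ) (E1 E2 x : ℝ) : Prop where
  pos_V : ∀ v ∈ V, 0 < v
  pos_W : ∀ w ∈ W, 0 < w
  F_nonneg : ∀ v, 0 ≤ F v
  F'_nonneg : ∀ w, 0 ≤ F' w
  F_le : ∀ v ∈ V, F v ≤ 2 * x / E2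
  F'_le : ∀ w ∈ W, F' w ≤ 2 * x / E1
  half_le_E1 : 1 / 2 ≤ E1
  half_le_E2 : 1 / 2 ≤ E2
  x_pos : 0 < x

/-- The weight of the pairs whose ratio data lie in `R`. -/
def ratioWeight (F F' : ℕ → ℝ) (V W : Finset ℕ) (R : Finset (ℕ × ℕ)) : ℝ :=
  ∑ v ∈ V, ∑ w ∈ W.filter (fun w => (qd w v, qd v w) ∈ R), F v * F' w

/-- `∑ g, (∑ a ∈ B, F (g a)) ^ 2`. -/
def qForm (F : ℕ → ℝ) (V B : Finset ℕ) : ℝ :=
  ∑ a ∈ B, ∑ a' ∈ B, ∑ v ∈ V.filter (fun v => a ∣ v ∧ v / a * a' ∈ V), F v * F (v / a * a')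

/-- The bilinear input: pairs of bounded height at a scale `Z` weigh at most `Lam min(xZ, 1) M`. -/
def HeightBound (F F' : ℕ → ℝ) (V W : Finset ℕ) (E1 E2 x Lam M : ℝ) : Prop :=
  ∀ Z : ℝ, 0 < Z →
    ∑ v ∈ V, ∑ w ∈ W.filter (fun w => (qd w v : ℝ) ≤ E2 * Z ∧ (qd v w : ℝ) ≤ E1 * Z),
      F v * F' w ≤ Lam * min (x * Z) 1 * M

/-- The bilinear input for one family, linear in the height, up to the height `H0`. -/
def SelfBound (F : ℕ → ℝ) (V : Finset ℕ) (η H0 Lam m : ℝ) : Prop :=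
  ∀ H : ℝ, 0 < H → H ≤ H0 →
    ∑ v ∈ V, ∑ w ∈ V.filter (fun w => (qd w v : ℝ) ≤ H ∧ (qd v w : ℝ) ≤ H),
      F v * F w ≤ Lam * (η * H) * m

end Vale.Agent.P028.Lift
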