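import Vale.Agent.P028.Lift.Par

/-!
Cauchy's inequality through the first family: pairs with `qd v w` in a set `B` are bounded by pairs
inside the second family, whatever the size of `qd w v`.
-/

noncomputable section

namespace Vale.Agent.P028.Lift

open Finset

open Classical in
/-- The weight of a pair of the second family with ratio data `p = (A, C)`. -/
def selfK (B : Finset ℕ) (E : ℝ) (p : ℕ × ℕ) : ℝ :=
  ∑ q ∈ (B ×ˢ B).filter (fun q => qd q.1 q.2 ∣ p.1 ∧ qd q.2 q.1 ∣ p.2),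
    E / (Nat.gcd q.1 q.2 : ℝ) / max (p.1 : ℝ) p.2

/-- The part of `n` made of the primes `≤ Y`. -/
def lowPart (Y n : ℕ) : ℕ :=
  ∏ p ∈ n.primeFactors.filter (fun p => p ≤ Y), p ^ n.factorization p

theorem lowPart_pos (Y n : ℕ) : 0 < lowPart Y n :=
  Finset.prod_pos fun _ hp =>
    pow_pos (Nat.prime_of_mem_primeFactors (mem_filter.1 hp).1).pos _

theorem factorization_lowPart {Y n p : ℕ} :
    (lowPart Y n).factorization p = if p ≤ Y then n.factorization p else 0 := by
  rw [lowPart, Nat.factorization_prod_apply (fun q hq =>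
    pow_ne_zero _ (Nat.prime_of_mem_primeFactors (mem_filter.1 hq).1).ne_zero)]
  rw [Finset.sum_congr rfl (fun q hq => by
    rw [Nat.Prime.factorization_pow (Nat.prime_of_mem_primeFactors (mem_filter.1 hq).1),
      Finsupp.single_apply])]
  rw [Finset.sum_ite_eq']
  by_cases h : p ≤ Y
  · rw [if_pos h]
    split_ifs with h2
    · rfl
    · exact (Finsupp.notMem_support_iff.1 fun h3 =>
        h2 (mem_filter.2 ⟨by rwa [Nat.support_factorization] at h3, h⟩)).symm
  · rw [if_neg h]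
    exact if_neg fun h2 : p ∈ n.primeFactors.filter (fun q => q ≤ Y) => h (mem_filter.1 h2).2

theorem lowPart_dvd {Y n : ℕ} (hn : 0 < n) : lowPart Y n ∣ n := by
  rw [← Nat.factorization_le_iff_dvd (lowPart_pos Y n).ne' hn.ne']
  intro p
  rw [factorization_lowPart]
  split_ifs <;> simp

theorem lowPart_mul {Y m n : ℕ} (hm : 0 < m) (hn : 0 < n) :
    lowPart Y (m * n) = lowPart Y m * lowPart Y n := by
  refine Nat.eq_of_factorization_eq (lowPart_pos _ _).ne'
    (mul_pos (lowPart_pos _ _) (lowPart_pos _ _)).ne' fun p => ?_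
  rw [Nat.factorization_mul (lowPart_pos _ _).ne' (lowPart_pos _ _).ne', Finsupp.add_apply,
    factorization_lowPart, factorization_lowPart, factorization_lowPart,
    Nat.factorization_mul hm.ne' hn.ne', Finsupp.add_apply]
  split_ifs <;> rfl

theorem phiY_mul_lowPart (Y n : ℕ) :
    phiY Y n * (lowPart Y n : ℝ) = (Nat.totient (lowPart Y n) : ℝ) := by
  have hpf : (lowPart Y n).primeFactors = n.primeFactors.filter (fun p => p ≤ Y) := by
    ext p
    rw [← Nat.support_factorization, Finsupp.mem_support_iff, factorization_lowPart, mem_filter,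
      ← Nat.support_factorization, Finsupp.mem_support_iff]
    split_ifs with h <;> simp [h]
  have h := congrArg (fun q : ℚ => (q : ℝ)) (Nat.totient_eq_mul_prod_factors (lowPart Y n))
  simp only [Rat.cast_mul, Rat.cast_natCast, Rat.cast_prod, Rat.cast_sub, Rat.cast_one,
    Rat.cast_inv, hpf] at h
  rw [h, phiY, mul_comm]
  simp [one_div]

theorem phiY_nonneg (Y n : ℕ) : 0 ≤ phiY Y n :=
  Finset.prod_nonneg fun p hp => by
    have h2 : (1 : ℝ) ≤ p := by
      exact_mod_cast (Nat.prime_of_mem_primeFactors (mem_filter.1 hp).1).pos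
    rw [sub_nonneg, div_le_one (by linarith)]
    exact h2

/-- The structure of a common partner `v` of `w` and `w'`. -/
theorem link_data {v w w' a a' : ℕ} (hv : 0 < v) (hw : 0 < w) (hw' : 0 < w')
    (ha : qd v w = a) (ha' : qd v w' = a') :
    qd a a' ∣ qd w' w ∧ qd a' a ∣ qd w w' ∧
    v * Nat.gcd (qd w v) (qd w' v) = Nat.gcd a a' * qd a a' * qd a' a * Nat.gcd w w' ∧
    qd w v * qd a' a = Nat.gcd (qd w v) (qd w' v) * qd w w' ∧
    qd w' v * qd a a' = Nat.gcd (qd w v) (qd w' v) * qd w' w := by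
  have hm : ∀ q r : ℕ, qd q r * Nat.gcd q r = q := fun q r =>
    Nat.div_mul_cancel (Nat.gcd_dvd_left q r)
  have hg := Nat.gcd_pos_of_pos_left w hv
  have hg' := Nat.gcd_pos_of_pos_left w' hv
  have e1 : a * Nat.gcd v w = v := ha ▸ hm v w
  have e2 : a' * Nat.gcd v w' = v := ha' ▸ hm v w'
  have e3 : qd w v * Nat.gcd v w = w := Nat.gcd_comm v w ▸ hm w v
  have e4 : qd w' v * Nat.gcd v w' = w' := Nat.gcd_comm v w' ▸ hm w' v
  have ha0 : 0 < a := by
    rcases Nat.eq_zero_or_pos a with h | h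
    · rw [h] at e1; simp at e1; omega
    · exact h
  have ha0' : 0 < a' := by
    rcases Nat.eq_zero_or_pos a' with h | h
    · rw [h] at e2; simp at e2; omega
    · exact h
  have hG := Nat.gcd_pos_of_pos_left a' ha0
  have c1 : Nat.Coprime (qd w v) a := by
    have h := Nat.coprime_div_gcd_div_gcd hg
    rw [show v / Nat.gcd v w = a from ha, show w / Nat.gcd v w = qd w v by
      rw [qd, Nat.gcd_comm w v]] at h
    exact h.symm
  have c2 : Nat.Coprime (qd w' v) a' := by
    have h := Nat.coprime_div_gcd_div_gcd hg'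
    rw [show v / Nat.gcd v w' = a' from ha', show w' / Nat.gcd v w' = qd w' v by
      rw [qd, Nat.gcd_comm w' v]] at h
    exact h.symm
  have f1 : qd a a' * Nat.gcd a a' = a := hm a a'
  have f2 : qd a' a * Nat.gcd a a' = a' := Nat.gcd_comm a a' ▸ hm a' a
  have c3 : Nat.Coprime (qd a a') (qd a' a) := by
    have h := Nat.coprime_div_gcd_div_gcd hG
    rwa [show a / Nat.gcd a a' = qd a a' from rfl, show a' / Nat.gcd a a' = qd a' a by
      rw [qd, Nat.gcd_comm a' a]] at h
  have p1 : 0 < qd a a' := Nat.pos_of_mul_pos_right (f1.symm ▸ ha0)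
  have p2 : 0 < qd a' a := Nat.pos_of_mul_pos_right (f2.symm ▸ ha0')
  have d1 : qd a a' ∣ a := Dvd.intro _ f1
  have d2 : qd a' a ∣ a' := Dvd.intro _ f2
  set a1 := qd a a'
  set b1 := qd a' a
  set G := Nat.gcd a a'
  set g := Nat.gcd v w
  set g' := Nat.gcd v w'
  set c := qd w v
  set c' := qd w' v
  -- `g = b1 T`, `g' = a1 T`
  have hgg : a1 * g = b1 * g' := by
    apply Nat.eq_of_mul_eq_mul_left hG
    calc G * (a1 * g) = (a1 * G) * g := by ring
      _ = a * g := by rw [f1]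
      _ = v := e1
      _ = a' * g' := e2.symm
      _ = (b1 * G) * g' := by rw [f2]
      _ = G * (b1 * g') := by ring
  obtain ⟨T, hT⟩ : b1 ∣ g := c3.symm.dvd_of_dvd_mul_left ⟨g', hgg⟩
  have hT' : g' = a1 * T := by
    apply Nat.eq_of_mul_eq_mul_left p2
    rw [← hgg, hT]; ring
  have hw1 : w = T * (b1 * c) := by rw [← e3, hT]; ring
  have hw2 : w' = T * (a1 * c') := by rw [← e4, hT']; ring
  have k1 : Nat.gcd (b1 * c) (a1 * c') = Nat.gcd c c' := by
    have i1 : Nat.Coprime a1 (b1 * c) :=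
      Nat.Coprime.mul_right c3 ((c1.symm).coprime_dvd_left d1)
    have i2 : Nat.Coprime b1 c' := (c2.symm).coprime_dvd_left d2
    rw [Nat.Coprime.gcd_mul_left_cancel_right _ i1, Nat.Coprime.gcd_mul_left_cancel _ i2]
  have hW : Nat.gcd w w' = T * Nat.gcd c c' := by rw [hw1, hw2, Nat.gcd_mul_left, k1]
  have hTpos : 0 < T := Nat.pos_of_mul_pos_right (hw1.symm ▸ hw)
  have hA : c * b1 = Nat.gcd c c' * qd w w' := by
    apply Nat.eq_of_mul_eq_mul_left hTpos
    calc T * (c * b1) = w := by rw [hw1]; ring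
      _ = qd w w' * Nat.gcd w w' := (hm w w').symm
      _ = T * (Nat.gcd c c' * qd w w') := by rw [hW]; ring
  have hC : c' * a1 = Nat.gcd c c' * qd w' w := by
    apply Nat.eq_of_mul_eq_mul_left hTpos
    calc T * (c' * a1) = w' := by rw [hw2]; ring
      _ = qd w' w * Nat.gcd w' w := (hm w' w).symm
      _ = T * (Nat.gcd c c' * qd w' w) := by rw [Nat.gcd_comm w' w, hW]; ring
  have ia : Nat.Coprime a1 (Nat.gcd c c') :=
    ((c1.symm).coprime_dvd_left d1).coprime_dvd_right (Nat.gcd_dvd_left c c')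
  have ib : Nat.Coprime b1 (Nat.gcd c c') :=
    ((c2.symm).coprime_dvd_left d2).coprime_dvd_right (Nat.gcd_dvd_right c c')
  refine ⟨ia.dvd_of_dvd_mul_left ⟨c', by rw [← hC]; ring⟩,
    ib.dvd_of_dvd_mul_left ⟨c, by rw [← hA]; ring⟩, ?_, hA, hC⟩
  calc v * Nat.gcd c c' = a * g * Nat.gcd c c' := by rw [e1]
    _ = (a1 * G) * (b1 * T) * Nat.gcd c c' := by rw [f1, hT]
    _ = G * a1 * b1 * Nat.gcd w w' := by rw [hW]; ring

open Classical in
/-- The common partners of a fixed `(w, w')` and `(a, a')` weigh at most `1`. -/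
theorem sum_phiY_div_le {V : Finset ℕ} {k : ℕ → ℕ} {Y w w' a a' : ℕ} (hw : 0 < w) (hw' : 0 < w')
    (hv0 : ∀ v ∈ V, 0 < v)
    (hkV : ∀ v ∈ V, ∀ p : ℕ, p.Prime → Y < p → k p ≤ v.factorization p)
    (hkw : ∀ p : ℕ, p.Prime → Y < p → k p ≤ w.factorization p)
    (hkw' : ∀ p : ℕ, p.Prime → Y < p → k p ≤ w'.factorization p)
    (hV : ∀ v ∈ V, Linked k Y v w ∧ Linked k Y v w' ∧ qd v w = a ∧ qd v w' = a') :
    ∑ v ∈ V, phiY Y v / (Nat.gcd (qd w v) (qd w' v) : ℝ) ≤ 1 := by
  rcases V.eq_empty_or_nonempty with rfl | ⟨v₀, hv₀⟩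
  · simp
  set M := Nat.gcd a a' * qd a a' * qd a' a * Nat.gcd w w' with hM
  have hqpos : ∀ u r : ℕ, 0 < u → 0 < qd u r := fun u r hu =>
    Nat.div_pos (Nat.le_of_dvd hu (Nat.gcd_dvd_left u r)) (Nat.gcd_pos_of_pos_left r hu)
  have htp : ∀ v : ℕ, 0 < Nat.gcd (qd w v) (qd w' v) :=
    fun v => Nat.gcd_pos_of_pos_left _ (hqpos w v hw)
  have hvt : ∀ v ∈ V, v * Nat.gcd (qd w v) (qd w' v) = M := fun v hv =>
    (link_data (hv0 v hv) hw hw' (hV v hv).2.2.1 (hV v hv).2.2.2).2.2.1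
  have hM0 : 0 < M := hvt v₀ hv₀ ▸ mul_pos (hv0 v₀ hv₀) (htp v₀)
  have hinj : ∀ u ∈ V, ∀ v ∈ V, lowPart Y u = lowPart Y v → u = v := by
    intro u hu v hv huv
    refine Nat.eq_of_factorization_eq (hv0 u hu).ne' (hv0 v hv).ne' fun p => ?_
    rcases le_or_gt p Y with hp | hp
    · have := congrArg (fun n : ℕ => n.factorization p) huv
      simpa [factorization_lowPart, hp] using this
    by_cases hpp : p.Prime
    swap
    · rw [Nat.factorization_eq_zero_of_not_prime _ hpp, Nat.factorization_eq_zero_of_not_prime _ hpp]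
    -- above `Y` the exponent is determined
    have key : ∀ z ∈ V, z.factorization p =
        if w.factorization p = k p ∧ w'.factorization p = k p then M.factorization p else k p := by
      intro z hz
      obtain ⟨l1, l2, -, -⟩ := hV z hz
      have z1 := l1 p hpp hp
      have z2 := l2 p hpp hp
      have z3 := hkV z hz p hpp hp
      split_ifs with h
      · have hq : (qd w z).factorization p = 0 := by
          rw [qd, Nat.factorization_div (Nat.gcd_dvd_left w z),
            Nat.factorization_gcd hw.ne' (hv0 z hz).ne', Finsupp.tsub_apply, Finsupp.inf_apply]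
          omega
        rw [← hvt z hz, Nat.factorization_mul (hv0 z hz).ne' (htp z).ne', Finsupp.add_apply,
          Nat.factorization_gcd (hqpos w z hw).ne' (hqpos w' z hw').ne', Finsupp.inf_apply, hq]
        omega
      · have := hkw p hpp hp
        have := hkw' p hpp hp
        omega
    rw [key u hu, key v hv]
  have hterm : ∀ v ∈ V, phiY Y v / (Nat.gcd (qd w v) (qd w' v) : ℝ) ≤
      (Nat.totient (lowPart Y v) : ℝ) / (lowPart Y M : ℝ) := by
    intro v hv
    have hl : (0 : ℝ) < lowPart Y v := by exact_mod_cast lowPart_pos Y v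
    have hlt : (0 : ℝ) < lowPart Y (Nat.gcd (qd w v) (qd w' v)) := by
      exact_mod_cast lowPart_pos Y _
    rw [← phiY_mul_lowPart, ← hvt v hv, lowPart_mul (hv0 v hv) (htp v), Nat.cast_mul,
      mul_comm (phiY Y v) _, mul_div_mul_left _ _ hl.ne']
    refine div_le_div_of_nonneg_left (phiY_nonneg Y v) hlt ?_
    exact_mod_cast Nat.le_of_dvd (htp v) (lowPart_dvd (htp v))
  refine (Finset.sum_le_sum hterm).trans ?_
  rw [← Finset.sum_div, div_le_one (by exact_mod_cast lowPart_pos Y M)]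
  have hsub : V.image (lowPart Y) ⊆ (lowPart Y M).divisors := by
    intro d hd
    obtain ⟨v, hv, rfl⟩ := mem_image.1 hd
    rw [Nat.mem_divisors, ← hvt v hv, lowPart_mul (hv0 v hv) (htp v)]
    exact ⟨Dvd.intro _ rfl, (mul_pos (lowPart_pos _ _) (lowPart_pos _ _)).ne'⟩
  have hsum : ∑ v ∈ V, (Nat.totient (lowPart Y v) : ℝ) =
      ∑ d ∈ V.image (lowPart Y), (Nat.totient d : ℝ) := (Finset.sum_image (f := fun d => (Nat.totient d : ℝ)) hinj).symm
  rw [hsum]
  refine (Finset.sum_le_sum_of_subset_of_nonneg hsub fun _ _ _ => by positivity).trans ?_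
  rw [← Nat.cast_sum, Nat.sum_totient]

open Classical in
/-- The reduction to the second family. -/
theorem side_link_le (F F' f f' : ℕ → ℝ) (V W : Finset ℕ) (k : ℕ → ℕ) (Y : ℕ) (x E : ℝ)
    (B : Finset ℕ) (hx : 0 < x) (hE : 1 / 2 ≤ E) (hY : 2 ≤ Y)
    (hB : ∀ a ∈ B, E < (a : ℝ) ∧ (a : ℝ) ≤ 2 * E)
    (hV : Pool F f V k Y) (hW : Pool F' f' W k Y) :
    (∑ v ∈ V, ∑ w ∈ W.filter (fun w => Linked k Y v w ∧ f v * (qd w v : ℝ) ≤ x ∧
        f' w * (qd v w : ℝ) ≤ x ∧ qd v w ∈ B), F v * F' w) ^ 2 ≤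
      4 * x * (∑ v ∈ V, F v) *
        ∑ w ∈ W.filter (fun w => f' w * E ≤ x), ∑ w' ∈ W.filter (fun w => f' w * E ≤ x),
          F' w * F' w' * selfK B E (qd w' w, qd w w') := by
  have hmV : 0 ≤ ∑ v ∈ V, F v := sum_nonneg fun v _ => hV.F_nonneg v
  set W' := W.filter (fun w => f' w * E ≤ x) with hW'
  let R : ℕ → ℕ → Prop := fun v w =>
    Linked k Y v w ∧ f v * (qd w v : ℝ) ≤ x ∧ f' w * (qd v w : ℝ) ≤ x ∧ qd v w ∈ B
  let G : ℕ → ℝ := fun v => ∑ w ∈ W', (if R v w then F' w else 0)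
  -- the pairs only use `W'`
  have hS : (∑ v ∈ V, ∑ w ∈ W.filter (fun w => Linked k Y v w ∧ f v * (qd w v : ℝ) ≤ x ∧
      f' w * (qd v w : ℝ) ≤ x ∧ qd v w ∈ B), F v * F' w) = ∑ v ∈ V, F v * G v := by
    refine Finset.sum_congr rfl fun v _ => ?_
    simp only [G, hW']
    rw [← Finset.sum_filter, Finset.filter_filter, Finset.mul_sum]
    refine Finset.sum_congr (Finset.filter_congr fun w _ => ?_) fun _ _ => rfl
    refine ⟨fun h => ⟨?_, h⟩, fun h => h.2⟩
    exact (mul_le_mul_of_nonneg_left (hB _ h.2.2.2).1.le (hW.f_nonneg w)).trans h.2.2.1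
  rw [hS]
  have hCS : (∑ v ∈ V, F v * G v) ^ 2 ≤ (∑ v ∈ V, F v) * ∑ v ∈ V, F v * G v ^ 2 :=
    Finset.sum_sq_le_sum_mul_sum_of_sq_le_mul _ (fun v _ => hV.F_nonneg v)
      (fun v _ => mul_nonneg (hV.F_nonneg v) (sq_nonneg _)) fun v _ => le_of_eq (by ring)
  -- the common partners of `w`, `w'`
  have key : ∀ w ∈ W', ∀ w' ∈ W',
      ∑ v ∈ V.filter (fun v => R v w ∧ R v w'), F v ≤
        4 * x * selfK B E (qd w' w, qd w w') := by
    intro w hw w' hw'
    have hw0 := hW.pos w (mem_filter.1 hw).1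
    have hw0' := hW.pos w' (mem_filter.1 hw').1
    set Q := (B ×ˢ B).filter (fun q => qd q.1 q.2 ∣ qd w' w ∧ qd q.2 q.1 ∣ qd w w') with hQ
    set Z := V.filter (fun v => R v w ∧ R v w') with hZ
    have hmaps : ∀ v ∈ Z, (qd v w, qd v w') ∈ Q := by
      intro v hv
      obtain ⟨hvV, h1, h2⟩ := mem_filter.1 hv
      have hd := link_data (hV.pos v hvV) hw0 hw0' rfl rfl
      exact mem_filter.2 ⟨mem_product.2 ⟨h1.2.2.2, h2.2.2.2⟩, hd.1, hd.2.1⟩
    rw [← Finset.sum_fiberwise_of_maps_to hmaps, selfK, ← hQ, Finset.mul_sum]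
    refine Finset.sum_le_sum fun q hq => ?_
    obtain ⟨a, a'⟩ := q
    obtain ⟨hqB, -⟩ := mem_filter.1 hq
    obtain ⟨haB, haB'⟩ := mem_product.1 hqB
    have hE0 : (0 : ℝ) < E := by linarith
    have hgpos : 0 < Nat.gcd a a' := Nat.gcd_pos_of_pos_left _ (by
      have h := (hB a haB).1
      by_contra h0
      have : a = 0 := by omega
      subst this
      simp at h
      linarith)
    have hG0 : (0 : ℝ) < (Nat.gcd a a' : ℝ) := by exact_mod_cast hgpos
    have hA0 : (0 : ℝ) < max (qd w' w : ℝ) (qd w w') := by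
      refine lt_max_of_lt_left ?_
      exact_mod_cast Nat.div_pos (Nat.le_of_dvd hw0' (Nat.gcd_dvd_left _ _))
        (Nat.gcd_pos_of_pos_left _ hw0')
    set D := max (qd w' w : ℝ) (qd w w') with hD
    have hterm : ∀ v ∈ Z.filter (fun v => (qd v w, qd v w') = (a, a')),
        F v ≤ 2 * x * (E / (Nat.gcd a a' : ℝ) / D) *
          (phiY Y v / (Nat.gcd (qd w v) (qd w' v) : ℝ)) := by
      intro v hv
      obtain ⟨hvZ, he⟩ := mem_filter.1 hv
      obtain ⟨hvV, h1, h2⟩ := mem_filter.1 hvZ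
      rw [Prod.mk.injEq] at he
      have hd := link_data (hV.pos v hvV) hw0 hw0' he.1 he.2
      have ht : (0 : ℝ) < (Nat.gcd (qd w v) (qd w' v) : ℝ) := by
        exact_mod_cast Nat.gcd_pos_of_pos_left _ (Nat.div_pos
          (Nat.le_of_dvd hw0 (Nat.gcd_dvd_left _ _)) (Nat.gcd_pos_of_pos_left _ hw0))
      have hA : (qd w v : ℝ) * (qd a' a : ℝ) =
          (Nat.gcd (qd w v) (qd w' v) : ℝ) * (qd w w' : ℝ) := by exact_mod_cast hd.2.2.2.1
      have hC : (qd w' v : ℝ) * (qd a a' : ℝ) =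
          (Nat.gcd (qd w v) (qd w' v) : ℝ) * (qd w' w : ℝ) := by exact_mod_cast hd.2.2.2.2
      have ha1 : (qd a a' : ℝ) * (Nat.gcd a a' : ℝ) ≤ 2 * E := by
        refine le_of_eq_of_le ?_ (hB a haB).2
        exact_mod_cast Nat.div_mul_cancel (Nat.gcd_dvd_left a a')
      have ha2 : (qd a' a : ℝ) * (Nat.gcd a a' : ℝ) ≤ 2 * E := by
        refine le_of_eq_of_le ?_ (hB a' haB').2
        rw [Nat.gcd_comm a a']
        exact_mod_cast Nat.div_mul_cancel (Nat.gcd_dvd_left a' a)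
      have hf : f v * ((Nat.gcd (qd w v) (qd w' v) : ℝ) * D * (Nat.gcd a a' : ℝ)) ≤
          x * (2 * E) := by
        rw [hD, mul_max_of_nonneg _ _ ht.le, max_mul_of_nonneg _ _ hG0.le,
          mul_max_of_nonneg _ _ (hV.f_nonneg v), max_le_iff]
        constructor
        · rw [← hC]
          calc f v * ((qd w' v : ℝ) * (qd a a' : ℝ) * (Nat.gcd a a' : ℝ))
              = (f v * (qd w' v : ℝ)) * ((qd a a' : ℝ) * (Nat.gcd a a' : ℝ)) := by ring
            _ ≤ x * (2 * E) := mul_le_mul h2.2.1 ha1 (by positivity) hx.le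
        · rw [← hA]
          calc f v * ((qd w v : ℝ) * (qd a' a : ℝ) * (Nat.gcd a a' : ℝ))
              = (f v * (qd w v : ℝ)) * ((qd a' a : ℝ) * (Nat.gcd a a' : ℝ)) := by ring
            _ ≤ x * (2 * E) := mul_le_mul h1.2.1 ha2 (by positivity) hx.le
      have hφ := phiY_nonneg Y v
      refine (hV.F_le v hvV).trans ?_
      rw [show 2 * x * (E / (Nat.gcd a a' : ℝ) / D) *
          (phiY Y v / (Nat.gcd (qd w v) (qd w' v) : ℝ)) = x * (2 * E) /
          ((Nat.gcd (qd w v) (qd w' v) : ℝ) * D * (Nat.gcd a a' : ℝ)) * phiY Y v by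
        field_simp]
      refine mul_le_mul_of_nonneg_right ?_ hφ
      rw [le_div_iff₀ (by positivity)]
      exact hf
    refine (Finset.sum_le_sum hterm).trans ?_
    rw [← Finset.mul_sum]
    have h1 : ∑ v ∈ Z.filter (fun v => (qd v w, qd v w') = (a, a')),
        phiY Y v / (Nat.gcd (qd w v) (qd w' v) : ℝ) ≤ 1 := by
      refine sum_phiY_div_le (k := k) (a := a) (a' := a') hw0 hw0' (fun v hv => ?_) (fun v hv => ?_)
        (hW.centre_le w (mem_filter.1 hw).1) (hW.centre_le w' (mem_filter.1 hw').1) (fun v hv => ?_)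
      · exact hV.pos v (mem_filter.1 (mem_filter.1 hv).1).1
      · exact hV.centre_le v (mem_filter.1 (mem_filter.1 hv).1).1
      · obtain ⟨hvZ, he⟩ := mem_filter.1 hv
        obtain ⟨-, h1, h2⟩ := mem_filter.1 hvZ
        rw [Prod.mk.injEq] at he
        exact ⟨h1.1, h2.1, he.1, he.2⟩
    refine (mul_le_mul_of_nonneg_left h1 (by positivity)).trans ?_
    have : 0 ≤ x * (E / (Nat.gcd a a' : ℝ) / D) := by positivity
    dsimp only
    linarith
  refine hCS.trans ?_
  rw [show 4 * x * (∑ v ∈ V, F v) * ∑ w ∈ W', ∑ w' ∈ W', F' w * F' w' *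
      selfK B E (qd w' w, qd w w') = (∑ v ∈ V, F v) * ∑ w ∈ W', ∑ w' ∈ W', F' w * F' w' *
      (4 * x * selfK B E (qd w' w, qd w w')) by
    generalize ∑ v ∈ V, F v = m
    simp only [Finset.mul_sum]
    exact Finset.sum_congr rfl fun _ _ => Finset.sum_congr rfl fun _ _ => by ring]
  refine mul_le_mul_of_nonneg_left ?_ hmV
  have hexp : ∑ v ∈ V, F v * G v ^ 2 =
      ∑ w ∈ W', ∑ w' ∈ W', F' w * F' w' * ∑ v ∈ V.filter (fun v => R v w ∧ R v w'), F v := by
    simp only [G, sq, Finset.sum_mul, Finset.mul_sum]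
    rw [Finset.sum_comm]
    refine Finset.sum_congr rfl fun w _ => ?_
    rw [Finset.sum_comm]
    refine Finset.sum_congr rfl fun w' _ => ?_
    rw [Finset.sum_filter]
    refine Finset.sum_congr rfl fun v _ => ?_
    by_cases h1 : R v w <;> by_cases h2 : R v w' <;> simp [h1, h2] <;> ring
  rw [hexp]
  exact Finset.sum_le_sum fun w hw => Finset.sum_le_sum fun w' hw' =>
    mul_le_mul_of_nonneg_left (key w hw w' hw') (mul_nonneg (hW.F_nonneg w) (hW.F_nonneg w'))

end Vale.Agent.P028.Lift
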