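import Vale.Agent.P028.Lift.SideLink
import Vale.Agent.P028.Lift.BilPool
import Vale.Agent.P028.Lift.Sums
import Vale.Agent.P028.Lift.SideSelfParts

/-!
Pairs inside one family with ratio data divisible by two members of a set which is thin on
progressions.
-/

noncomputable section

namespace Vale.Agent.P028.Lift

open Finset

/-- `B` is thin on progressions, and small if `E` is near `X`. -/
structure ThinSet (x E : ℝ) (B : Finset ℕ) : Prop where
  mem : ∀ a ∈ B, E < (a : ℝ) ∧ (a : ℝ) ≤ 2 * E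
  thin : ∀ p : ℕ, 0 < p → x ^ (-(3 * tauL)) ≤ E / p →
    ((B.filter (fun a => p ∣ a)).card : ℝ) ≤ E / p * x ^ (sigR / 2)
  small : E ≤ x ^ (-(102 / 100 : ℝ)) → (B.card : ℝ) ≤ x ^ (-(1 / 20 : ℝ))

open SideSelfAux in
open Classical in
theorem selfK_le_parts {x E : ℝ} {B : Finset ℕ} (hE : 0 < E) (G K : ℝ) (w w' : ℕ)
    (hK : K = x ^ (-(1 / 2 : ℝ))) :
    selfK B E (qd w' w, qd w w') ≤
      (∑ q ∈ (qSet B (qd w' w, qd w w')).filter (fun q => G ≤ (Nat.gcd q.1 q.2 : ℝ)),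
        E / (Nat.gcd q.1 q.2 : ℝ) / max (qd w' w : ℝ) (qd w w')) +
      (if E ≤ x ^ (-(102 / 100 : ℝ)) then
        ∑ q ∈ (qSet B (qd w' w, qd w w')).filter
            (fun q => (ht w w' : ℝ) ≤ E / (Nat.gcd q.1 q.2 : ℝ) * K),
          E / (Nat.gcd q.1 q.2 : ℝ) / max (qd w' w : ℝ) (qd w w') else 0) +
      ∑ q ∈ (qSet B (qd w' w, qd w w')).filter (fun q => ¬ G ≤ (Nat.gcd q.1 q.2 : ℝ) ∧
          SparseCase x E (Nat.gcd q.1 q.2) (max (qd w' w : ℝ) (qd w w'))),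
        E / (Nat.gcd q.1 q.2 : ℝ) / max (qd w' w : ℝ) (qd w w') := by
  subst hK
  rw [selfK_eq]
  simp only [Finset.sum_filter]
  split_ifs with hsmall
  · rw [← Finset.sum_add_distrib, ← Finset.sum_add_distrib]
    refine Finset.sum_le_sum fun q _ => ?_
    set a := E / (Nat.gcd q.1 q.2 : ℝ) / max (qd w' w : ℝ) (qd w w') with ha
    have ha0 : 0 ≤ a := by positivity
    by_cases h1 : G ≤ (Nat.gcd q.1 q.2 : ℝ)
    · rw [if_pos h1]
      split_ifs <;> linarith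
    · by_cases h2 : SparseCase x E (Nat.gcd q.1 q.2) (max (qd w' w : ℝ) (qd w w'))
      · rw [if_neg h1]
        split_ifs <;> first | linarith | exact absurd (And.intro h1 h2) (by assumption)
      · have h3 : (ht w w' : ℝ) ≤ E / (Nat.gcd q.1 q.2 : ℝ) * x ^ (-(1 / 2 : ℝ)) := by
          simp only [SparseCase, not_or, not_lt] at h2
          rw [ht, Nat.cast_max]
          exact h2.2
        rw [if_neg h1, if_pos h3]
        split_ifs <;> linarith
  · rw [add_zero, ← Finset.sum_add_distrib]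
    refine Finset.sum_le_sum fun q _ => ?_
    set a := E / (Nat.gcd q.1 q.2 : ℝ) / max (qd w' w : ℝ) (qd w w') with ha
    have ha0 : 0 ≤ a := by positivity
    by_cases h1 : G ≤ (Nat.gcd q.1 q.2 : ℝ)
    · rw [if_pos h1]
      split_ifs <;> linarith
    · have h2 : SparseCase x E (Nat.gcd q.1 q.2) (max (qd w' w : ℝ) (qd w w')) :=
        Or.inl (not_le.1 hsmall)
      rw [if_neg h1, if_pos (And.intro h1 h2)]
      linarith

theorem sum_inv_Icc_le (N : ℕ) :
    ∑ g ∈ Finset.Icc 1 N, 1 / (g : ℝ) ≤ 1 + Real.log N := by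
  refine le_trans (le_of_eq ?_) (harmonic_le_one_add_log N)
  rw [harmonic_eq_sum_Icc, Rat.cast_sum]
  exact Finset.sum_congr rfl fun g _ => by rw [Rat.cast_inv, Rat.cast_natCast, one_div]

open SideSelfAux in
open Classical in
/-- The pairs of bounded height gain. -/
theorem exists_sideSelf_le :
    ∃ C : ℝ, 0 < C ∧ ∀ (F' f' : ℕ → ℝ) (W : Finset ℕ) (k : ℕ → ℕ) (Y : ℕ) (x E : ℝ)
      (B : Finset ℕ),
      0 < x → C * x ≤ 1 → x ^ (-(9 : ℝ)) ≤ (Y : ℝ) →
      x ^ (-(899 / 1000 : ℝ)) ≤ E → E ≤ x ^ (-(22 / 10 : ℝ)) → ThinSet x E B →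
      Pool F' f' W k Y → (∀ w ∈ W, f' w * E ≤ x) →
      ∑ w ∈ W, ∑ w' ∈ W.filter (fun w' =>
          max (qd w' w : ℝ) (qd w w') ≤ x ^ (-(8 : ℝ))),
          F' w * F' w' * selfK B E (qd w' w, qd w w') ≤
        C * x ^ (1 + 8 * gainL) *
          ((∑ w ∈ W, F' w) + (∑ w ∈ W, F' w) ^ (2 * thL + omL)) := by
  obtain ⟨Ct, hCt1, hdiv⟩ := exists_divisors_le_rpow etaS (by norm_num [etaS])
  obtain ⟨Ci, hCi, hinv⟩ := exists_pairs_inv_le
  obtain ⟨Cs, hCs, hblock⟩ := exists_block_sparse_le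
  set CL : ℝ := 8 / etaS + 1 with hCL
  have hCL1 : 1 ≤ CL := by
    rw [hCL]; exact le_add_of_nonneg_left (div_nonneg (by norm_num) (by norm_num [etaS]))
  set D0 : ℝ := Ct * CL ^ 2 with hD0
  have hD01 : 1 ≤ D0 := one_le_mul_of_one_le_of_one_le hCt1 (one_le_pow₀ hCL1)
  set C0 : ℝ := Ct * Ct * CL * Ci + 4 + Ct * Ct * (4 * CL ^ 2) * Cs * (1 + 2 * D0) with hC0
  have hC00 : 0 ≤ C0 := by positivity
  refine ⟨256 ^ 100 + C0, by positivity, ?_⟩
  intro F f W k Y x E B hx hCx hY hE1 hE2 hB hpool hf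
  have hxs : x ≤ 1 / 256 ^ 100 := by
    rw [le_div_iff₀ (by positivity)]
    linarith [mul_nonneg hC00 hx.le]
  have h : Data F f W k Y x E := ⟨hpool, hx, hxs, hY, hE1, hE2, hf⟩
  have hx1 := h.x_le_one
  have hE := h.E_pos
  obtain ⟨hL1, hL2, hlogD, hJ⟩ := logTop_facts hx hx1
  set L := logTop x
  have hp : ∀ a : ℝ, 0 ≤ x ^ a := fun a => Real.rpow_nonneg hx.le a
  have hm : ∀ {a b : ℝ}, b ≤ a → x ^ a ≤ x ^ b := fun hab =>
    Real.rpow_le_rpow_of_exponent_ge hx hx1 hab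
  set τ := Ct * x ^ (-(8 * etaS)) with hτdef
  have hτ1 : 1 ≤ τ :=
    one_le_mul_of_one_le_of_one_le hCt1 (h.one_le_pow (by norm_num [etaS]))
  have hτ : ∀ n : ℕ, 0 < n → n ≤ topD x → (n.divisors.card : ℝ) ≤ τ := by
    intro n hn hnD
    refine (hdiv n hn).trans (mul_le_mul_of_nonneg_left ?_ (by linarith))
    rw [show -(8 * etaS) = -(8 : ℝ) * etaS by ring, Real.rpow_mul hx.le]
    exact Real.rpow_le_rpow (Nat.cast_nonneg _) ((Nat.cast_le.2 hnD).trans (Nat.floor_le (hp _)))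
      (by norm_num [etaS])
  set G := 2 * x ^ (-(3 * tauL)) with hG
  have hG0 : 0 < G := by
    rw [hG]; exact mul_pos two_pos (Real.rpow_pos_of_pos hx _)
  set M := ∑ w ∈ W, F w with hM
  have hM0 : 0 ≤ M := Finset.sum_nonneg fun v _ => hpool.F_nonneg v
  set Mθ := M ^ (2 * thL + omL) with hMθ
  have hMθ0 : 0 ≤ Mθ := Real.rpow_nonneg hM0 _
  have hFF : ∀ w w', 0 ≤ F w * F w' := fun w w' =>
    mul_nonneg (hpool.F_nonneg w) (hpool.F_nonneg w')
  have hbd : ∀ w ∈ W, ∀ w' ∈ W.filter (fun w' =>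
      max (qd w' w : ℝ) (qd w w') ≤ x ^ (-(8 : ℝ))),
      w' ∈ W ∧ 0 < w ∧ 0 < w' ∧ ((qd w' w).divisors.card : ℝ) ≤ τ ∧
        ((qd w w').divisors.card : ℝ) ≤ τ := by
    intro w hw w' hw'
    obtain ⟨hw'W, hH⟩ := Finset.mem_filter.1 hw'
    refine ⟨hw'W, hpool.pos w hw, hpool.pos w' hw'W, ?_, ?_⟩
    · exact hτ _ (BilinearAux.qd_pos (hpool.pos w' hw'W))
        (Nat.le_floor ((le_max_left _ _).trans hH))
    · exact hτ _ (BilinearAux.qd_pos (hpool.pos w hw))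
        (Nat.le_floor ((le_max_right _ _).trans hH))
  -- the large common factors
  have hA : ∑ w ∈ W, ∑ w' ∈ W.filter (fun w' =>
        max (qd w' w : ℝ) (qd w w') ≤ x ^ (-(8 : ℝ))), F w * F w' *
      (∑ q ∈ (qSet B (qd w' w, qd w w')).filter (fun q => G ≤ (Nat.gcd q.1 q.2 : ℝ)),
        E / (Nat.gcd q.1 q.2 : ℝ) / max (qd w' w : ℝ) (qd w w')) ≤
      Ct * Ct * CL * Ci * x ^ (1 + 8 * gainL) * Mθ := by
    calc _ ≤ ∑ w ∈ W, ∑ w' ∈ W.filter (fun w' =>
          max (qd w' w : ℝ) (qd w w') ≤ x ^ (-(8 : ℝ))), τ * τ * (E * x ^ (sigR / 2)) *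
            (F w * F w' * (1 / max (qd w' w : ℝ) (qd w w'))) := by
          refine Finset.sum_le_sum fun w hw => Finset.sum_le_sum fun w' hw' => ?_
          obtain ⟨hw'W, hw0, hw0', ht1, ht2⟩ := hbd w hw w' hw'
          refine (mul_le_mul_of_nonneg_left (kA_le hE hB.mem (hp _) hG0
            (fun p hp0 hlen => hB.thin p hp0 (le_trans (le_of_eq (by rw [hG]; ring)) hlen))
            (qd w' w, qd w w') (BilinearAux.qd_pos hw0') (BilinearAux.qd_pos hw0) ht1 ht2)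
            (hFF w w')).trans (le_of_eq ?_)
          ring
      _ = τ * τ * (E * x ^ (sigR / 2)) * ∑ w ∈ W, ∑ w' ∈ W.filter (fun w' =>
          max (qd w' w : ℝ) (qd w w') ≤ x ^ (-(8 : ℝ))),
            F w * F w' * (1 / max (qd w' w : ℝ) (qd w w')) := by
          simp only [Finset.mul_sum]
      _ ≤ τ * τ * (E * x ^ (sigR / 2)) * (Ci * L * (x / E) * x ^ (-(4 * delL)) * Mθ) :=
          mul_le_mul_of_nonneg_left (hinv F f W k Y x E h)
            (mul_nonneg (mul_self_nonneg τ) (mul_nonneg hE.le (hp _)))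
      _ = Ct * Ct * Ci * Mθ * L * (x ^ (-(8 * etaS)) * x ^ (-(8 * etaS)) * x ^ (sigR / 2) *
            x ^ (1 : ℝ) * x ^ (-(4 * delL))) := by
          rw [hτdef, Real.rpow_one]; field_simp
      _ ≤ Ct * Ct * Ci * Mθ * (CL * x ^ (-etaS)) * (x ^ (-(8 * etaS)) * x ^ (-(8 * etaS)) *
            x ^ (sigR / 2) * x ^ (1 : ℝ) * x ^ (-(4 * delL))) := by
          gcongr
      _ = Ct * Ct * CL * Ci * Mθ * x ^ (-etaS + (-(8 * etaS) + -(8 * etaS) + sigR / 2 + 1 +
            -(4 * delL))) := by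
          simp only [Real.rpow_add hx]; ring
      _ ≤ Ct * Ct * CL * Ci * Mθ * x ^ (1 + 8 * gainL) :=
          mul_le_mul_of_nonneg_left (hm (by norm_num [etaS, sigR, delL, gainL])) (by positivity)
      _ = _ := by ring
  -- the small heights
  have hBp : ∑ w ∈ W, ∑ w' ∈ W.filter (fun w' =>
        max (qd w' w : ℝ) (qd w w') ≤ x ^ (-(8 : ℝ))), F w * F w' *
      (if E ≤ x ^ (-(102 / 100 : ℝ)) then
        ∑ q ∈ (qSet B (qd w' w, qd w w')).filter
            (fun q => (ht w w' : ℝ) ≤ E / (Nat.gcd q.1 q.2 : ℝ) * x ^ (-(1 / 2 : ℝ))),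
          E / (Nat.gcd q.1 q.2 : ℝ) / max (qd w' w : ℝ) (qd w w') else 0) ≤
      4 * x ^ (1 + 8 * gainL) * M := by
    by_cases hsmall : E ≤ x ^ (-(102 / 100 : ℝ))
    swap
    · simp only [if_neg hsmall, mul_zero, Finset.sum_const_zero]
      positivity
    simp only [if_pos hsmall]
    refine le_trans (Finset.sum_le_sum fun w _ =>
      Finset.sum_le_sum_of_subset_of_nonneg (Finset.filter_subset _ W) fun w' _ _ =>
        mul_nonneg (hFF w w') (Finset.sum_nonneg fun q _ => by positivity)) ?_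
    refine (kB_sum_le h hB.mem (hp _)).trans ?_
    have hcard : (B.card : ℝ) ^ 2 ≤ x ^ (-(1 / 10 : ℝ)) := by
      refine (pow_le_pow_left₀ (Nat.cast_nonneg _) (hB.small hsmall) 2).trans (le_of_eq ?_)
      rw [← Real.rpow_natCast, ← Real.rpow_mul hx.le]
      norm_num
    have hxE : x / E ≤ x ^ (1899 / 1000 : ℝ) := by
      rw [div_le_iff₀ hE]
      refine le_trans (le_of_eq ?_) (mul_le_mul_of_nonneg_left hE1 (hp _))
      rw [← Real.rpow_add hx]
      norm_num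
    calc (B.card : ℝ) ^ 2 * (4 * x ^ (-(1 / 2 : ℝ))) * (x / E) * M
        ≤ x ^ (-(1 / 10 : ℝ)) * (4 * x ^ (-(1 / 2 : ℝ))) * x ^ (1899 / 1000 : ℝ) * M := by
          gcongr
      _ = 4 * M * x ^ (-(1 / 10) + -(1 / 2) + (1899 / 1000 : ℝ)) := by
          simp only [Real.rpow_add hx]; ring
      _ ≤ 4 * M * x ^ (1 + 8 * gainL) :=
          mul_le_mul_of_nonneg_left (hm (by norm_num [gainL])) (by positivity)
      _ = _ := by ring
  -- the sparse range
  have hC : ∑ w ∈ W, ∑ w' ∈ W.filter (fun w' =>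
        max (qd w' w : ℝ) (qd w w') ≤ x ^ (-(8 : ℝ))), F w * F w' *
      (∑ q ∈ (qSet B (qd w' w, qd w w')).filter (fun q => ¬ G ≤ (Nat.gcd q.1 q.2 : ℝ) ∧
          SparseCase x E (Nat.gcd q.1 q.2) (max (qd w' w : ℝ) (qd w w'))),
        E / (Nat.gcd q.1 q.2 : ℝ) / max (qd w' w : ℝ) (qd w w')) ≤
      Ct * Ct * (4 * CL ^ 2) * Cs * (1 + 2 * D0) * x ^ (1 + 8 * gainL) * Mθ := by
    set Γ := τ * x ^ (sigR / 2) * L ^ 2 with hΓ
    have hΓ0 : 0 ≤ Γ := mul_nonneg (mul_nonneg (by linarith) (hp _)) (sq_nonneg _)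
    set Bk := x ^ gamS + x ^ (-(4 * delL)) * (Γ ^ alL1 + Γ ^ alL2) with hBk
    have hΓle : Γ ≤ D0 * x ^ (sigR / 2 - 10 * etaS) := by
      calc Γ ≤ τ * x ^ (sigR / 2) * (CL * x ^ (-etaS)) ^ 2 :=
            mul_le_mul_of_nonneg_left (pow_le_pow_left₀ (by linarith) hL2 2)
              (mul_nonneg (by linarith) (hp _))
        _ = D0 * x ^ (-(8 * etaS) + sigR / 2 + -etaS + -etaS) := by
            rw [hτdef, hD0]; simp only [Real.rpow_add hx]; ring
        _ = _ := by congr 2; ring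
    have hpow : ∀ a : ℝ, 0 ≤ a → a ≤ 1 → gamS ≤ -(4 * delL) + (sigR / 2 - 10 * etaS) * a →
        x ^ (-(4 * delL)) * Γ ^ a ≤ D0 * x ^ gamS := by
      intro a ha0 ha1 hexp
      calc x ^ (-(4 * delL)) * Γ ^ a
          ≤ x ^ (-(4 * delL)) * (D0 * x ^ (sigR / 2 - 10 * etaS)) ^ a :=
            mul_le_mul_of_nonneg_left (Real.rpow_le_rpow hΓ0 hΓle ha0) (hp _)
        _ = D0 ^ a * x ^ (-(4 * delL) + (sigR / 2 - 10 * etaS) * a) := by
            rw [Real.mul_rpow (by linarith) (hp _), Real.rpow_add hx, Real.rpow_mul hx.le]; ring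
        _ ≤ D0 * x ^ gamS := mul_le_mul (Real.rpow_le_self_of_one_le hD01 ha1) (hm hexp) (hp _)
            (by linarith)
    have hBk_le : Bk ≤ (1 + 2 * D0) * x ^ gamS := by
      have h1 := hpow alL1 (by norm_num [alL1, delL, omL]) (by norm_num [alL1, delL, omL])
        (by norm_num [gamS, delL, sigR, etaS, alL1, omL])
      have h2 := hpow alL2 (by norm_num [alL2, delL, omL]) (by norm_num [alL2, delL, omL])
        (by norm_num [gamS, delL, sigR, etaS, alL2, omL])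
      rw [hBk, mul_add]
      linarith
    have hBk0 : 0 ≤ Bk := by
      have := hp gamS
      have := hp (-(4 * delL))
      positivity
    have hGfl : ∀ g ∈ Finset.Icc 1 ⌊G⌋₊, 0 < g ∧ (g : ℝ) ≤ G := fun g hg =>
      ⟨(Finset.mem_Icc.1 hg).1,
        (Nat.cast_le.2 (Finset.mem_Icc.1 hg).2).trans (Nat.floor_le hG0.le)⟩
    have hharm : ∑ g ∈ Finset.Icc 1 ⌊G⌋₊, 1 / (g : ℝ) ≤ 2 * L := by
      refine (sum_inv_Icc_le _).trans ?_
      have hflt : ⌊G⌋₊ ≤ topD x := by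
        refine Nat.floor_le_floor ?_
        have h1 : (2 : ℝ) ≤ x ^ (-(1 : ℝ)) := by
          rw [Real.rpow_neg_one, le_inv_comm₀ two_pos hx]
          exact hxs.trans (by norm_num)
        calc G ≤ x ^ (-(1 : ℝ)) * x ^ (-(3 * tauL)) := mul_le_mul_of_nonneg_right h1 (hp _)
          _ = x ^ (-(1 : ℝ) + -(3 * tauL)) := (Real.rpow_add hx _ _).symm
          _ ≤ x ^ (-(8 : ℝ)) := hm (by norm_num [tauL])
      rcases Nat.eq_zero_or_pos ⌊G⌋₊ with h0 | h0
      · rw [h0, Nat.cast_zero, Real.log_zero]; linarith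
      · have := Real.log_le_log (Nat.cast_pos.2 h0) (Nat.cast_le (α := ℝ).2 hflt)
        linarith
    calc _ ≤ ∑ w ∈ W, ∑ w' ∈ W.filter (fun w' =>
          max (qd w' w : ℝ) (qd w w') ≤ x ^ (-(8 : ℝ))), F w * F w' *
            (τ * τ * ∑ g ∈ Finset.Icc 1 ⌊G⌋₊, (if SparsePair x E B g w w' then
              E / (g : ℝ) / max (qd w' w : ℝ) (qd w w') else 0)) := by
          refine Finset.sum_le_sum fun w hw => Finset.sum_le_sum fun w' hw' => ?_
          obtain ⟨hw'W, hw0, hw0', ht1, ht2⟩ := hbd w hw w' hw'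
          exact mul_le_mul_of_nonneg_left (kC_le hE hB.mem w w' hw0 hw0' ht1 ht2) (hFF w w')
      _ = τ * τ * ∑ g ∈ Finset.Icc 1 ⌊G⌋₊, ∑ w ∈ W, ∑ w' ∈ W.filter (fun w' =>
          max (qd w' w : ℝ) (qd w w') ≤ x ^ (-(8 : ℝ))), F w * F w' *
            (if SparsePair x E B g w w' then
              E / (g : ℝ) / max (qd w' w : ℝ) (qd w w') else 0) := by
          simp only [Finset.mul_sum]
          conv_rhs => rw [Finset.sum_comm]
          refine Finset.sum_congr rfl fun w _ => ?_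
          rw [Finset.sum_comm]
          exact Finset.sum_congr rfl fun g _ => Finset.sum_congr rfl fun w' _ => by ring
      _ ≤ τ * τ * ∑ g ∈ Finset.Icc 1 ⌊G⌋₊, 2 * L * (Cs * (x / g) * Bk * Mθ) := by
          refine mul_le_mul_of_nonneg_left (Finset.sum_le_sum fun g hg => ?_) (mul_self_nonneg τ)
          rw [sum_pairs_dyadic]
          refine (Finset.sum_le_card_nsmul _ _ _ fun j _ => hblock F f W k Y x E B τ g j h hB.mem
            hB.thin (hGfl g hg).1 (hGfl g hg).2 hτ1 hτ).trans ?_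
          rw [nsmul_eq_mul, Finset.card_range]
          exact mul_le_mul_of_nonneg_right hJ
            (mul_nonneg (mul_nonneg (mul_nonneg hCs.le (by positivity)) hBk0) hMθ0)
      _ = τ * τ * (2 * L) * Cs * x * Bk * Mθ * ∑ g ∈ Finset.Icc 1 ⌊G⌋₊, 1 / (g : ℝ) := by
          simp only [Finset.mul_sum]
          exact Finset.sum_congr rfl fun g _ => by ring
      _ ≤ τ * τ * (2 * L) * Cs * x * Bk * Mθ * (2 * L) :=
          mul_le_mul_of_nonneg_left hharm (by positivity)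
      _ = Ct * Ct * 4 * Cs * Mθ * (L ^ 2 * Bk) *
            (x ^ (-(8 * etaS)) * x ^ (-(8 * etaS)) * x ^ (1 : ℝ)) := by
          rw [hτdef, Real.rpow_one]; ring
      _ ≤ Ct * Ct * 4 * Cs * Mθ * ((CL * x ^ (-etaS)) ^ 2 * ((1 + 2 * D0) * x ^ gamS)) *
            (x ^ (-(8 * etaS)) * x ^ (-(8 * etaS)) * x ^ (1 : ℝ)) := by
          gcongr
      _ = Ct * Ct * (4 * CL ^ 2) * Cs * (1 + 2 * D0) * Mθ *
            x ^ (-etaS + -etaS + gamS + -(8 * etaS) + -(8 * etaS) + 1) := by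
          simp only [Real.rpow_add hx]; ring
      _ ≤ Ct * Ct * (4 * CL ^ 2) * Cs * (1 + 2 * D0) * Mθ * x ^ (1 + 8 * gainL) :=
          mul_le_mul_of_nonneg_left (hm (by norm_num [etaS, gamS, gainL])) (by positivity)
      _ = _ := by ring
  calc _ ≤ _ := Finset.sum_le_sum fun w _ => Finset.sum_le_sum fun w' _ =>
        mul_le_mul_of_nonneg_left (selfK_le_parts hE G _ w w' rfl) (hFF w w')
    _ ≤ Ct * Ct * CL * Ci * x ^ (1 + 8 * gainL) * Mθ + 4 * x ^ (1 + 8 * gainL) * M +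
        Ct * Ct * (4 * CL ^ 2) * Cs * (1 + 2 * D0) * x ^ (1 + 8 * gainL) * Mθ := by
        refine le_trans (le_of_eq ?_) (add_le_add (add_le_add hA hBp) hC)
        simp only [← Finset.sum_add_distrib]
        exact Finset.sum_congr rfl fun w _ => Finset.sum_congr rfl fun w' _ => by ring
    _ ≤ _ := by
        have hy := hp (1 + 8 * gainL)
        have t1 : 0 ≤ Ct * Ct * CL * Ci * (x ^ (1 + 8 * gainL) * M) := by positivity
        have t2 : 0 ≤ Ct * Ct * (4 * CL ^ 2) * Cs * (1 + 2 * D0) * (x ^ (1 + 8 * gainL) * M) := by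
          positivity
        have t3 : 0 ≤ 4 * (x ^ (1 + 8 * gainL) * Mθ) := by positivity
        have t4 : 0 ≤ (256 : ℝ) ^ 100 * (x ^ (1 + 8 * gainL) * (M + Mθ)) := by positivity
        have e : (256 ^ 100 + C0) * x ^ (1 + 8 * gainL) * (M + Mθ) =
            Ct * Ct * CL * Ci * x ^ (1 + 8 * gainL) * Mθ + 4 * x ^ (1 + 8 * gainL) * M +
              Ct * Ct * (4 * CL ^ 2) * Cs * (1 + 2 * D0) * x ^ (1 + 8 * gainL) * Mθ +
              (Ct * Ct * CL * Ci * (x ^ (1 + 8 * gainL) * M) +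
                Ct * Ct * (4 * CL ^ 2) * Cs * (1 + 2 * D0) * (x ^ (1 + 8 * gainL) * M) +
                4 * (x ^ (1 + 8 * gainL) * Mθ) +
                256 ^ 100 * (x ^ (1 + 8 * gainL) * (M + Mθ))) := by
          rw [hC0]; ring
        linarith

end Vale.Agent.P028.Lift
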